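import Crest.Agent.R20.Defs

/-!
# R20/ACoef: the coefficients `a_d`, `c_N`, the sequence `g`, existence of `ρ`
-/

set_option autoImplicit false

open Finset Filter Topology Crest.NumberTheoryR.TotientScale

namespace Crest.Agent.R20

theorem ACoef_mul_log {x y : ℝ} (hx : 0 ≤ x) (hy : 0 < y) :
    x * Real.log y - y ≤ x * Real.log x - x := by
  rcases hx.eq_or_lt with rfl | hx
  · simp [hy.le]
  · have h1 := mul_le_mul_of_nonneg_left (Real.log_le_sub_one_of_pos (div_pos hy hx)) hx.le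
    rw [Real.log_div hy.ne' hx.ne', mul_sub, mul_sub, mul_div_cancel₀ _ hx.ne'] at h1
    linarith

theorem ACoef_one_eq : aCoef 1 = 2 * Real.log 2 - 1 := by
  unfold aCoef
  norm_num

theorem aCoef_eq_cN (d : ℕ) : aCoef d = cN (d + 1) - cN d := by
  unfold aCoef cN
  push_cast
  ring

theorem cN_one : cN 1 = 0 := by
  simp [cN]

/-- `N log N - N + 1 ≥ 0` (`Real.one_sub_inv_le_log_of_pos`; `cN 0 = 1`) -/
theorem cN_nonneg (N : ℕ) : 0 ≤ cN N := by
  have := ACoef_mul_log (x := N) (y := 1) (Nat.cast_nonneg N) one_pos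
  rw [Real.log_one] at this
  unfold cN
  linarith

/-- `a_1 = 2 log 2 - 1` (`Real.log_two_gt_d9`) -/
theorem aCoef_one : 0.386 < aCoef 1 ∧ aCoef 1 < 0.387 := by
  have h1 := Real.log_two_gt_d9
  have h2 := Real.log_two_lt_d9
  rw [ACoef_one_eq]
  constructor <;> linarith

/-- `a_2 = 3 log 3 - 2 log 2 - 1`; `3^12 > 2^19` gives `log 3 > 19/12 log 2` -/
theorem aCoef_two : 0.905 < aCoef 2 := by
  have h1 := Real.log_two_gt_d9
  have h2 : Real.log (2 ^ 19) ≤ Real.log (3 ^ 12) := Real.log_le_log (by norm_num) (by norm_num)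
  rw [Real.log_pow, Real.log_pow] at h2
  have h3 : aCoef 2 = 3 * Real.log 3 - 2 * Real.log 2 - 1 := by
    unfold aCoef
    norm_num
  rw [h3]
  push_cast at h2
  linarith

/-- convexity of `x log x` (`Real.convexOn_mul_log`), or `log (1 + 1/d)` estimates -/
theorem aCoef_le_succ (d : ℕ) : aCoef d ≤ aCoef (d + 1) := by
  have h := @Real.convexOn_mul_log.2 (d : ℝ) (Set.mem_Ici.2 (by positivity)) ((d : ℝ) + 1 + 1)
    (Set.mem_Ici.2 (by positivity)) (1 / 2) (1 / 2) (by norm_num) (by norm_num) (by norm_num)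
  have e : (1 / 2 : ℝ) • (d : ℝ) + (1 / 2 : ℝ) • ((d : ℝ) + 1 + 1) = d + 1 := by
    simp only [smul_eq_mul]; ring
  rw [e] at h
  simp only [smul_eq_mul] at h
  unfold aCoef
  push_cast
  linarith

theorem aCoef_mono : Monotone aCoef := by
  exact monotone_nat_of_le_succ aCoef_le_succ

/-- `a_d = log (d+1) + d log (1 + 1/d) - 1 ≤ log (d+1)` -/
theorem aCoef_le_log (d : ℕ) : aCoef d ≤ Real.log (d + 1) := by
  have := ACoef_mul_log (x := d) (y := d + 1) (Nat.cast_nonneg d) (by positivity)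
  unfold aCoef
  linarith

theorem aCoef_le_self (d : ℕ) : aCoef d ≤ d := by
  have := Real.log_le_sub_one_of_pos (show (0 : ℝ) < d + 1 by positivity)
  linarith [aCoef_le_log d]

/-- `a_{d+1} ≤ log (d+2)`, `a_d ≥ log d`, `log ((d+2)/d) ≤ log 2` for `d ≥ 2`; `d = 1` by hand -/
theorem aCoef_succ_le {d : ℕ} (hd : 1 ≤ d) : aCoef (d + 1) ≤ aCoef d + 1 := by
  have h1 := aCoef_le_log (d + 1)
  push_cast at h1
  rcases hd.eq_or_lt with rfl | hd
  · have h2 : Real.log (((1 : ℕ) : ℝ) + 1 + 1) ≤ Real.log (2 ^ 2) :=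
      Real.log_le_log (by norm_num) (by norm_num)
    rw [Real.log_pow] at h2
    rw [ACoef_one_eq]
    push_cast at h1 h2 ⊢
    linarith
  · have hd' : (2 : ℝ) ≤ d := by exact_mod_cast hd
    have h2 := ACoef_mul_log (x := d + 1) (y := d) (by positivity) (by positivity)
    have h3 : Real.log ((d : ℝ) + 1 + 1) ≤ Real.log (2 * d) :=
      Real.log_le_log (by positivity) (by linarith)
    rw [Real.log_mul (by norm_num) (by positivity)] at h3
    have h4 := Real.log_two_lt_d9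
    have h5 : Real.log d ≤ aCoef d := by
      unfold aCoef
      linarith
    linarith

theorem aCoef_pos {d : ℕ} (hd : 1 ≤ d) : 0 < aCoef d := by
  linarith [aCoef_mono hd, aCoef_one.1]

theorem cN_mono {N N' : ℕ} (h1 : 1 ≤ N) (h : N ≤ N') : cN N ≤ cN N' := by
  induction N', h using Nat.le_induction with
  | base => exact le_rfl
  | succ n hn ih =>
    have := aCoef_pos (h1.trans hn)
    rw [aCoef_eq_cN] at this
    linarith

/-- `N log (N'/N) ≤ N' - N` -/
theorem mul_log_sub_le {N N' : ℕ} (h : 1 ≤ N') :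
    (N : ℝ) * Real.log N' - N' ≤ N * Real.log N - N := by
  exact ACoef_mul_log (Nat.cast_nonneg N) (by exact_mod_cast h)

/-- induction on `D`: adding the level `D+1` raises the count from `D+1` to `D+2` exactly for `t ≤ y (D+1)` -/
theorem profile_sum (D : ℕ) (y : ℕ → ℕ) (hy : ∀ d < D, y (d + 1) ≤ y d) :
    ∑ t ∈ Icc 1 (y 0), cN ((range (D + 1)).filter fun d => t ≤ y d).card =
      ∑ d ∈ Icc 1 D, aCoef d * y d := by
  induction D with
  | zero =>
    rw [show Icc 1 0 = (∅ : Finset ℕ) from rfl, sum_empty]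
    refine sum_eq_zero fun t ht => ?_
    rw [filter_true_of_mem fun d hd => by
      rw [show d = 0 by simpa using hd]; exact (mem_Icc.1 ht).2, card_range]
    exact cN_one
  | succ D ih =>
    have hm : ∀ d ≤ D + 1, y (D + 1) ≤ y d := by
      intro d hd
      induction hd using Nat.decreasingInduction with
      | self => exact le_rfl
      | of_succ k hk ih => exact ih.trans (hy k hk)
    rw [sum_Icc_succ_top (by omega), ← ih fun d hd => hy d (by omega)]
    have h1 : ∀ t, cN ((range (D + 1 + 1)).filter fun d => t ≤ y d).card =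
        cN ((range (D + 1)).filter fun d => t ≤ y d).card +
          if t ≤ y (D + 1) then aCoef (D + 1) else 0 := by
      intro t
      split_ifs with ht
      · rw [filter_true_of_mem fun d hd => ht.trans (hm d (by have := mem_range.1 hd; omega)),
          filter_true_of_mem fun d hd => ht.trans (hm d (by have := mem_range.1 hd; omega)),
          card_range, card_range, aCoef_eq_cN]
        ring
      · rw [range_add_one (n := D + 1), filter_insert, if_neg ht, add_zero]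
    rw [sum_congr rfl fun t _ => h1 t, sum_add_distrib, ← sum_filter, sum_const]
    have h2 : (Icc 1 (y 0)).filter (fun t => t ≤ y (D + 1)) = Icc 1 (y (D + 1)) := by
      have := hm 0 (by omega)
      ext t
      simp only [mem_filter, mem_Icc]
      omega
    rw [h2, Nat.card_Icc, nsmul_eq_mul, mul_comm]
    simp

theorem gSeq_zero : gSeq 0 = 1 := by
  rfl

theorem gList_getD (j d : ℕ) (h : d ≤ j) : (gList j).getD d 0 = gSeq (j - d) := by
  induction j generalizing d with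
  | zero =>
    obtain rfl : d = 0 := by omega
    rfl
  | succ j ih =>
    rcases d with _ | d
    · rfl
    · rw [gList, List.getD_cons_succ, ih d (by omega), Nat.add_sub_add_right]

theorem gSeq_rec {k : ℕ} (hk : 1 ≤ k) : gSeq k = ∑ l ∈ range k, gSeq l * aCoef (k - l) := by
  obtain ⟨j, rfl⟩ : ∃ j, k = j + 1 := ⟨k - 1, by omega⟩
  rw [← sum_range_reflect, gSeq, gList, List.getD_cons_zero]
  refine sum_congr rfl fun d hd => ?_
  have := mem_range.1 hd
  rw [gList_getD j d (by omega), mul_comm, show j + 1 - 1 - d = j - d by omega,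
    show j + 1 - (j - d) = d + 1 by omega]

theorem gSeq_pos (k : ℕ) : 0 < gSeq k := by
  induction k using Nat.strong_induction_on with
  | _ k ih =>
    rcases Nat.eq_zero_or_pos k with rfl | hk
    · rw [gSeq_zero]; exact one_pos
    · rw [gSeq_rec hk]
      exact sum_pos (fun l hl => mul_pos (ih l (mem_range.1 hl))
        (aCoef_pos (by have := mem_range.1 hl; omega))) (nonempty_range_iff.2 hk.ne')

theorem gP_pos (l : ℕ) : 0 < gP l := by
  exact prod_pos fun i _ => gSeq_pos _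

theorem GG_zero (B : ℝ) : GG 0 B = 1 := by
  simp [GG, gP]

theorem GG_pos (l : ℕ) {B : ℝ} (hB : 0 < B) : 0 < GG l B := by
  have := gP_pos l
  unfold GG
  positivity

theorem GG_succ (l : ℕ) {B : ℝ} (hB : 0 < B) :
    GG l B = GG (l + 1) B * ((l + 1) * gSeq (l + 1) / B) := by
  have h1 := gP_pos l
  have h2 := gSeq_pos (l + 1)
  have h3 : gP (l + 1) = gP l * gSeq (l + 1) := prod_range_succ _ _
  unfold GG
  rw [h3, Nat.factorial_succ]
  push_cast
  field_simp
  rw [pow_succ]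

theorem scaleG_eq (ρ x : ℝ) : scaleG ρ x = GG (mIndex ρ x) (bigB x) := by
  rfl

/-- `f r = ∑' a_{j+1} r^{j+1}` is continuous on `[0, 9/10]` (`continuousOn_tsum`, `a_d ≤ d`), `f 0 = 0`,
`f (9/10) ≥ a_1 (9/10) + a_2 (9/10)^2 > 1`; intermediate value theorem -/
theorem exists_isRho : ∃ ρ, IsRho ρ := by
  have hu : Summable fun j : ℕ => ((j + 1 : ℕ) : ℝ) ^ 1 * (9 / 10 : ℝ) ^ (j + 1) :=
    (summable_nat_add_iff (f := fun n : ℕ => (n : ℝ) ^ 1 * (9 / 10 : ℝ) ^ n) 1).2
      (summable_pow_mul_geometric_of_norm_lt_one 1 (by rw [Real.norm_eq_abs, abs_of_pos] <;> norm_num))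
  have hb : ∀ (j : ℕ) (r : ℝ), r ∈ Set.Icc (0 : ℝ) (9 / 10) →
      ‖aCoef (j + 1) * r ^ (j + 1)‖ ≤ ((j + 1 : ℕ) : ℝ) ^ 1 * (9 / 10 : ℝ) ^ (j + 1) := by
    intro j r hr
    rw [Real.norm_of_nonneg (mul_nonneg (aCoef_pos (by omega)).le (pow_nonneg hr.1 _)), pow_one]
    exact mul_le_mul (aCoef_le_self _) (pow_le_pow_left₀ hr.1 hr.2 _) (pow_nonneg hr.1 _)
      (Nat.cast_nonneg _)
  have hc : ContinuousOn (fun r : ℝ => ∑' j : ℕ, aCoef (j + 1) * r ^ (j + 1)) (Set.Icc 0 (9 / 10)) :=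
    continuousOn_tsum (fun j => by fun_prop) hu hb
  have hs : ∀ r ∈ Set.Icc (0 : ℝ) (9 / 10), Summable fun j : ℕ => aCoef (j + 1) * r ^ (j + 1) :=
    fun r hr => Summable.of_norm_bounded hu fun j => hb j r hr
  have h0 : ∑' j : ℕ, aCoef (j + 1) * (0 : ℝ) ^ (j + 1) = 0 := by simp
  have h1 : 1 ≤ ∑' j : ℕ, aCoef (j + 1) * (9 / 10 : ℝ) ^ (j + 1) := by
    refine le_trans ?_ ((hs _ ⟨by norm_num, le_rfl⟩).sum_le_tsum (range 2) fun j _ =>
      mul_nonneg (aCoef_pos (by omega)).le (by positivity))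
    simp only [sum_range_succ, sum_range_zero]
    norm_num
    linarith [aCoef_one.1, aCoef_two]
  obtain ⟨ρ, hρ, hρ1⟩ := intermediate_value_Icc (by norm_num : (0 : ℝ) ≤ 9 / 10) hc
    (show (1 : ℝ) ∈ Set.Icc _ _ from ⟨by simp only [h0]; exact zero_le_one, h1⟩)
  refine ⟨ρ, hρ.1.lt_of_ne ?_, hρ.2.trans_lt (by norm_num), hρ1 ▸ (hs ρ hρ).hasSum⟩
  rintro rfl
  simp only [h0] at hρ1
  exact zero_ne_one hρ1

theorem pw_nonneg (l : ℕ) (x : ℝ) : 0 ≤ pw l x := by
  unfold pw
  split_ifs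
  · positivity
  · exact le_rfl

theorem pw_mono (l : ℕ) : Monotone (pw l) := by
  intro x y hxy
  by_cases hx : 0 ≤ x
  · unfold pw
    rw [if_pos hx, if_pos (hx.trans hxy)]
    exact div_le_div_of_nonneg_right (pow_le_pow_left₀ hx hxy l) (Nat.cast_nonneg _)
  · rw [pw, if_neg hx]
    exact pw_nonneg l y

/-- `1 + w/Y ≤ exp (w/Y)` -/
theorem pw_add_le (l : ℕ) {Y : ℝ} (hY : 0 < Y) (w : ℝ) :
    pw l (Y + w) ≤ Y ^ l / l.factorial * Real.exp (l * w / Y) := by
  unfold pw
  split_ifs with h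
  · rw [div_mul_eq_mul_div, mul_div_assoc (l : ℝ), Real.exp_nat_mul, ← mul_pow]
    refine div_le_div_of_nonneg_right (pow_le_pow_left₀ h ?_ l) (Nat.cast_nonneg _)
    have h1 := mul_le_mul_of_nonneg_left (Real.add_one_le_exp (w / Y)) hY.le
    rwa [mul_add, mul_div_cancel₀ _ hY.ne', mul_one, add_comm] at h1
  · positivity

/-- `exp (-s - 2 s²) ≤ 1 - s` for `0 ≤ s ≤ 1/2` -/
theorem le_pw_sub (l : ℕ) {Y w : ℝ} (hY : 0 < Y) (hw : 0 ≤ w) (h : 2 * w ≤ Y) :
    Y ^ l / l.factorial * Real.exp (-(l * w / Y) - 2 * l * (w / Y) ^ 2) ≤ pw l (Y - w) := by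
  have hs0 : 0 ≤ w / Y := by positivity
  have hs1 : w / Y ≤ 1 / 2 := by rw [div_le_iff₀ hY]; linarith
  have e : -(l * w / Y) - 2 * l * (w / Y) ^ 2 = l * -(w / Y + 2 * (w / Y) ^ 2) := by ring
  rw [pw, if_pos (by linarith), e, div_mul_eq_mul_div, Real.exp_nat_mul, ← mul_pow]
  refine div_le_div_of_nonneg_right (pow_le_pow_left₀ (by positivity) ?_ l) (Nat.cast_nonneg _)
  have e2 : Y - w = Y * (1 - w / Y) := by field_simp
  rw [e2]
  refine mul_le_mul_of_nonneg_left ?_ hY.le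
  generalize w / Y = s at hs0 hs1
  have h1 := Real.add_one_le_exp (s + 2 * s ^ 2)
  rw [Real.exp_neg, inv_le_iff_one_le_mul₀ (Real.exp_pos _)]
  have h2 := mul_le_mul_of_nonneg_left h1 (show 0 ≤ 1 - s by linarith)
  nlinarith [mul_nonneg (sq_nonneg s) (show 0 ≤ 1 - 2 * s by linarith)]

/-- convexity: `c pw_l(x) ≤ pw_{l+1}(x + c) - pw_{l+1}(x)` -/
theorem pw_step_le (l : ℕ) (x : ℝ) {c : ℝ} (hc : 0 ≤ c) :
    c * pw l x ≤ pw (l + 1) (x + c) - pw (l + 1) x := by
  by_cases hx : 0 ≤ x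
  · have h1 := pow_add_mul_le_add_pow hx (show 0 ≤ 2 * x + c by linarith) (l + 1)
    unfold pw
    rw [if_pos hx, if_pos hx, if_pos (by linarith), ← sub_div, Nat.factorial_succ,
      le_div_iff₀ (by positivity)]
    have h2 : (0 : ℝ) < l.factorial := by positivity
    have e : c * (x ^ l / l.factorial) * (((l + 1) * l.factorial : ℕ) : ℝ) =
        ((l + 1 : ℕ) : ℝ) * x ^ (l + 1 - 1) * c := by
      rw [Nat.add_sub_cancel]; push_cast; field_simp
    rw [e]
    linarith
  · have h1 := pw_nonneg (l + 1) (x + c)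
    rw [pw, if_neg hx, pw.eq_1 (l + 1) x, if_neg hx]
    linarith

/-- convexity: `pw_{l+1}(x) - pw_{l+1}(x - c) ≤ c pw_l(x)` -/
theorem pw_step_ge (l : ℕ) (x : ℝ) {c : ℝ} (hc : 0 ≤ c) :
    pw (l + 1) x - pw (l + 1) (x - c) ≤ c * pw l x := by
  have h2 : (0 : ℝ) < l.factorial := by positivity
  by_cases hx : 0 ≤ x
  · have e : c * (x ^ l / l.factorial) * (((l + 1) * l.factorial : ℕ) : ℝ) =
        ((l + 1 : ℕ) : ℝ) * x ^ (l + 1 - 1) * c := by
      rw [Nat.add_sub_cancel]; push_cast; field_simp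
    unfold pw
    rw [if_pos hx, if_pos hx]
    split_ifs with hxc
    · have h1 := pow_add_mul_le_add_pow hx (show 0 ≤ 2 * x + -c by linarith) (l + 1)
      rw [← sub_div, Nat.factorial_succ, div_le_iff₀ (by positivity), e, sub_eq_add_neg x c]
      linarith
    · rw [sub_zero, Nat.factorial_succ, div_le_iff₀ (by positivity), e, Nat.add_sub_cancel, pow_succ]
      have h3 : 0 ≤ x ^ l := pow_nonneg hx l
      have h4 : x ^ l * x ≤ x ^ l * c := mul_le_mul_of_nonneg_left (by linarith) h3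
      have h5 : 0 ≤ (l : ℝ) * (x ^ l * c) := by positivity
      push_cast
      linarith
  · unfold pw
    rw [if_neg hx, if_neg hx, if_neg (by linarith)]
    simp

end Crest.Agent.R20
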