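import Crest.Agent.R20.TopW

/-!
# R20/Abn: abnormal primes are rare
-/

set_option autoImplicit false

open Finset Filter Topology Crest.NumberTheoryR.TotientScale

namespace Crest.Agent.R20

theorem abn_th_two : th 2 = 1 :=
  le_antisymm (Nat.lt_succ_iff.1 (th_lt_self (n := 2) (by norm_num))) (th_pos le_rfl)

theorem abn_normal_two {E : ℝ} (hE : 1 ≤ E) : Normal E 2 := by
  intro t
  have h1 : ((min t 1 : ℕ) : ℝ) ≤ 1 := by exact_mod_cast min_le_right t 1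
  have h2 : (0 : ℝ) ≤ ((min t 1 : ℕ) : ℝ) := Nat.cast_nonneg _
  rw [show 2 - 1 = 1 from rfl, Om_one, abn_th_two, Nat.cast_zero, zero_sub, abs_neg,
    abs_of_nonneg h2]
  linarith

/-- `p - 1` has no large prime factor -/
theorem abn_case1 : ∃ C : ℝ, 0 ≤ C ∧ ∀ (ξ : ℝ) (kap : ℕ → ℝ) (Λ u₀ : ℝ), 0 ≤ ξ → TopW ξ kap Λ u₀ →
    ∀ c : ℕ, 0 < c → ∀ y : ℕ, (y : ℝ) ≤ ξ ^ 9 →
    Bd (fun p : ℕ => p.Prime ∧ 3 ≤ p ∧ th p = y ∧ (th (gp (p - 1)) : ℝ) ≤ y - ξ)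
      (fun p => kap (c * (p - 1)))
      (Λ / c * Real.exp (4 * ξ ^ 9 + C - Real.exp (ξ - C) / 2)) := by
  obtain ⟨C₁, hC₁, h1⟩ := log_le_exp_th
  obtain ⟨C₂, hC₂, h2⟩ := sm_tail
  refine ⟨C₁ + C₂, by positivity, fun ξ kap Λ u₀ hξ hW c hc y hy => ?_⟩
  obtain ⟨hΛ, -, hk, -⟩ := hW
  have hc' : (0 : ℝ) < c := by exact_mod_cast hc
  rcases lt_or_ge ((y : ℝ) - ξ) 0 with hneg | hpos
  · refine Bd.of_empty (fun p hp => ?_) (by positivity)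
    have : (0 : ℝ) ≤ th (gp (p - 1)) := Nat.cast_nonneg _
    linarith [hp.2.2.2]
  set t : ℕ := ⌊(y : ℝ) - ξ⌋₊ with ht
  have ht1 : (t : ℝ) ≤ y - ξ := Nat.floor_le hpos
  have hB := (h2 t (Real.exp (y - C₁) / 2)).const_mul
    (c := Λ * Real.exp (ξ ^ 9) / c) (by positivity)
  refine Bd.mono (Bd.of_inj hB (fun p => p - 1) ?_ ?_) (fun _ h => h) (fun _ _ => le_rfl) ?_
  · rintro p ⟨hp, h3, hth, hg⟩
    have hp1 : 0 < p - 1 := by omega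
    refine ⟨⟨⟨hp1, Nat.le_floor hg⟩, ?_⟩, ?_⟩
    · have e1 := (h1 p (by omega)).2
      rw [hth] at e1
      have h3' : (3 : ℝ) ≤ p := by exact_mod_cast h3
      have e2 : ((p - 1 : ℕ) : ℝ) = p - 1 := by
        rw [Nat.cast_sub (by omega), Nat.cast_one]
      have e3 : Real.log p ≤ 2 * Real.log ((p - 1 : ℕ) : ℝ) := by
        rw [e2, show (2 : ℝ) = ((2 : ℕ) : ℝ) by norm_num, ← Real.log_pow]
        exact Real.log_le_log (by linarith) (by nlinarith)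
      linarith
    · refine (hk _ (Nat.mul_pos hc hp1)).trans (le_of_eq ?_)
      unfold rcp
      rw [Nat.cast_mul]
      have : (0 : ℝ) < ((p - 1 : ℕ) : ℝ) := by exact_mod_cast hp1
      field_simp
  · rintro p p' ⟨-, h3, -⟩ ⟨-, h3', -⟩ e
    have e' : p - 1 = p' - 1 := e
    omega
  · have e : Λ * Real.exp (ξ ^ 9) / c *
        Real.exp (-(Real.exp (y - C₁) / 2 * Real.exp (-(t + C₂))) + 3 * t + C₂) =
        Λ / c * Real.exp (ξ ^ 9 + (-(Real.exp (y - C₁ + -(t + C₂)) / 2) + 3 * t + C₂)) := by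
      rw [Real.exp_add (ξ ^ 9), Real.exp_add (y - C₁)]
      ring_nf
    rw [e]
    refine mul_le_mul_of_nonneg_left (Real.exp_le_exp.2 ?_) (by positivity)
    have : Real.exp (ξ - (C₁ + C₂)) ≤ Real.exp (y - C₁ + -(t + C₂)) :=
      Real.exp_le_exp.2 (by linarith)
    linarith

/-- smooth numbers with an abnormal number of prime factors at some level -/
theorem abn_dev : ∃ C : ℝ, 0 ≤ C ∧ ∀ (y : ℕ) (e Y : ℝ), (y : ℝ) ≤ Y → 0 < Y → 0 ≤ e → e ≤ Y →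
    Bd (fun a : ℕ => Sm y a ∧ ∃ t ≤ y, (t + e ≤ Om t a ∨ (Om t a : ℝ) ≤ t - e)) rcp
      ((Y + 1) * (2 * Real.exp (y + C - e ^ 2 / (4 * Y)))) := by
  obtain ⟨C, hC⟩ := dev_up
  refine ⟨|C| + 1, by positivity, fun y e Y hy hY he heY => ?_⟩
  have h := Bd.biUnion (range (y + 1)) fun t ht =>
    (hC y t e Y (Nat.lt_succ_iff.1 (mem_range.1 ht)) hy hY he heY).or
      (dev_lo y t e Y (Nat.lt_succ_iff.1 (mem_range.1 ht)) hy hY he heY)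
  refine h.mono ?_ (fun _ _ => le_rfl) ?_
  · rintro a ⟨hs, t, ht, h1 | h1⟩
    · exact ⟨t, mem_range.2 (Nat.lt_succ_iff.2 ht), Or.inl ⟨hs, h1⟩⟩
    · exact ⟨t, mem_range.2 (Nat.lt_succ_iff.2 ht), Or.inr ⟨hs, h1⟩⟩
  · rw [sum_const, card_range, nsmul_eq_mul]
    have e1 : Real.exp (y + C - e ^ 2 / (4 * Y)) ≤ Real.exp (y + (|C| + 1) - e ^ 2 / (4 * Y)) :=
      Real.exp_le_exp.2 (by linarith [le_abs_self C])
    have e2 : Real.exp (y + 1 - e ^ 2 / (4 * Y)) ≤ Real.exp (y + (|C| + 1) - e ^ 2 / (4 * Y)) :=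
      Real.exp_le_exp.2 (by linarith [abs_nonneg C])
    push_cast
    exact mul_le_mul (by linarith) (by linarith) (by positivity) (by linarith)

/-- removing the largest prime factor of `p - 1` keeps an abnormality -/
theorem abn_tl {E : ℝ} {p : ℕ} (hp : p.Prime) (h3 : 3 ≤ p) (hN : ¬ Normal E p) :
    Sm (th p) (tl (p - 1)) ∧ ∃ t ≤ th p,
      (t + (E - 1) ≤ Om t (tl (p - 1)) ∨ (Om t (tl (p - 1)) : ℝ) ≤ t - (E - 1)) := by
  have hs := sm_pred hp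
  refine ⟨hs.of_dvd (tl_dvd _), ?_⟩
  unfold Normal at hN
  push Not at hN
  obtain ⟨t, ht⟩ := hN
  have e1 : Om t (p - 1) = Om (min t (th p)) (p - 1) := by
    rcases le_total t (th p) with h | h
    · rw [min_eq_left h]
    · rw [min_eq_right h, Om_of_Sm hs h]
  set s := min t (th p) with hs'
  have hr : (gp (p - 1)).Prime := gp_prime (by omega)
  have e2 : Om s (p - 1) = Om s (gp (p - 1)) + Om s (tl (p - 1)) := by
    rw [← Om_mul s hr.pos (tl_pos (by omega)), gp_mul_tl]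
  have e3 : Om s (gp (p - 1)) ≤ 1 := by
    rw [Om_prime s hr]
    split_ifs <;> omega
  have e4 : (Om s (gp (p - 1)) : ℝ) ≤ 1 := by exact_mod_cast e3
  have e5 : (0 : ℝ) ≤ Om s (gp (p - 1)) := Nat.cast_nonneg _
  rw [e1, e2, Nat.cast_add] at ht
  refine ⟨s, min_le_right _ _, ?_⟩
  rcases lt_abs.1 ht with h | h
  · left; linarith
  · right; linarith

/-- `p - 1` has a large prime factor -/
theorem abn_case2 : ∃ C : ℝ, 0 ≤ C ∧ ∀ (ξ : ℝ) (kap : ℕ → ℝ) (Λ u₀ : ℝ), 2 ≤ ξ → TopW ξ kap Λ u₀ →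
    ∀ c : ℕ, 0 < c → ∀ y : ℕ, (y : ℝ) ≤ ξ ^ 9 → u₀ + ξ ≤ y →
    Bd (fun p : ℕ => p.Prime ∧ 3 ≤ p ∧ th p = y ∧ y - ξ ≤ (th (gp (p - 1)) : ℝ) ∧ ¬ Normal (ξ ^ 6) p)
      (fun p => kap (c * (p - 1)))
      (Λ / c * (ξ ^ 100 * (ξ ^ 9 + 1) * 2 * Real.exp (ξ + C - ξ ^ 3 / 16))) := by
  obtain ⟨C, hC, h1⟩ := abn_dev
  refine ⟨C, hC, fun ξ kap Λ u₀ hξ hW c hc y hy hu => ?_⟩
  obtain ⟨hΛ, -, -, hk⟩ := hW
  have hc' : (0 : ℝ) < c := by exact_mod_cast hc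
  have hξ0 : 0 < ξ := by linarith
  have h6 : (2 : ℝ) ≤ ξ ^ 6 := hξ.trans (le_self_pow₀ (by linarith) (by norm_num))
  have h69 : ξ ^ 6 ≤ ξ ^ 9 := pow_le_pow_right₀ (by linarith) (by norm_num)
  have hB := (h1 y (ξ ^ 6 - 1) (ξ ^ 9) hy (by positivity) (by linarith) (by linarith)).const_mul
    (c := Λ * ξ ^ 100 * Real.exp (-(y - ξ)) / c) (by positivity)
  have hU := Bd.union (f := fun p : ℕ => kap (c * (p - 1))) hB
    (R := fun a p => ∃ r : ℕ, (r.Prime ∧ y - ξ ≤ th r ∧ u₀ ≤ th r ∧ (th r : ℝ) ≤ ξ ^ 9 ∧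
      ∀ m ∈ ({a} : Finset ℕ), (m * r + 1).Prime ∧ (th (m * r + 1) : ℝ) ≤ ξ ^ 9) ∧ a * r + 1 = p) ?_
  · refine hU.mono ?_ (fun _ _ => le_rfl) ?_
    · rintro p ⟨hp, h3, hth, hg, hN⟩
      have ht := abn_tl hp h3 hN
      rw [hth] at ht
      have e : tl (p - 1) * gp (p - 1) + 1 = p := by
        rw [mul_comm, gp_mul_tl]; omega
      refine ⟨tl (p - 1), ht, gp (p - 1), ⟨gp_prime (by omega), hg, by linarith, ?_, ?_⟩, e⟩
      · have := (sm_pred hp).2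
        rw [hth] at this
        exact le_trans (by exact_mod_cast this) hy
      · intro m hm
        rw [mem_singleton.1 hm, e, hth]
        exact ⟨hp, hy⟩
    · have e : Λ * ξ ^ 100 * Real.exp (-(y - ξ)) / c *
          ((ξ ^ 9 + 1) * (2 * Real.exp (y + C - (ξ ^ 6 - 1) ^ 2 / (4 * ξ ^ 9)))) =
          Λ / c * (ξ ^ 100 * (ξ ^ 9 + 1) * 2 *
            Real.exp (-(y - ξ) + (y + C - (ξ ^ 6 - 1) ^ 2 / (4 * ξ ^ 9)))) := by
        rw [Real.exp_add (-(y - ξ))]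
        ring
      rw [e]
      refine mul_le_mul_of_nonneg_left (mul_le_mul_of_nonneg_left (Real.exp_le_exp.2 ?_)
        (by positivity)) (by positivity)
      have : ξ ^ 3 / 16 ≤ (ξ ^ 6 - 1) ^ 2 / (4 * ξ ^ 9) := by
        rw [div_le_div_iff₀ (by norm_num) (by positivity)]
        have e1 : ξ ^ 3 * (4 * ξ ^ 9) = (ξ ^ 6 / 2) ^ 2 * 16 := by ring
        rw [e1]
        have : (ξ ^ 6 / 2) ^ 2 ≤ (ξ ^ 6 - 1) ^ 2 :=
          pow_le_pow_left₀ (by positivity) (by linarith) 2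
        linarith
      linarith
  · intro a ha
    have ha0 : 0 < a := ha.1.1
    have h := hk (c * a) {a} (y - ξ) (Nat.mul_pos hc ha0) (by simp)
      (fun m hm => by rw [mem_singleton.1 hm]; exact ha0)
    refine Bd.mono (Bd.of_map h (fun r => a * r + 1) ?_) (fun _ h => h) (fun _ _ => le_rfl)
      (le_of_eq ?_)
    · rintro p ⟨r, hr, rfl⟩
      exact ⟨r, hr, rfl, by rw [Nat.add_sub_cancel, mul_assoc]⟩
    · unfold rcp
      have : (0 : ℝ) < a := by exact_mod_cast ha0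
      rw [card_singleton, Nat.cast_one, one_mul, Nat.cast_mul]
      field_simp

theorem abn_pow_le {ξ : ℝ} (hξ : 0 ≤ ξ) (k : ℕ) : ξ ^ k ≤ Real.exp (k * ξ) := by
  rw [Real.exp_nat_mul]
  exact pow_le_pow_left₀ hξ (by linarith [Real.add_one_le_exp ξ]) k

theorem abn_two_le {ξ : ℝ} (hξ : 1 ≤ ξ) : 2 ≤ Real.exp ξ := by
  linarith [Real.add_one_le_exp ξ]

theorem abn_poly_le {ξ : ℝ} (hξ : 1 ≤ ξ) : ξ ^ 9 + 1 ≤ Real.exp (10 * ξ) := by
  have h1 := abn_pow_le (by linarith : 0 ≤ ξ) 9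
  have h2 := abn_two_le hξ
  have h3 : (1 : ℝ) ≤ ξ ^ 9 := one_le_pow₀ hξ
  have e : Real.exp (10 * ξ) = Real.exp ξ * Real.exp ((9 : ℕ) * ξ) := by
    rw [← Real.exp_add]; congr 1; push_cast; ring
  rw [e]
  nlinarith

theorem abn_half (s : ℝ) : Real.exp (-s - 1) ≤ Real.exp (-s) / 2 := by
  rw [Real.exp_sub]
  exact div_le_div_of_nonneg_left (Real.exp_pos _).le (by norm_num) (abn_two_le le_rfl)

theorem abn_num1 {C : ℝ} (hC : 0 ≤ C) : ∀ᶠ ξ : ℝ in atTop,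
    (ξ ^ 9 + 1) * Real.exp (4 * ξ ^ 9 + C - Real.exp (ξ - C) / 2) ≤ Real.exp (-ξ ^ 2) / 2 := by
  filter_upwards [eventually_ge_atTop 1,
    eventually_ge_atTop ((16 + C) * 2 * (Nat.factorial 10 : ℝ) * Real.exp C)] with ξ h1 h2
  refine le_trans ?_ (abn_half _)
  refine (mul_le_mul_of_nonneg_right (abn_poly_le h1) (Real.exp_pos _).le).trans ?_
  rw [← Real.exp_add]
  refine Real.exp_le_exp.2 ?_
  have h3 := Real.pow_div_factorial_le_exp ξ (by linarith) 10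
  have hf : (0 : ℝ) < (Nat.factorial 10 : ℝ) := by exact_mod_cast Nat.factorial_pos 10
  have h9 : (1 : ℝ) ≤ ξ ^ 9 := one_le_pow₀ h1
  have h19 : ξ ≤ ξ ^ 9 := le_self_pow₀ h1 (by norm_num)
  have h29 : ξ ^ 2 ≤ ξ ^ 9 := pow_le_pow_right₀ h1 (by norm_num)
  have h4 : (16 + C) * ξ ^ 9 ≤ Real.exp (ξ - C) / 2 := by
    rw [Real.exp_sub, div_div, le_div_iff₀ (by positivity)]
    refine le_trans ?_ h3
    rw [le_div_iff₀ hf]
    calc _ = ((16 + C) * 2 * (Nat.factorial 10 : ℝ) * Real.exp C) * ξ ^ 9 := by ring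
      _ ≤ ξ * ξ ^ 9 := mul_le_mul_of_nonneg_right h2 (by positivity)
      _ = _ := by ring
  nlinarith

theorem abn_num2 {C : ℝ} (hC : 0 ≤ C) : ∀ᶠ ξ : ℝ in atTop,
    (ξ ^ 9 + 1) * (ξ ^ 100 * (ξ ^ 9 + 1) * 2 * Real.exp (ξ + C - ξ ^ 3 / 16)) ≤
      Real.exp (-ξ ^ 2) / 2 := by
  filter_upwards [eventually_ge_atTop 1, eventually_ge_atTop (16 * (124 + C))] with ξ h1 h2
  refine le_trans ?_ (abn_half _)
  have a1 := abn_poly_le h1
  have a2 := abn_pow_le (by linarith : 0 ≤ ξ) 100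
  have a3 := abn_two_le h1
  have h0 : 0 ≤ ξ := by linarith
  calc _ ≤ Real.exp (10 * ξ) * (Real.exp ((100 : ℕ) * ξ) * Real.exp (10 * ξ) * Real.exp ξ *
        Real.exp (ξ + C - ξ ^ 3 / 16)) := by gcongr
    _ = Real.exp (122 * ξ + C - ξ ^ 3 / 16) := by
        simp only [← Real.exp_add]; congr 1; push_cast; ring
    _ ≤ _ := by
        refine Real.exp_le_exp.2 ?_
        have h2' : (1 : ℝ) ≤ ξ ^ 2 := one_le_pow₀ h1
        have h12 : ξ ≤ ξ ^ 2 := le_self_pow₀ h1 (by norm_num)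
        have h3 : 16 * (124 + C) * ξ ^ 2 ≤ ξ * ξ ^ 2 := mul_le_mul_of_nonneg_right h2 (by positivity)
        have h4 : ξ * ξ ^ 2 = ξ ^ 3 := by ring
        nlinarith

/-- Split by `y = th p ≤ ξ^9` (`Bd.biUnion` over `range (⌊ξ^9⌋₊ + 1)`); `p = 2` is normal.  Put `r = gp (p-1)`.
* `th r ≤ y - ξ`: `p - 1` is `Sm ⌊y - ξ⌋₊`, `log (p-1) ≥ (log p)/2 ≥ exp (y - C)/2`; `sm_tail` gives mass
  `≤ exp (-exp (ξ - C')/2 + 3 ξ^9 + C)`; use `kap v ≤ Λ exp (ξ^9)/v`.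
* `th r > y - ξ ≥ u₀`: `p - 1 = a r`; for fixed `a` use `TopW` with `c a`, `A = {a}`, `u = y - ξ`.
  `a` is `Sm y` and `|Om t a - t| > ξ^6 - 1` for some `t ≤ y` (`Om_of_Sm` reduces `t > y` to `t = y`;
  `Om_mul`, `Om_prime`); `dev_up`, `dev_lo` with `e = ξ^6 - 1`, `Y = ξ^9`.  The factors `e^{±y}` cancel. -/
theorem abn : ∀ᶠ ξ : ℝ in atTop, ∀ (kap : ℕ → ℝ) (Λ u₀ : ℝ), TopW ξ kap Λ u₀ → ∀ c : ℕ, 0 < c →
    Bd (fun p : ℕ => p.Prime ∧ u₀ + ξ ≤ th p ∧ (th p : ℝ) ≤ ξ ^ 9 ∧ ¬ Normal (ξ ^ 6) p)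
      (fun p => kap (c * (p - 1))) (Λ * Real.exp (-ξ ^ 2) / c) := by
  obtain ⟨C₁, hC₁, h1⟩ := abn_case1
  obtain ⟨C₂, hC₂, h2⟩ := abn_case2
  filter_upwards [eventually_ge_atTop 2, abn_num1 hC₁, abn_num2 hC₂] with ξ hξ n1 n2 kap Λ u₀ hW c hc
  have hΛ : 0 ≤ Λ := hW.1
  have hc' : (0 : ℝ) < c := by exact_mod_cast hc
  have hξ0 : 0 ≤ ξ := by linarith
  set A := Real.exp (4 * ξ ^ 9 + C₁ - Real.exp (ξ - C₁) / 2) with hA
  set B := ξ ^ 100 * (ξ ^ 9 + 1) * 2 * Real.exp (ξ + C₂ - ξ ^ 3 / 16) with hB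
  have hA0 : 0 ≤ A := by positivity
  have hB0 : 0 ≤ B := by positivity
  have hy : ∀ y ∈ range (⌊ξ ^ 9⌋₊ + 1),
      Bd (fun p : ℕ => p.Prime ∧ th p = y ∧ u₀ + ξ ≤ th p ∧ ¬ Normal (ξ ^ 6) p)
        (fun p => kap (c * (p - 1))) (Λ / c * A + Λ / c * B) := by
    intro y hy
    have hy' : (y : ℝ) ≤ ξ ^ 9 :=
      (Nat.le_floor_iff (by positivity)).1 (Nat.lt_succ_iff.1 (mem_range.1 hy))
    by_cases hu : u₀ + ξ ≤ y
    · refine ((h1 ξ kap Λ u₀ hξ0 hW c hc y hy').or (h2 ξ kap Λ u₀ hξ hW c hc y hy' hu)).mono ?_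
        (fun _ _ => le_rfl) le_rfl
      rintro p ⟨hp, hth, -, hN⟩
      have h3 : 3 ≤ p := by
        have := hp.two_le
        by_contra h
        obtain rfl : p = 2 := by omega
        exact hN (abn_normal_two (one_le_pow₀ (by linarith)))
      rcases le_total (th (gp (p - 1)) : ℝ) (y - ξ) with h | h
      · exact Or.inl ⟨hp, h3, hth, h⟩
      · exact Or.inr ⟨hp, h3, hth, h, hN⟩
    · refine Bd.of_empty ?_ (by positivity)
      rintro p ⟨-, hth, h, -⟩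
      rw [hth] at h
      exact hu h
  refine (Bd.biUnion _ hy).mono ?_ (fun _ _ => le_rfl) ?_
  · rintro p ⟨hp, hu, hth, hN⟩
    exact ⟨th p, mem_range.2 (Nat.lt_succ_iff.2 (Nat.le_floor hth)), hp, rfl, hu, hN⟩
  · rw [sum_const, card_range, nsmul_eq_mul]
    have hf : ((⌊ξ ^ 9⌋₊ + 1 : ℕ) : ℝ) ≤ ξ ^ 9 + 1 := by
      push_cast
      linarith [Nat.floor_le (by positivity : 0 ≤ ξ ^ 9)]
    calc _ ≤ (ξ ^ 9 + 1) * (Λ / c * A + Λ / c * B) :=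
          mul_le_mul_of_nonneg_right hf (by positivity)
      _ = Λ / c * ((ξ ^ 9 + 1) * A + (ξ ^ 9 + 1) * B) := by ring
      _ ≤ Λ / c * (Real.exp (-ξ ^ 2) / 2 + Real.exp (-ξ ^ 2) / 2) :=
          mul_le_mul_of_nonneg_left (add_le_add n1 n2) (by positivity)
      _ = _ := by ring

/-- `abn` with `topW_rcp`, `u₀ = -ξ`, `c = 1` -/
theorem abn_sum : ∀ᶠ ξ : ℝ in atTop,
    Bd (fun p : ℕ => p.Prime ∧ (th p : ℝ) ≤ ξ ^ 9 ∧ ¬ Normal (ξ ^ 6) p)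
      (fun p => 1 / ((p : ℝ) - 1)) (Real.exp (-ξ ^ 2)) := by
  filter_upwards [abn, topW_rcp] with ξ h1 h2
  refine (h1 rcp 1 (-ξ) (h2 _) 1 one_pos).mono ?_ ?_ (by simp)
  · rintro p ⟨hp, h3, h4⟩
    exact ⟨hp, by simp, h3, h4⟩
  · rintro p ⟨hp, -⟩
    unfold rcp
    rw [one_mul, Nat.cast_sub hp.one_le, Nat.cast_one]

end Crest.Agent.R20
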