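import Crest.Agent.R20.Scale2

/-!
# R20/Asym: asymptotics of the main term
-/

set_option autoImplicit false

open Finset Filter Topology Crest.NumberTheoryR.TotientScale

namespace Crest.Agent.R20

variable {ρ : ℝ}

theorem Asym_mul_one {α : Type*} {l : Filter α} {f f' g : α → ℝ} {C : ℝ}
    (hf : Tendsto (fun z => f z - f' z) l (𝓝 0)) (hg : Tendsto g l (𝓝 1))
    (hf' : ∀ᶠ z in l, |f' z| ≤ C) : Tendsto (fun z => f z * g z - f' z) l (𝓝 0) := by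
  have h1 : Tendsto (fun z => g z - 1) l (𝓝 0) := by simpa using hg.sub_const 1
  have h2 := tendsto_mul_sub (C := max C 1) (g' := fun _ => 1) hf h1
    (hf'.mono fun z hz => hz.trans (le_max_left _ _))
    (Eventually.of_forall fun z => by simp)
  simpa using h2

theorem Asym_exp_neg {α : Type*} {l : Filter α} {d : α → ℝ} (hd : Tendsto d l (𝓝 0)) :
    Tendsto (fun z => Real.exp (-d z)) l (𝓝 1) := by
  have h1 : Tendsto (fun z => -d z) l (𝓝 0) := by simpa using hd.neg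
  simpa [Function.comp_def] using (Real.continuous_exp.tendsto 0).comp h1

theorem Asym_GG (l : ℕ) (B E : ℝ) : B ^ l / l.factorial * E / gP l = GG l B * E := by
  unfold GG
  rw [div_mul_eq_mul_div, div_div, div_mul_eq_mul_div]

/-- One tail, `L = M - K`, `a z = L TT / B`, `b z = L Sig / B ∈ [0, C/ξ_K]` (`sc_Sig`), `a z - ρ^v τ → 0` (`sc_TT`).
`pw_add_le`: `pw L (B - TT + Sig)/gP L ≤ G_L exp (b - a)`; `le_pw_sub`:
`pw L (B - TT - Sig)/gP L ≥ G_L exp (-(a + b) - 2 (a + b)²/L)`; `G_L/G_M - Γ v → 0` (`sc_Gamma`); everything is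
bounded (`bdd_phase`), `exp` is Lipschitz on bounded sets; `A v = Γ v exp (-ρ^v τ)`. -/
theorem asym_one (hρ : IsRho ρ) : ∃ C : ℝ, 0 < C ∧ ∀ K D r : ℕ, ∃ A : ℝ → ℝ, Continuous A ∧
    (∀ v, 0 ≤ A v) ∧ ∀ η : ℝ, 0 < η → ∀ᶠ z : ℝ × ℕ in FA ρ,
    pw (z.2 - K) (bigB z.1 - TT (z.2 - K) D r + 1 * Sig ρ z.2 (z.2 - K)) / gP (z.2 - K) ≤
      (Real.exp (C / xi ρ K) * A (phaseArg ρ z.1 - z.2) + η) * GG z.2 (bigB z.1) ∧
    (Real.exp (-(C / xi ρ K)) * A (phaseArg ρ z.1 - z.2) - η) * GG z.2 (bigB z.1) ≤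
      pw (z.2 - K) (bigB z.1 - TT (z.2 - K) D r + -1 * Sig ρ z.2 (z.2 - K)) / gP (z.2 - K) := by
  obtain ⟨C, hC, hSig⟩ := sc_Sig hρ
  refine ⟨C, hC, fun K D r => ?_⟩
  obtain ⟨Γ, hΓc, hΓ0, hΓ⟩ := sc_Gamma hρ K
  obtain ⟨τ, hτ⟩ := sc_TT hρ K D r
  have hpc : Continuous fun v : ℝ => ρ ^ v * τ :=
    (Real.continuous_const_rpow hρ.1.ne').mul continuous_const
  have hec : Continuous fun v : ℝ => Real.exp (-(ρ ^ v * τ)) := Real.continuous_exp.comp hpc.neg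
  have hAc : Continuous fun v : ℝ => Γ v * Real.exp (-(ρ ^ v * τ)) := hΓc.mul hec
  refine ⟨fun v => Γ v * Real.exp (-(ρ ^ v * τ)), hAc,
    fun v => mul_nonneg (hΓ0 v).le (Real.exp_pos _).le, fun η hη => ?_⟩
  obtain ⟨C₁, hC₁, b₁⟩ := bdd_phase ρ hΓc
  obtain ⟨C₂, hC₂, b₂⟩ := bdd_phase ρ hec
  obtain ⟨C₃, hC₃, b₃⟩ := bdd_phase ρ hAc
  obtain ⟨C₄, hC₄, b₄⟩ := bdd_phase ρ hpc
  set c : ℝ := C / xi ρ K with hc
  have hc0 : 0 ≤ c := div_nonneg hC.le (zero_le_one.trans (one_le_xi hρ K))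
  set a : ℝ × ℕ → ℝ := fun z => ((z.2 - K : ℕ) : ℝ) * TT (z.2 - K) D r / bigB z.1 with ha
  set b : ℝ × ℕ → ℝ := fun z => ((z.2 - K : ℕ) : ℝ) * Sig ρ z.2 (z.2 - K) / bigB z.1 with hb
  set w : ℝ × ℕ → ℝ := fun z => (TT (z.2 - K) D r + Sig ρ z.2 (z.2 - K)) / bigB z.1 with hw
  set g : ℝ × ℕ → ℝ := fun z => GG (z.2 - K) (bigB z.1) / GG z.2 (bigB z.1) with hg
  have hB : ∀ᶠ z : ℝ × ℕ in FA ρ, 0 < bigB z.1 :=
    (tendsto_bigB.comp (tendsto_fst_FA ρ)).eventually_gt_atTop 0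
  have hKM : ∀ᶠ z : ℝ × ℕ in FA ρ, K ≤ z.2 := (tendsto_M hρ).eventually_ge_atTop K
  have hL : Tendsto (fun z : ℝ × ℕ => ((z.2 - K : ℕ) : ℝ)) (FA ρ) atTop :=
    tendsto_natCast_atTop_atTop.comp ((tendsto_sub_atTop_nat K).comp (tendsto_M hρ))
  have hbc : ∀ᶠ z : ℝ × ℕ in FA ρ, b z ≤ c := by
    filter_upwards [hSig, hB, hKM] with z h1 h2 h3
    have h4 := h1 (z.2 - K) (Nat.sub_le _ _)
    rw [Nat.sub_sub_self h3] at h4
    rw [hb]
    simp only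
    rw [div_le_iff₀ h2]
    refine le_trans (mul_le_mul_of_nonneg_right ?_ (Sig_nonneg hρ _ _)) h4
    exact_mod_cast Nat.sub_le _ _
  have hE : Tendsto (fun z : ℝ × ℕ => Real.exp (-a z) -
      Real.exp (-(ρ ^ (phaseArg ρ z.1 - z.2) * τ))) (FA ρ) (𝓝 0) := by
    have h1 := Asym_mul_one (f := fun z : ℝ × ℕ => Real.exp (-(ρ ^ (phaseArg ρ z.1 - z.2) * τ)))
      (by simpa using tendsto_const_nhds) (Asym_exp_neg hτ) b₂
    refine h1.congr fun z => ?_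
    rw [← Real.exp_add]
    congr 2
    ring
  have hU : Tendsto (fun z : ℝ × ℕ => g z * Real.exp (-a z) -
      Γ (phaseArg ρ z.1 - z.2) * Real.exp (-(ρ ^ (phaseArg ρ z.1 - z.2) * τ))) (FA ρ) (𝓝 0) :=
    tendsto_mul_sub (C := max C₁ C₂) hΓ hE (b₁.mono fun z hz => hz.trans (le_max_left _ _))
      (b₂.mono fun z hz => hz.trans (le_max_right _ _))
  have hab : ∀ᶠ z : ℝ × ℕ in FA ρ, a z + b z ≤ C₄ + 1 + c := by
    filter_upwards [hbc, b₄, hτ.eventually (gt_mem_nhds one_pos)] with z h1 h2 h3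
    have := (abs_le.1 h2).2
    linarith
  have hLw : ∀ z, ((z.2 - K : ℕ) : ℝ) * w z = a z + b z := fun z => by
    simp only [ha, hb, hw]
    ring
  have hw0 : ∀ᶠ z : ℝ × ℕ in FA ρ, 0 ≤ w z := by
    filter_upwards [hB] with z h1
    exact div_nonneg (add_nonneg (TT_nonneg _ _ _) (Sig_nonneg hρ _ _)) h1.le
  have hwt : Tendsto w (FA ρ) (𝓝 0) := by
    refine squeeze_zero' hw0 ?_ (hL.const_div_atTop (C₄ + 1 + c))
    filter_upwards [hab, hL.eventually_gt_atTop 0] with z h1 h2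
    rw [le_div_iff₀ h2, mul_comm, hLw]
    exact h1
  have hδ : Tendsto (fun z : ℝ × ℕ => 2 * ((z.2 - K : ℕ) : ℝ) * w z ^ 2) (FA ρ) (𝓝 0) := by
    have h1 := hwt.const_mul (2 * (C₄ + 1 + c))
    rw [mul_zero] at h1
    refine squeeze_zero' (Eventually.of_forall fun z => by positivity) ?_ h1
    filter_upwards [hab, hw0] with z h2 h3
    rw [← hLw] at h2
    nlinarith [mul_le_mul_of_nonneg_right h2 h3]
  have hU' := Asym_mul_one hU (Asym_exp_neg hδ) b₃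
  have hec0 : 0 < Real.exp c := Real.exp_pos c
  filter_upwards [hB, hbc, hU.eventually (gt_mem_nhds (div_pos hη hec0)),
    hU'.eventually (lt_mem_nhds (neg_lt_zero.2 hη)),
    hwt.eventually (gt_mem_nhds (show (0 : ℝ) < 1 / 2 by norm_num))] with z h1 h2 h3 h4 h5
  have hG := GG_pos z.2 h1
  have hGL : GG (z.2 - K) (bigB z.1) = g z * GG z.2 (bigB z.1) := (div_mul_cancel₀ _ hG.ne').symm
  have hg0 : 0 ≤ g z := div_nonneg (GG_pos _ h1).le hG.le
  constructor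
  · have h6 := pw_add_le (z.2 - K) h1 (Sig ρ z.2 (z.2 - K) - TT (z.2 - K) D r)
    have h7 : ((z.2 - K : ℕ) : ℝ) * (Sig ρ z.2 (z.2 - K) - TT (z.2 - K) D r) / bigB z.1 =
        b z + -a z := by
      simp only [ha, hb]
      ring
    rw [h7] at h6
    have h8 : bigB z.1 - TT (z.2 - K) D r + 1 * Sig ρ z.2 (z.2 - K) =
        bigB z.1 + (Sig ρ z.2 (z.2 - K) - TT (z.2 - K) D r) := by ring
    rw [h8]
    refine (div_le_div_of_nonneg_right h6 (gP_pos _).le).trans ?_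
    rw [Asym_GG, hGL, mul_right_comm]
    refine mul_le_mul_of_nonneg_right ?_ hG.le
    have h9 : Real.exp (b z + -a z) ≤ Real.exp c * Real.exp (-a z) := by
      rw [← Real.exp_add]
      exact Real.exp_le_exp.2 (by linarith)
    rw [lt_div_iff₀ hec0] at h3
    nlinarith [mul_le_mul_of_nonneg_left h9 hg0]
  · have hw1 : 0 ≤ TT (z.2 - K) D r + Sig ρ z.2 (z.2 - K) :=
      add_nonneg (TT_nonneg _ _ _) (Sig_nonneg hρ _ _)
    have hw2 : 2 * (TT (z.2 - K) D r + Sig ρ z.2 (z.2 - K)) ≤ bigB z.1 := by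
      have h6 : (TT (z.2 - K) D r + Sig ρ z.2 (z.2 - K)) / bigB z.1 < 1 / 2 := h5
      rw [div_lt_iff₀ h1] at h6
      linarith
    have h6 := le_pw_sub (z.2 - K) h1 hw1 hw2
    have h7 : ((z.2 - K : ℕ) : ℝ) * (TT (z.2 - K) D r + Sig ρ z.2 (z.2 - K)) / bigB z.1 =
        a z + b z := by
      simp only [ha, hb]
      ring
    rw [h7] at h6
    have h8 : bigB z.1 - TT (z.2 - K) D r + -1 * Sig ρ z.2 (z.2 - K) =
        bigB z.1 - (TT (z.2 - K) D r + Sig ρ z.2 (z.2 - K)) := by ring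
    rw [h8]
    refine le_trans ?_ (div_le_div_of_nonneg_right h6 (gP_pos _).le)
    rw [Asym_GG, hGL, mul_right_comm]
    refine mul_le_mul_of_nonneg_right ?_ hG.le
    have h9 : Real.exp (-c) * (Real.exp (-a z) * Real.exp (-(2 * ((z.2 - K : ℕ) : ℝ) * w z ^ 2))) ≤
        Real.exp (-(a z + b z) - 2 * ((z.2 - K : ℕ) : ℝ) * w z ^ 2) := by
      rw [← Real.exp_add, ← Real.exp_add]
      exact Real.exp_le_exp.2 (by linarith)
    have h10 : Real.exp (-c) ≤ 1 := Real.exp_le_one_iff.2 (by linarith)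
    have h11 := mul_le_mul_of_nonneg_left h9 hg0
    have h12 := mul_le_mul_of_nonneg_left h4.le (Real.exp_pos (-c)).le
    have h13 := mul_le_mul_of_nonneg_right h10 hη.le
    refine le_trans ?_ h11
    nlinarith

/-- sum over `r ∈ R` with weights `1/φ r ∈ [0, 1]` (`eventually_all_finset`, `η/(|R|+1)`) -/
theorem asym (hρ : IsRho ρ) : ∃ C : ℝ, 0 < C ∧ ∀ (K D : ℕ) (R : Finset ℕ), ∃ A : ℝ → ℝ, Continuous A ∧
    (∀ v, 0 ≤ A v) ∧ ∀ η : ℝ, 0 < η → ∀ᶠ z : ℝ × ℕ in FA ρ,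
    MT 1 ρ z.1 z.2 K D R ≤
      (Real.exp (C / xi ρ K) * A (phaseArg ρ z.1 - z.2) + η) * GG z.2 (bigB z.1) ∧
    (Real.exp (-(C / xi ρ K)) * A (phaseArg ρ z.1 - z.2) - η) * GG z.2 (bigB z.1) ≤
      MT (-1) ρ z.1 z.2 K D R := by
  obtain ⟨C, hC, h⟩ := asym_one hρ
  refine ⟨C, hC, fun K D R => ?_⟩
  choose A hAc hA0 hA using h K D
  have hφ0 : ∀ r : ℕ, (0 : ℝ) ≤ 1 / (r.totient : ℝ) := fun r => by positivity
  have hφ1 : ∀ r : ℕ, 1 / (r.totient : ℝ) ≤ 1 := fun r => by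
    rcases Nat.eq_zero_or_pos r.totient with h0 | h0
    · simp [h0]
    · rw [div_le_one (by exact_mod_cast h0)]
      exact_mod_cast h0
  refine ⟨fun v => ∑ r ∈ R, 1 / (r.totient : ℝ) * A r v,
    continuous_finsetSum _ fun r _ => continuous_const.mul (hAc r),
    fun v => sum_nonneg fun r _ => mul_nonneg (hφ0 r) (hA0 r v), fun η hη => ?_⟩
  set η' : ℝ := η / ((R.card : ℝ) + 1) with hη'
  have hη'0 : 0 < η' := by positivity
  have hsum : ∑ r ∈ R, 1 / (r.totient : ℝ) * η' ≤ η := by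
    calc ∑ r ∈ R, 1 / (r.totient : ℝ) * η' ≤ ∑ _r ∈ R, η' :=
          sum_le_sum fun r _ => mul_le_of_le_one_left hη'0.le (hφ1 r)
      _ = R.card * η' := by rw [sum_const, nsmul_eq_mul]
      _ ≤ ((R.card : ℝ) + 1) * η' := by nlinarith
      _ = η := by rw [hη']; field_simp
  have hB : ∀ᶠ z : ℝ × ℕ in FA ρ, 0 < bigB z.1 :=
    (tendsto_bigB.comp (tendsto_fst_FA ρ)).eventually_gt_atTop 0
  filter_upwards [hB, (eventually_all_finset R).2 fun r _ => hA r η' hη'0] with z h1 h2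
  have hG := GG_pos z.2 h1
  have hMT : ∀ sg : ℝ, MT sg ρ z.1 z.2 K D R = ∑ r ∈ R, 1 / (r.totient : ℝ) *
      (pw (z.2 - K) (bigB z.1 - TT (z.2 - K) D r + sg * Sig ρ z.2 (z.2 - K)) / gP (z.2 - K)) :=
    fun sg => sum_congr rfl fun r _ => by rw [div_mul_div_comm, one_mul]
  rw [hMT, hMT]
  constructor
  · refine (sum_le_sum fun r hr => mul_le_mul_of_nonneg_left (h2 r hr).1 (hφ0 r)).trans ?_
    simp only [← mul_assoc]
    rw [← sum_mul]
    refine mul_le_mul_of_nonneg_right ?_ hG.le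
    simp only [mul_add]
    rw [sum_add_distrib, mul_sum]
    refine add_le_add (le_of_eq (sum_congr rfl fun r _ => by ring)) hsum
  · refine le_trans ?_ (sum_le_sum fun r hr => mul_le_mul_of_nonneg_left (h2 r hr).2 (hφ0 r))
    simp only [← mul_assoc]
    rw [← sum_mul]
    refine mul_le_mul_of_nonneg_right ?_ hG.le
    simp only [mul_sub]
    rw [sum_sub_distrib, mul_sum]
    refine sub_le_sub (le_of_eq (sum_congr rfl fun r _ => by ring)) hsum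

end Crest.Agent.R20
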