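import Crest.Agent.R20.Defs

/-!
# R20/Bd: calculus of bounded partial sums
-/

set_option autoImplicit false

open Finset Filter Topology Crest.NumberTheoryR.TotientScale

namespace Crest.Agent.R20

variable {α β : Type*} {P Q : α → Prop} {f g : α → ℝ} {C D : ℝ}

theorem Bd.nonneg (h : Bd P f C) : 0 ≤ C := by
  simpa using h ∅ (by simp)

theorem Bd.mono (h : Bd Q g C) (hPQ : ∀ a, P a → Q a) (hfg : ∀ a, P a → f a ≤ g a) (hC : C ≤ D) :
    Bd P f D := by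
  intro S hS
  calc ∑ a ∈ S, f a ≤ ∑ a ∈ S, g a := sum_le_sum fun a ha => hfg a (hS a ha)
    _ ≤ C := h S fun a ha => hPQ a (hS a ha)
    _ ≤ D := hC

theorem Bd.of_empty (h : ∀ a, ¬ P a) (hC : 0 ≤ C) : Bd P f C := by
  intro S hS
  have : S = ∅ := eq_empty_of_forall_notMem fun a ha => h a (hS a ha)
  simpa [this] using hC

theorem Bd.of_finset (T : Finset α) (hT : ∀ a, P a → a ∈ T) (h0 : ∀ a ∈ T, 0 ≤ f a)
    (hC : ∑ a ∈ T, f a ≤ C) : Bd P f C := by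
  intro S hS
  exact (sum_le_sum_of_subset_of_nonneg (fun a ha => hT a (hS a ha)) fun a ha _ => h0 a ha).trans hC

/-- split a finite set by `P` (`sum_filter_add_sum_filter_not`) -/
theorem Bd.or (h1 : Bd P f C) (h2 : Bd Q f D) : Bd (fun a => P a ∨ Q a) f (C + D) := by
  classical
  intro S hS
  rw [← sum_filter_add_sum_filter_not S P]
  refine add_le_add (h1 _ fun a ha => (mem_filter.1 ha).2) (h2 _ fun a ha => ?_)
  exact (hS a (mem_filter.1 ha).1).resolve_left (mem_filter.1 ha).2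

theorem Bd.biUnion {ι : Type*} (I : Finset ι) {R : ι → α → Prop} {c : ι → ℝ}
    (h : ∀ i ∈ I, Bd (R i) f (c i)) : Bd (fun a => ∃ i ∈ I, R i a) f (∑ i ∈ I, c i) := by
  classical
  induction I using Finset.induction_on with
  | empty => exact Bd.of_empty (by simp) (by simp)
  | insert i I hi ih =>
    rw [sum_insert hi]
    refine ((h i (mem_insert_self _ _)).or (ih fun j hj => h j (mem_insert_of_mem hj))).mono ?_
      (fun _ _ => le_rfl) le_rfl
    rintro a ⟨j, hj, hR⟩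
    rcases mem_insert.1 hj with rfl | hj
    · exact Or.inl hR
    · exact Or.inr ⟨j, hj, hR⟩

theorem Bd.of_inj {Q : β → Prop} {g : β → ℝ} (h : Bd Q g C) (ι : α → β)
    (h1 : ∀ a, P a → Q (ι a) ∧ f a ≤ g (ι a))
    (h2 : ∀ a a', P a → P a' → ι a = ι a' → a = a') : Bd P f C := by
  classical
  intro S hS
  calc ∑ a ∈ S, f a ≤ ∑ a ∈ S, g (ι a) := sum_le_sum fun a ha => (h1 a (hS a ha)).2
    _ = ∑ b ∈ S.image ι, g b :=
        (sum_image fun a ha a' ha' e => h2 a a' (hS a ha) (hS a' ha') e).symm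
    _ ≤ C := h _ fun b hb => by
        obtain ⟨a, ha, rfl⟩ := mem_image.1 hb
        exact (h1 a (hS a ha)).1

/-- choose a preimage for every `a` and use `Bd.of_inj` -/
theorem Bd.of_map {Q : β → Prop} {g : β → ℝ} (h : Bd Q g C) (π : β → α)
    (h1 : ∀ a, P a → ∃ b, Q b ∧ π b = a ∧ f a ≤ g b) : Bd P f C := by
  classical
  intro S hS
  choose ι hι using h1
  have := h.of_inj (P := fun _ : {a // a ∈ S} => True) (f := fun a => f a.1)
    (fun a => ι a.1 (hS a.1 a.2)) (fun a _ => ⟨(hι a.1 _).1, (hι a.1 _).2.2⟩)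
    (fun a a' _ _ e => Subtype.ext (by
      rw [← (hι a.1 (hS a.1 a.2)).2.1, ← (hι a'.1 (hS a'.1 a'.2)).2.1, e])) S.attach
    (fun _ _ => trivial)
  rwa [sum_attach S f] at this

/-- Fubini (`sum_fiberwise_of_maps_to` onto the image of `π`) -/
theorem Bd.fiber {Q : β → Prop} {g : β → ℝ} (h : Bd Q g C) (π : α → β) (h1 : ∀ a, P a → Q (π a))
    (h2 : ∀ b, Q b → Bd (fun a => P a ∧ π a = b) f (g b)) : Bd P f C := by
  classical
  intro S hS
  have hQ : ∀ b ∈ S.image π, Q b := fun b hb => by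
    obtain ⟨a, ha, rfl⟩ := mem_image.1 hb
    exact h1 a (hS a ha)
  rw [← sum_fiberwise_of_maps_to (g := π) (t := S.image π) fun a ha => mem_image_of_mem π ha]
  refine (sum_le_sum fun b hb => ?_).trans (h _ hQ)
  exact h2 b (hQ b hb) _ fun a ha => ⟨hS a (mem_filter.1 ha).1, (mem_filter.1 ha).2⟩

theorem Bd.union {Q : β → Prop} {g : β → ℝ} (h : Bd Q g C) {R : β → α → Prop}
    (h2 : ∀ b, Q b → Bd (R b) f (g b)) : Bd (fun a => ∃ b, Q b ∧ R b a) f C := by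
  classical
  have h3 : Bd (fun z : α × β => Q z.2 ∧ R z.2 z.1) (fun z => f z.1) C := by
    refine h.fiber Prod.snd (fun z hz => hz.1) fun b hb => ?_
    refine (h2 b hb).of_inj Prod.fst ?_ ?_
    · rintro ⟨a, b'⟩ ⟨⟨-, h4⟩, rfl⟩
      exact ⟨h4, le_rfl⟩
    · rintro ⟨a, b'⟩ ⟨a', b''⟩ ⟨-, h4⟩ ⟨-, h5⟩ e
      exact Prod.ext e (h4.trans h5.symm)
  refine h3.of_map Prod.fst ?_
  rintro a ⟨b, hb, hR⟩
  exact ⟨(a, b), ⟨hb, hR⟩, rfl, le_rfl⟩

theorem Bd.const_mul (h : Bd P f C) {c : ℝ} (hc : 0 ≤ c) : Bd P (fun a => c * f a) (c * C) := by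
  intro S hS
  rw [← mul_sum]
  exact mul_le_mul_of_nonneg_left (h S hS) hc

theorem Bd.prod {Q : β → Prop} {g : β → ℝ} (h1 : Bd P f C) (h2 : Bd Q g D)
    (h0 : ∀ a, P a → 0 ≤ f a) :
    Bd (fun z : α × β => P z.1 ∧ Q z.2) (fun z => f z.1 * g z.2) (C * D) := by
  have h3 : Bd P (fun a => D * f a) (C * D) := by
    rw [mul_comm C D]
    exact h1.const_mul h2.nonneg
  refine h3.fiber Prod.fst (fun z hz => hz.1) fun a ha => ?_
  have h4 : Bd Q (fun b => f a * g b) (D * f a) := by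
    rw [mul_comm D]
    exact h2.const_mul (h0 a ha)
  refine h4.of_inj Prod.snd ?_ ?_
  · rintro ⟨a', b⟩ ⟨⟨-, h5⟩, rfl⟩
    exact ⟨h5, le_rfl⟩
  · rintro ⟨a', b⟩ ⟨a'', b'⟩ ⟨-, h4⟩ ⟨-, h5⟩ e
    exact Prod.ext (h4.trans h5.symm) e

/-- products `w = e a * b` -/
theorem Bd.mul_nat {R Q : ℕ → Prop} (e : α → ℕ) (h1 : Bd P (fun a => rcp (e a)) C) (h2 : Bd Q rcp D)
    (h : ∀ w, R w → ∃ a b, P a ∧ Q b ∧ w = e a * b) : Bd R rcp (C * D) := by
  refine (h1.prod h2 fun a _ => by unfold rcp; positivity).of_map (fun z => e z.1 * z.2) ?_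
  intro w hw
  obtain ⟨a, b, ha, hb, rfl⟩ := h w hw
  refine ⟨(a, b), ⟨ha, hb⟩, rfl, le_of_eq ?_⟩
  simp only [rcp, Nat.cast_mul, one_div, mul_inv]

/-- for finite `S`, `S ⊆ Fintype.piFinset fun i => S.image (· i)`, then `prod_univ_sum` -/
theorem Bd.pi {ι : Type*} [Fintype ι] [DecidableEq ι] {R : ι → α → Prop} {F : ι → α → ℝ} {c : ι → ℝ}
    (h : ∀ i, Bd (R i) (F i) (c i)) (h0 : ∀ i a, R i a → 0 ≤ F i a) :
    Bd (fun d : ι → α => ∀ i, R i (d i)) (fun d => ∏ i, F i (d i)) (∏ i, c i) := by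
  classical
  intro S hS
  have hR : ∀ i, ∀ a ∈ S.image (fun d => d i), R i a := fun i a ha => by
    obtain ⟨d, hd, rfl⟩ := mem_image.1 ha
    exact hS d hd i
  calc ∑ d ∈ S, ∏ i, F i (d i)
      ≤ ∑ d ∈ Fintype.piFinset fun i => S.image fun d => d i, ∏ i, F i (d i) := by
        refine sum_le_sum_of_subset_of_nonneg (fun d hd => ?_) fun d hd _ => ?_
        · exact Fintype.mem_piFinset.2 fun i => mem_image_of_mem _ hd
        · exact prod_nonneg fun i _ => h0 i _ (hR i _ (Fintype.mem_piFinset.1 hd i))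
    _ = ∏ i, ∑ a ∈ S.image (fun d => d i), F i a := (prod_univ_sum _ _).symm
    _ ≤ ∏ i, c i := prod_le_prod (fun i _ => sum_nonneg fun a ha => h0 i a (hR i a ha))
        fun i _ => h i _ (hR i)

/-- the least bound (a supremum) -/
theorem Bd.exists_least (h : Bd P f C) : ∃ m, Bd P f m ∧ ∀ C', Bd P f C' → m ≤ C' := by
  let A : Set ℝ := {x | ∃ S : Finset α, (∀ a ∈ S, P a) ∧ ∑ a ∈ S, f a = x}
  have hne : A.Nonempty := ⟨0, ∅, by simp, by simp⟩
  have hub : ∀ C', Bd P f C' → C' ∈ upperBounds A := by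
    rintro C' hC' x ⟨S, hS, rfl⟩
    exact hC' S hS
  exact ⟨sSup A, fun S hS => le_csSup ⟨C, hub C h⟩ ⟨S, hS, rfl⟩,
    fun C' hC' => csSup_le hne (hub C' hC')⟩

theorem Bd.card_le {S : Finset α} (h : Bd P (fun _ => 1) C) (hS : ∀ a ∈ S, P a) :
    (S.card : ℝ) ≤ C := by
  simpa using h S hS

theorem bd_multiples {X : ℝ} (hX : 0 ≤ X) {e : ℕ} (he : 0 < e) :
    Bd (fun v : ℕ => 0 < v ∧ (v : ℝ) ≤ X ∧ e ∣ v) (fun _ => 1) (X / e) := by
  have he' : (0 : ℝ) < e := by exact_mod_cast he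
  have h1 : Bd (fun k : ℕ => k ∈ Icc 1 ⌊X / e⌋₊) (fun _ => 1) (X / e) := by
    refine Bd.of_finset (Icc 1 ⌊X / e⌋₊) (fun _ h => h) (fun _ _ => zero_le_one) ?_
    simpa using Nat.floor_le (div_nonneg hX he'.le)
  refine h1.of_map (fun k => e * k) ?_
  rintro v ⟨hv, hvX, k, rfl⟩
  refine ⟨k, mem_Icc.2 ⟨Nat.pos_of_mul_pos_left hv, Nat.le_floor ?_⟩, rfl, le_rfl⟩
  rw [le_div_iff₀ he', mul_comm]
  exact_mod_cast hvX

theorem bd_rcp_le {W : ℝ} (hW : 0 ≤ W) : Bd (fun w : ℕ => 0 < w ∧ (w : ℝ) ≤ W) rcp W := by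
  refine (bd_multiples hW one_pos).mono (fun w hw => ⟨hw.1, hw.2, one_dvd _⟩) (fun w hw => ?_)
    (by simp)
  have : (1 : ℝ) ≤ w := by exact_mod_cast hw.1
  unfold rcp
  exact (div_le_one (by linarith)).2 this

theorem rcp_nonneg (w : ℕ) : 0 ≤ rcp w := by
  unfold rcp
  positivity

theorem rcp_mul (a b : ℕ) : rcp (a * b) = rcp a * rcp b := by
  simp only [rcp, Nat.cast_mul, one_div, mul_inv]

theorem wt_nonneg {m l : ℕ} {h : ℕ → ℕ} (hh : Head m l h) : 0 ≤ wt m l h := by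
  refine prod_nonneg fun i hi => ?_
  have : (2 : ℝ) ≤ h i := by exact_mod_cast (hh.1 i hi).two_le
  exact div_nonneg zero_le_one (by linarith)

/-- heads with independent conditions (restrict to `Icc m l` and use `Bd.pi`, or induct on `l`) -/
theorem tuple_bd (m l : ℕ) {R : ℕ → ℕ → Prop} {c : ℕ → ℝ}
    (h : ∀ i ∈ Icc m l, Bd (fun p : ℕ => p.Prime ∧ R i p) (fun p => 1 / ((p : ℝ) - 1)) (c i)) :
    Bd (fun h : ℕ → ℕ => Head m l h ∧ ∀ i ∈ Icc m l, R i (h i)) (wt m l) (∏ i ∈ Icc m l, c i) := by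
  classical
  have h1 := Bd.pi (ι := {i // i ∈ Icc m l}) (R := fun i (p : ℕ) => p.Prime ∧ R i.1 p)
    (F := fun _ p => 1 / ((p : ℝ) - 1)) (c := fun i => c i.1) (fun i => h i.1 i.2)
    (fun i p hp => by
      have : (2 : ℝ) ≤ p := by exact_mod_cast hp.1.two_le
      exact div_nonneg zero_le_one (by linarith))
  rw [prod_coe_sort (Icc m l) c] at h1
  refine h1.of_inj (fun h i => h i.1) ?_ ?_
  · rintro h ⟨h2, h3⟩
    refine ⟨fun i => ⟨h2.1 i.1 i.2, h3 i.1 i.2⟩, le_of_eq ?_⟩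
    exact (prod_coe_sort (Icc m l) fun i => 1 / ((h i : ℝ) - 1)).symm
  · rintro h h' ⟨h2, -⟩ ⟨h3, -⟩ e
    funext i
    by_cases hi : i ∈ Icc m l
    · exact congrFun e ⟨i, hi⟩
    · rw [h2.2 i hi, h3.2 i hi]

end Crest.Agent.R20
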