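/-!
# Row 20 (S0026, S0027): values of Euler's function — blueprint (owner helper77)

Notation: `B = log log x`, `th p ≈ log log p` (level; the primes of level `≤ t` have `∑ 1/(q-1) ∈ [t, t+1]`),
`n = p₀ p₁ ⋯` with `p₀ ≥ p₁ ≥ ⋯` (`pr n k`), `y_k = th p_k` (`yy n k`), `n_k = tl^[k] n`.
`Bd P f C` means that every finite sum of `f` over `{P}` is `≤ C` (no infinite sums anywhere).
`ξ_j = ρ^{-j/8}`; at level `k` the depth is `j = M - k` and the scales are `Y = ξ^9`, `s = ξ^7`, `E = ξ^6`.
`M` is admissible if `M ≤ φ(x) ≤ M + 3` (`φ = phaseArg`); `FA ρ` is the filter `x → ∞`, `M` admissible.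
`L = M - K`, `L' = M - K'`, order of choice: `K'`, then `W`, then `K`, then `x`.

* A. Tools: `Bd, Theta, Gp, Omega, ACoef, Euler, Sieve, TopW`.
* B. `Abn`: primes `p` for which `p - 1` has an unusual number of prime factors of level `≤ t` are rare.
* C. `Cap`: numbers with a prescribed profile of prime factors have mass `≤ exp (y₀ - ∑ a_d y_d + err)`.
* D. `Tails, Viol`: mass of the totients of tails; violations of goodness.
* E. `Mat, Elim, CollFix, Coll`: two different chains with the same totient are rare when `y₀ - ∑ a_d y_d ≥ s/2`.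
* F. `Renew, Scale, Scale2`: `g_j ρ^j → γ`; asymptotics along `FA ρ`.
* G. `Vol, HVol, HLow`: discrete volume of the polytope `y_i ≥ β_i + ∑_{k>i} a_{k-i} y_k`.
* H. `PCount, Level, UpA, Upper`: upper bound `V ≤ (x/log x)((1+ε) MT(+) + ε G_M)`.
* I. `LowA, LowB, Build, Lower`: lower bound `V ≥ (x/log x)((1-ε) MT(-) - ε G_M)` and `V ≥ c (x/log x) G_M`.
* J. `Asym, Main, Final`: `|V log x/(x G_M) - A_ε(φ - M)| ≤ ε` with `A_ε` continuous; the two statements.

Every file has its recipes in the docstrings; statements of other files may be used before they are proved.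
-/
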