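import Crest.Agent.R20.Level

/-!
# R20/Build: lower bound: building the family
-/

set_option autoImplicit false

open Finset Filter Topology Crest.NumberTheoryR.TotientScale

namespace Crest.Agent.R20

variable {ρ : ℝ}

/-- `φ m ≤ (gp m)^J W` (`Chain.totient`, `pr_anti`), `log (gp m) ≤ exp (yy m 0 + C) ≤ exp (B - ξ_M^7 + C)`,
`M ≤ B`, `ξ_M^7 ≥ ξ_M ≥ 3 log B + C + 1`; so `log φ m ≤ e^B/(2B) + log (W+1) ≤ e^B / B = log x / B` -/
theorem w_small (hρ : IsRho ρ) (W : ℕ) : ∀ᶠ z : ℝ × ℕ in FA ρ, ∀ J ≤ z.2, ∀ m : ℕ, Chain J m →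
    (tl^[J] m).totient ≤ W → yy m 0 + sl ρ z.2 0 ≤ bigB z.1 →
    (m.totient : ℝ) ≤ z.1 ^ (1 / bigB z.1) := by
  obtain ⟨C, hC0, hC⟩ := log_le_exp_th
  have hB := tendsto_bigB.comp (tendsto_fst_FA ρ)
  have hlam := lam_pos hρ
  have h1 : ∀ᶠ B : ℝ in atTop, Real.log B ≤ lam ρ * B := by
    have := (Real.isLittleO_log_id_atTop.bound hlam)
    filter_upwards [this, eventually_ge_atTop 1] with B hB h1
    have h0 : 0 ≤ Real.log B := Real.log_nonneg h1
    simpa [abs_of_nonneg h0, abs_of_nonneg (by linarith : (0 : ℝ) ≤ B)] using hB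
  have h2 : ∀ᶠ B : ℝ in atTop, Real.log (W + 1) ≤ Real.exp B / (2 * B) := by
    have t : Tendsto (fun B : ℝ => Real.exp B / B ^ 1) atTop atTop := Real.tendsto_exp_div_pow_atTop 1
    filter_upwards [t.eventually_ge_atTop (2 * Real.log (W + 1)), eventually_gt_atTop 0] with B hB h0
    rw [pow_one, le_div_iff₀ h0] at hB
    rw [le_div_iff₀ (by positivity)]
    linarith
  filter_upwards [sc_small hρ (C + 1), M_le hρ, hB.eventually h1, hB.eventually h2,
    hB.eventually (eventually_ge_atTop 1), (tendsto_fst_FA ρ).eventually (eventually_gt_atTop 1)]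
    with z hs hM hl hW hB1 hx J hJ m hc hend hy
  simp only [Function.comp] at hl hW hB1
  set B := bigB z.1 with hBdef
  have hx0 : 0 < z.1 := by linarith
  have hlog : Real.log z.1 = Real.exp B := by
    rw [hBdef, bigB, Real.exp_log (Real.log_pos hx)]
  have hMB : (z.2 : ℝ) ≤ B := le_of_mul_le_mul_left (hM.1.trans hl) hlam
  have hξ1 := one_le_xi hρ z.2
  have hsl : xi ρ z.2 ≤ sl ρ z.2 0 := by
    unfold sl
    rw [Nat.sub_zero]
    exact le_self_pow₀ hξ1 (by norm_num)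
  have hB0 : 0 < B := by linarith
  -- the bound on `J * log (gp m)`
  have key : (J : ℝ) * Real.log (gp m) ≤ Real.exp B / (2 * B) := by
    rcases Nat.eq_zero_or_pos J with rfl | hJ0
    · simp; positivity
    have hm1 : 1 < m := by simpa using (hc.2 0 hJ0).1
    have hg := (hC (gp m) (gp_prime hm1).two_le).1
    have hy' : (th (gp m) : ℝ) + C ≤ B - 3 * Real.log B - 1 := by
      have : (yy m 0 : ℝ) = th (gp m) := by rw [yy, pr_zero]
      linarith [hs.2]
    have e1 : Real.exp (B - 3 * Real.log B - 1) = Real.exp B / B ^ 3 * Real.exp (-1) := by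
      rw [show B - 3 * Real.log B - 1 = B - 3 * Real.log B + -1 by ring, Real.exp_add, Real.exp_sub,
        show (3 : ℝ) * Real.log B = Real.log (B ^ 3) by rw [Real.log_pow]; norm_num,
        Real.exp_log (by positivity)]
    have e2 : Real.exp (-1) ≤ 1 / 2 := by
      have := Real.exp_neg_one_lt_d9
      linarith
    have hg2 : Real.log (gp m) ≤ Real.exp B / B ^ 3 * (1 / 2) := by
      refine hg.trans ((Real.exp_le_exp.2 hy').trans ?_)
      rw [e1]
      gcongr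
    have hJB : (J : ℝ) ≤ B := le_trans (by exact_mod_cast hJ) hMB
    calc (J : ℝ) * Real.log (gp m) ≤ B * (Real.exp B / B ^ 3 * (1 / 2)) := by
          gcongr
      _ = Real.exp B / (2 * B) * (1 / B) := by field_simp
      _ ≤ Real.exp B / (2 * B) * 1 := by
          gcongr
          rw [div_le_one hB0]; exact hB1
      _ = _ := mul_one _
  have hφ : m.totient ≤ gp m ^ J * (W + 1) := by
    rw [hc.totient]
    refine Nat.mul_le_mul ?_ (by omega)
    have : ∏ i ∈ range J, (pr m i - 1) ≤ gp m ^ (range J).card :=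
      prod_le_pow_card _ _ _ fun i _ => by
        have := pr_anti hc.1 (Nat.zero_le i)
        rw [pr_zero] at this
        omega
    simpa using this
  have hg0 : (0 : ℝ) < gp m := by exact_mod_cast gp_pos m
  calc (m.totient : ℝ) ≤ (gp m : ℝ) ^ J * (W + 1) := by exact_mod_cast hφ
    _ = Real.exp (J * Real.log (gp m) + Real.log (W + 1)) := by
        rw [Real.exp_add, Real.exp_log (by positivity), ← Real.log_pow, Real.exp_log (by positivity)]
    _ ≤ Real.exp (Real.log z.1 * (1 / B)) := by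
        rw [Real.exp_le_exp, hlog]
        have : Real.exp B * (1 / B) = Real.exp B / (2 * B) + Real.exp B / (2 * B) := by
          field_simp; ring
        linarith
    _ = _ := (Real.rpow_def_of_pos hx0 _).symm

/-- the number attached to a head and a tail -/
def mkm (L : ℕ) (s : (ℕ → ℕ) × ℕ) : ℕ := (∏ i ∈ range L, s.1 (i + 1)) * s.2

/-- `build`, `th_mono`, `chain_add` -/
theorem LowH.mkm_spec {x : ℝ} {M K D W : ℕ} {s : (ℕ → ℕ) × ℕ} (h : LowH ρ x M K D W s) (hL : 1 ≤ M - K) :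
    Chain (M - K + D) (mkm (M - K) s) ∧ (∀ i < M - K, pr (mkm (M - K) s) i = s.1 (i + 1)) ∧
      tl^[M - K] (mkm (M - K) s) = s.2 ∧
      rcp (mkm (M - K) s).totient = wt 1 (M - K) s.1 * rcp s.2.totient := by
  obtain ⟨hh, -, -, hlt, hend, hT⟩ := h
  have hr : 0 < s.2 := hT.1.1
  have hp : ∀ i < M - K, (s.1 (i + 1)).Prime := fun i hi => hh.1 _ (mem_Icc.2 ⟨by omega, by omega⟩)
  obtain ⟨b1, b2, b3⟩ := build (M - K) (fun i => s.1 (i + 1)) hr hp
    (fun i hi => lt_of_not_ge fun h' => absurd (th_mono h') (not_le.2 (hlt (i + 1) (by omega) hi)))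
    (fun _ => by
      have e : M - K - 1 + 1 = M - K := by omega
      simp only [e]
      refine lt_of_not_ge fun h' => absurd (th_mono h') (not_le.2 ?_)
      rwa [yy, pr_zero] at hend)
  change Chain (M - K) (mkm (M - K) s) at b1
  change ∀ i < M - K, pr (mkm (M - K) s) i = s.1 (i + 1) at b2
  change tl^[M - K] (mkm (M - K) s) = s.2 at b3
  refine ⟨chain_add b1 (by rw [b3]; exact hT.1), b2, b3, ?_⟩
  rw [b1.totient, b3, rcp_mul, wt, Gp_prod_Icc]
  congr 1
  rw [rcp, Nat.cast_prod, one_div, ← prod_inv_distrib]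
  refine prod_congr rfl fun i hi => ?_
  rw [b2 i (mem_range.1 hi), Nat.cast_sub (hp i (mem_range.1 hi)).one_le, one_div, Nat.cast_one]

/-- for a prime `p > gp m`, `n = p m` has `gp n = p`, `tl n = m` (`gp_mul_prime`), `hd L n = s.1`;
`sum_Ioc_split`, `lev_hd` -/
theorem LowH.lowN {x : ℝ} {M K D W p : ℕ} {s : (ℕ → ℕ) × ℕ} (h : LowH ρ x M K D W s)
    (hL : 1 ≤ M - K) (hp : p.Prime) (hx : √x < p)
    (hpx : ((p : ℝ) - 1) * (mkm (M - K) s).totient ≤ x)
    (hw : ((mkm (M - K) s).totient : ℝ) ≤ x ^ (1 / bigB x)) (hx' : x ^ (1 / bigB x) + 1 < √x) :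
    LowN ρ x M K D W (p * mkm (M - K) s) ∧ gp (p * mkm (M - K) s) = p ∧
      hd (M - K) (p * mkm (M - K) s) = s.1 ∧ tl^[M - K + 1] (p * mkm (M - K) s) = s.2 := by
  obtain ⟨b1, b2, b3, -⟩ := h.mkm_spec hL
  obtain ⟨hh, hcons, -, -, -, hT⟩ := h
  set m := mkm (M - K) s with hm
  have hm0 : 0 < m := b1.1
  have hgp : gp m < p := by
    have h1 : ((gp m - 1 : ℕ) : ℝ) ≤ m.totient := by exact_mod_cast gp_sub_one_le hm0
    rw [Nat.cast_sub (gp_pos m), Nat.cast_one] at h1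
    have : (gp m : ℝ) < p := by linarith
    exact_mod_cast this
  obtain ⟨g1, g2⟩ := gp_mul_prime hp hm0 hgp.le
  have hit : ∀ k, tl^[k + 1] (p * m) = tl^[k] m := fun k => by
    rw [Function.iterate_succ_apply, g2]
  have hpr : ∀ d, pr (p * m) (d + 1) = pr m d := fun d => by rw [← pr_tl, g2]
  have hn1 : 1 < p * m := lt_of_lt_of_le hp.one_lt (Nat.le_mul_of_pos_right _ hm0)
  have hnd : ¬ gp (p * m) ∣ tl (p * m) := by
    rw [g1, g2]
    exact fun h' => absurd (le_gp hm0 hp h') (not_le.2 hgp)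
  have hc1 : Chain 1 (p * m) := by
    refine ⟨by omega, fun i hi => ?_⟩
    obtain rfl : i = 0 := by omega
    exact ⟨hn1, by rw [pr_zero]; exact hnd⟩
  have hhd : hd (M - K) (p * m) = s.1 := by
    funext i
    unfold hd
    split_ifs with hi
    · obtain ⟨j, rfl⟩ : ∃ j, i = j + 1 := ⟨i - 1, by have := (mem_Icc.1 hi).1; omega⟩
      rw [hpr, b2 j (by have := (mem_Icc.1 hi).2; omega)]
    · exact (hh.2 i hi).symm
  have htl : tl^[M - K + 1] (p * m) = s.2 := by rw [hit, b3]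
  refine ⟨⟨?_, by rw [g1]; exact hx, ?_, by rw [g2]; exact hw, ?_, ?_, ?_⟩, g1, hhd, htl⟩
  · have := chain_add hc1 (k := M - K + D) (by rw [hit 0]; exact b1)
    rwa [add_comm] at this
  · rw [totient_of_not_dvd hn1 hnd, g1, g2, Nat.cast_mul, Nat.cast_sub hp.one_le, Nat.cast_one]
    exact hpx
  · intro i h1 h2
    obtain ⟨e, rfl⟩ : ∃ e, i = M - K + 1 + e := ⟨i - (M - K + 1), by omega⟩
    rw [← pr_iter, htl]
    exact hT.2.1 e (by omega)
  · rw [show M - K + D + 1 = M - K + 1 + D by omega, ← iter_iter, htl]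
    exact hT.2.2
  · intro i hi
    rw [sum_Ioc_split D _ hi, ← lev_hd _ _ hi, hhd, htl]
    have := hcons i hi
    linarith

/-- `N` is the image of `S.sigma (primes of pc_lo for w = φ (mkm s))` under the injective map `(s, p) ↦ p * mkm s` -/
theorem build_family (hρ : IsRho ρ) {ε : ℝ} (hε : 0 < ε) (W K : ℕ) :
    ∀ᶠ z : ℝ × ℕ in FA ρ, ∀ D ≤ K, ∀ S : Finset ((ℕ → ℕ) × ℕ),
    (∀ s ∈ S, LowH ρ z.1 z.2 K D W s) →
    (∀ s ∈ S, ∀ s' ∈ S, s.2.totient = s'.2.totient → s.2 = s'.2) →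
    ∃ N : Finset ℕ, (∀ n ∈ N, LowN ρ z.1 z.2 K D W n) ∧ TailInj (z.2 - K + 1) N ∧
      (1 - ε) * (z.1 / Real.log z.1) * ∑ s ∈ S, wt 1 (z.2 - K) s.1 * rcp s.2.totient ≤ N.card := by
  classical
  filter_upwards [w_small hρ W, (tendsto_fst_FA ρ).eventually (pc_lo hε),
    (tendsto_fst_FA ρ).eventually rpow_inv_bigB_le,
    (tendsto_M hρ).eventually (eventually_ge_atTop (K + 1))] with z hw hpc hr hM D hD S hS hinj
  have hL : 1 ≤ z.2 - K := by omega
  have hsmall : ∀ s ∈ S, ((mkm (z.2 - K) s).totient : ℝ) ≤ z.1 ^ (1 / bigB z.1) := by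
    intro s hs
    obtain ⟨b1, b2, b3, -⟩ := (hS s hs).mkm_spec hL
    refine hw (z.2 - K + D) (by omega) _ b1 ?_ ?_
    · rw [← iter_iter, b3]
      exact (hS s hs).2.2.2.2.2.2.2
    · rw [yy, b2 0 hL]
      exact (hS s hs).2.2.1
  have hex : ∀ s : (ℕ → ℕ) × ℕ, ∃ T : Finset ℕ, s ∈ S →
      (∀ p ∈ T, p.Prime ∧ √z.1 < p ∧ ((p : ℝ) - 1) * (mkm (z.2 - K) s).totient ≤ z.1) ∧
      (1 - ε) * (z.1 / Real.log z.1) / (mkm (z.2 - K) s).totient ≤ T.card := by
    intro s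
    by_cases hs : s ∈ S
    · obtain ⟨T, hT⟩ := hpc _ (Nat.totient_pos.2 ((hS s hs).mkm_spec hL).1.1) (hsmall s hs)
      exact ⟨T, fun _ => hT⟩
    · exact ⟨∅, fun h => absurd h hs⟩
  choose T hT using hex
  have hspec : ∀ a ∈ S.sigma T, LowN ρ z.1 z.2 K D W (a.2 * mkm (z.2 - K) a.1) ∧
      gp (a.2 * mkm (z.2 - K) a.1) = a.2 ∧ hd (z.2 - K) (a.2 * mkm (z.2 - K) a.1) = a.1.1 ∧
      tl^[z.2 - K + 1] (a.2 * mkm (z.2 - K) a.1) = a.1.2 := by
    intro a ha
    obtain ⟨h1, h2⟩ := mem_sigma.1 ha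
    obtain ⟨p1, p2, p3⟩ := (hT a.1 h1).1 a.2 h2
    exact (hS a.1 h1).lowN hL p1 p2 p3 (hsmall a.1 h1) hr.2.1
  refine ⟨(S.sigma T).image fun a => a.2 * mkm (z.2 - K) a.1, ?_, ?_, ?_⟩
  · intro n hn
    obtain ⟨a, ha, rfl⟩ := mem_image.1 hn
    exact (hspec a ha).1
  · intro n hn n' hn' e
    obtain ⟨a, ha, rfl⟩ := mem_image.1 hn
    obtain ⟨a', ha', rfl⟩ := mem_image.1 hn'
    rw [(hspec a ha).2.2.2, (hspec a' ha').2.2.2] at e ⊢
    exact hinj _ (mem_sigma.1 ha).1 _ (mem_sigma.1 ha').1 e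
  · rw [card_image_of_injOn, card_sigma, Nat.cast_sum, mul_sum]
    · refine sum_le_sum fun s hs => ?_
      rw [← ((hS s hs).mkm_spec hL).2.2.2, rcp, mul_one_div]
      exact (hT s hs).2
    · rintro ⟨s, p⟩ ha ⟨s', p'⟩ ha' e
      obtain ⟨-, a1, a2, a3⟩ := hspec _ ha
      obtain ⟨-, c1, c2, c3⟩ := hspec _ ha'
      simp only at e a1 a2 a3 c1 c2 c3
      rw [e] at a1 a2 a3
      obtain rfl : p = p' := a1.symm.trans c1
      obtain rfl : s = s' := Prod.ext (a2.symm.trans c2) (a3.symm.trans c3)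
      rfl

end Crest.Agent.R20
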