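import Crest.Agent.R20.Euler
import Crest.Agent.R20.ACoef

/-!
# R20/Cap: the capacity bound
-/

set_option autoImplicit false

open Finset Filter Topology Crest.NumberTheoryR.TotientScale

namespace Crest.Agent.R20

/-- Abel summation: if the partial sums of `w` and `n` over `Icc 1 t` differ by at most `E`, and `F` is antitone
and nonnegative on `t > T₀`, then the `F`-weighted sums over `Ioc T₀ T` differ by at most `2 E F (T₀+1)`. -/
theorem abel_ge {W S F : ℕ → ℝ} {E : ℝ} (hE : ∀ t, |W t - S t| ≤ E) {T₀ : ℕ}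
    (hF : ∀ t, T₀ < t → F (t + 1) ≤ F t) (h0 : ∀ t, T₀ < t → 0 ≤ F t) (T : ℕ) :
    ∑ t ∈ Ioc T₀ T, (S t - S (t - 1)) * F t - 2 * E * F (T₀ + 1) ≤
      ∑ t ∈ Ioc T₀ T, (W t - W (t - 1)) * F t := by
  have hE0 : 0 ≤ E := (abs_nonneg _).trans (hE 0)
  have hF0 := h0 (T₀ + 1) (by omega)
  have key : ∀ T, T₀ ≤ T → (W T - S T + E) * F (T + 1) - 2 * E * F (T₀ + 1) ≤
      ∑ t ∈ Ioc T₀ T, (W t - W (t - 1)) * F t - ∑ t ∈ Ioc T₀ T, (S t - S (t - 1)) * F t := by
    intro T hT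
    induction T, hT using Nat.le_induction with
    | base =>
      simp only [Ioc_self, sum_empty]
      have := (abs_le.1 (hE T₀)).2
      nlinarith
    | succ T hT ih =>
      rw [sum_Ioc_succ_top hT, sum_Ioc_succ_top hT, Nat.add_sub_cancel]
      have h1 := (abs_le.1 (hE (T + 1))).1
      have h2 := hF (T + 1) (by omega)
      have h3 : (W (T + 1) - S (T + 1) + E) * F (T + 1 + 1) ≤
          (W (T + 1) - S (T + 1) + E) * F (T + 1) :=
        mul_le_mul_of_nonneg_left h2 (by linarith)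
      nlinarith
  rcases le_total T₀ T with hT | hT
  · have h1 := key T hT
    have h2 : 0 ≤ (W T - S T + E) * F (T + 1) :=
      mul_nonneg (by linarith [(abs_le.1 (hE T)).1]) (h0 _ (by omega))
    linarith
  · rw [Ioc_eq_empty (by omega)]
    simp only [sum_empty]
    nlinarith

/-- number of lines of level at least `t` -/
def capN (D : ℕ) (y : ℕ → ℕ) (t : ℕ) : ℕ := ((range (D + 1)).filter fun d => t ≤ y d).card

theorem capN_le (D : ℕ) (y : ℕ → ℕ) (t : ℕ) : capN D y t ≤ D + 1 :=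
  (card_filter_le _ _).trans (card_range _).le

theorem capN_anti (D : ℕ) (y : ℕ → ℕ) (t : ℕ) : capN D y (t + 1) ≤ capN D y t :=
  card_le_card fun d hd => by
    simp only [mem_filter] at hd ⊢
    exact ⟨hd.1, by omega⟩

theorem capN_pos (D : ℕ) (y : ℕ → ℕ) {t : ℕ} (ht : t ≤ y 0) : 1 ≤ capN D y t :=
  card_pos.2 ⟨0, by simp [ht]⟩

theorem capN_incr (D : ℕ) (y : ℕ → ℕ) {t : ℕ} (ht : 1 ≤ t) :
    ((∑ d ∈ range (D + 1), min t (y d) : ℕ) : ℝ) -
      ((∑ d ∈ range (D + 1), min (t - 1) (y d) : ℕ) : ℝ) = capN D y t := by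
  have : ∑ d ∈ range (D + 1), min t (y d) =
      ∑ d ∈ range (D + 1), min (t - 1) (y d) + capN D y t := by
    rw [capN, card_filter, ← sum_add_distrib]
    refine sum_congr rfl fun d _ => ?_
    split_ifs <;> omega
  rw [this]
  push_cast
  ring

/-- the weight of level `t` -/
noncomputable def capF (D : ℕ) (y : ℕ → ℕ) (t : ℕ) : ℝ :=
  if 2 * (D + 1) < t then Real.log (capN D y t) else 0

theorem capF_nonneg (D : ℕ) (y : ℕ → ℕ) (t : ℕ) : 0 ≤ capF D y t := by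
  unfold capF
  split_ifs
  · exact Real.log_natCast_nonneg _
  · exact le_rfl

theorem cap_log_le (D : ℕ) (y : ℕ → ℕ) (t : ℕ) : Real.log (capN D y t) ≤ D + 1 := by
  have h1 : (capN D y t : ℝ) ≤ D + 1 := by exact_mod_cast capN_le D y t
  exact (Real.log_le_self (Nat.cast_nonneg _)).trans h1

theorem capF_le (D : ℕ) (y : ℕ → ℕ) (t : ℕ) : capF D y t ≤ D + 1 := by
  unfold capF
  split_ifs
  · exact cap_log_le D y t
  · positivity

theorem capF_anti (D : ℕ) (y : ℕ → ℕ) (t : ℕ) (ht : 2 * (D + 1) < t) :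
    capF D y (t + 1) ≤ capF D y t := by
  unfold capF
  rw [if_pos ht, if_pos (by omega)]
  rcases Nat.eq_zero_or_pos (capN D y (t + 1)) with h | h
  · rw [h]
    simpa using Real.log_natCast_nonneg (capN D y t)
  · exact Real.log_le_log (by exact_mod_cast h) (by exact_mod_cast capN_anti D y t)

theorem cap_z_hi (D : ℕ) (y : ℕ → ℕ) {t : ℕ} (ht : 2 * (D + 1) < t) (h : t ≤ y 0) :
    Real.exp (capF D y t) = capN D y t := by
  unfold capF
  rw [if_pos ht, Real.exp_log (by exact_mod_cast capN_pos D y h)]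

theorem cap_z_lo (D : ℕ) (y : ℕ → ℕ) {t : ℕ} (ht : ¬ 2 * (D + 1) < t) :
    Real.exp (capF D y t) = 1 := by
  unfold capF
  rw [if_neg ht, Real.exp_zero]

theorem cap_z_le (D : ℕ) (y : ℕ → ℕ) {t : ℕ} (h : t ≤ y 0) : Real.exp (capF D y t) ≤ D + 1 := by
  by_cases ht : 2 * (D + 1) < t
  · rw [cap_z_hi D y ht h]
    exact_mod_cast capN_le D y t
  · rw [cap_z_lo D y ht]
    have : (0 : ℝ) ≤ D := Nat.cast_nonneg _
    linarith

/-- lower bound for the Rankin weight on `CapSet` -/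
theorem cap_cm_ge {D : ℕ} {y : ℕ → ℕ} {E : ℝ} (hE : 0 ≤ E) {a : ℕ} (ha : CapSet D y E a) :
    Real.exp (∑ t ∈ Ioc (2 * (D + 1)) (y 0), (capN D y t : ℝ) * Real.log (capN D y t) -
      2 * E * (D + 1)) ≤ cm (fun q => Real.exp (capF D y (th q))) a := by
  rw [cm_exp_level (capF D y) ha.1]
  refine Real.exp_le_exp.2 ?_
  have h1 := abel_ge (W := fun t => (Om t a : ℝ))
    (S := fun t => ((∑ d ∈ range (D + 1), min t (y d) : ℕ) : ℝ)) (F := capF D y) ha.2
    (T₀ := 2 * (D + 1)) (capF_anti D y) (fun t _ => capF_nonneg D y t) (y 0)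
  have h2 : ∑ t ∈ Ioc (2 * (D + 1)) (y 0), ((Om t a : ℝ) - Om (t - 1) a) * capF D y t =
      ∑ t ∈ Icc 1 (y 0), ((Om t a : ℝ) - Om (t - 1) a) * capF D y t := by
    refine sum_subset (fun t ht => ?_) fun t ht ht' => ?_
    · simp only [mem_Ioc, mem_Icc] at ht ⊢
      omega
    · simp only [mem_Ioc, mem_Icc] at ht ht'
      unfold capF
      rw [if_neg (by omega), mul_zero]
  have h3 : ∑ t ∈ Ioc (2 * (D + 1)) (y 0), (((∑ d ∈ range (D + 1), min t (y d) : ℕ) : ℝ) -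
      ((∑ d ∈ range (D + 1), min (t - 1) (y d) : ℕ) : ℝ)) * capF D y t =
      ∑ t ∈ Ioc (2 * (D + 1)) (y 0), (capN D y t : ℝ) * Real.log (capN D y t) := by
    refine sum_congr rfl fun t ht => ?_
    simp only [mem_Ioc] at ht
    rw [capN_incr D y (by omega)]
    unfold capF
    rw [if_pos ht.1]
  have h4 : 2 * E * capF D y (2 * (D + 1) + 1) ≤ 2 * E * (D + 1) :=
    mul_le_mul_of_nonneg_left (capF_le D y _) (by positivity)
  rw [h2, h3] at h1
  linarith

theorem cap_sum_one (D : ℕ) (y : ℕ → ℕ) :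
    ∑ q ∈ PP (y 0), Real.exp (capF D y (th q)) / ((q : ℝ) - 1) ≤
      (2 * (D + 1) + 1) + (D + 1) + ∑ t ∈ Ioc (2 * (D + 1)) (y 0), (capN D y t : ℝ) := by
  rw [← sum_filter_add_sum_filter_not (PP (y 0)) (fun q => 2 * (D + 1) + 1 ≤ th q)]
  have h1 : ∑ q ∈ (PP (y 0)).filter (fun q => 2 * (D + 1) + 1 ≤ th q),
      Real.exp (capF D y (th q)) / ((q : ℝ) - 1) ≤
      (D + 1) + ∑ t ∈ Ioc (2 * (D + 1)) (y 0), (capN D y t : ℝ) := by
    have h := sum_th_anti_le (f := fun t => (capN D y t : ℝ)) (t₀ := 2 * (D + 1) + 1) (by omega)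
      (fun t _ => by exact_mod_cast capN_anti D y t) (fun t _ => Nat.cast_nonneg _) (y 0)
    have e : Icc (2 * (D + 1) + 1) (y 0) = Ioc (2 * (D + 1)) (y 0) := by
      ext t
      simp only [mem_Icc, mem_Ioc]
      omega
    rw [e] at h
    have h' : (capN D y (2 * (D + 1) + 1) : ℝ) ≤ D + 1 := by exact_mod_cast capN_le D y _
    refine le_trans (le_of_eq (sum_congr rfl fun q hq => ?_)) (h.trans (by linarith))
    rw [mem_filter, mem_PP] at hq
    rw [cap_z_hi D y (by omega) hq.1.2]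
  have h2 : ∑ q ∈ (PP (y 0)).filter (fun q => ¬ 2 * (D + 1) + 1 ≤ th q),
      Real.exp (capF D y (th q)) / ((q : ℝ) - 1) ≤ 2 * (D + 1) + 1 := by
    have h := sum_PP_le (2 * (D + 1))
    push_cast at h
    refine le_trans ?_ h
    calc ∑ q ∈ (PP (y 0)).filter (fun q => ¬ 2 * (D + 1) + 1 ≤ th q),
          Real.exp (capF D y (th q)) / ((q : ℝ) - 1)
        = ∑ q ∈ (PP (y 0)).filter (fun q => ¬ 2 * (D + 1) + 1 ≤ th q), 1 / ((q : ℝ) - 1) := by
          refine sum_congr rfl fun q hq => ?_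
          rw [mem_filter] at hq
          rw [cap_z_lo D y (by omega)]
      _ ≤ _ := by
          refine sum_le_sum_of_subset_of_nonneg (fun q hq => ?_) fun q hq _ => ?_
          · rw [mem_filter, mem_PP] at hq
            exact mem_PP.2 ⟨hq.1.1, by omega⟩
          · have : (2 : ℝ) ≤ q := by exact_mod_cast (mem_PP.1 hq).1.two_le
            exact div_nonneg zero_le_one (by linarith)
  linarith

theorem cap_sum_two (D : ℕ) (y : ℕ → ℕ) :
    ∑ q ∈ PP (y 0), (Real.exp (capF D y (th q)) / q) ^ 2 ≤ (D + 1) ^ 2 := by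
  have h := sum_inv_sq_le (PP (y 0)) (T := 1) le_rfl fun q hq => (mem_PP.1 hq).1.one_lt
  calc ∑ q ∈ PP (y 0), (Real.exp (capF D y (th q)) / q) ^ 2
      ≤ ∑ q ∈ PP (y 0), ((D : ℝ) + 1) ^ 2 * (1 / (q : ℝ) ^ 2) := by
        refine sum_le_sum fun q hq => ?_
        rw [div_pow, mul_one_div]
        exact div_le_div_of_nonneg_right
          (pow_le_pow_left₀ (Real.exp_pos _).le (cap_z_le D y (mem_PP.1 hq).2) 2) (by positivity)
    _ = ((D : ℝ) + 1) ^ 2 * ∑ q ∈ PP (y 0), 1 / (q : ℝ) ^ 2 := by rw [mul_sum]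
    _ ≤ ((D : ℝ) + 1) ^ 2 * 1 := by
        refine mul_le_mul_of_nonneg_left ?_ (by positivity)
        simpa using h
    _ = _ := mul_one _

theorem cap_profile (D : ℕ) (y : ℕ → ℕ) (hy : ∀ d < D, y (d + 1) ≤ y d) :
    ∑ t ∈ Ioc (2 * (D + 1)) (y 0), (capN D y t : ℝ) -
      ∑ t ∈ Ioc (2 * (D + 1)) (y 0), (capN D y t : ℝ) * Real.log (capN D y t) ≤
      y 0 - ∑ d ∈ Icc 1 D, aCoef d * y d + 2 * (D + 1) * (D + 1) ^ 2 := by
  have hp : ∑ t ∈ Icc 1 (y 0), cN (capN D y t) = ∑ d ∈ Icc 1 D, aCoef d * y d := profile_sum D y hy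
  have h1 : ∑ t ∈ Icc 1 (y 0), (1 - cN (capN D y t)) = y 0 - ∑ d ∈ Icc 1 D, aCoef d * y d := by
    rw [sum_sub_distrib, hp]
    simp
  have hsub : Ioc (2 * (D + 1)) (y 0) ⊆ Icc 1 (y 0) := fun t ht => by
    simp only [mem_Ioc, mem_Icc] at ht ⊢
    omega
  rw [← sum_sdiff hsub] at h1
  have h2 : ∑ t ∈ Ioc (2 * (D + 1)) (y 0), (1 - cN (capN D y t)) =
      ∑ t ∈ Ioc (2 * (D + 1)) (y 0), (capN D y t : ℝ) -
        ∑ t ∈ Ioc (2 * (D + 1)) (y 0), (capN D y t : ℝ) * Real.log (capN D y t) := by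
    rw [← sum_sub_distrib]
    refine sum_congr rfl fun t _ => ?_
    unfold cN
    ring
  have h3 : -(2 * ((D : ℝ) + 1) * (D + 1) ^ 2) ≤
      ∑ t ∈ Icc 1 (y 0) \ Ioc (2 * (D + 1)) (y 0), (1 - cN (capN D y t)) := by
    have hc : ((Icc 1 (y 0) \ Ioc (2 * (D + 1)) (y 0)).card : ℝ) ≤ 2 * (D + 1) := by
      have : (Icc 1 (y 0) \ Ioc (2 * (D + 1)) (y 0)).card ≤ (Icc 1 (2 * (D + 1))).card :=
        card_le_card fun t ht => by
          rw [Finset.mem_sdiff, mem_Ioc, mem_Icc] at ht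
          rw [mem_Icc]
          omega
      rw [Nat.card_Icc] at this
      exact_mod_cast (by omega : (Icc 1 (y 0) \ Ioc (2 * (D + 1)) (y 0)).card ≤ 2 * (D + 1))
    have hl := card_nsmul_le_sum (Icc 1 (y 0) \ Ioc (2 * (D + 1)) (y 0))
      (fun t => 1 - cN (capN D y t)) (-((D : ℝ) + 1) ^ 2) fun t _ => by
        have a1 : (capN D y t : ℝ) ≤ D + 1 := by exact_mod_cast capN_le D y t
        have a2 := cap_log_le D y t
        have a3 : (0 : ℝ) ≤ capN D y t := Nat.cast_nonneg _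
        have a4 : (capN D y t : ℝ) * Real.log (capN D y t) ≤ (D + 1) * (D + 1) :=
          mul_le_mul a1 a2 (Real.log_natCast_nonneg _) (by positivity)
        unfold cN
        nlinarith
    rw [nsmul_eq_mul] at hl
    have : (0 : ℝ) ≤ ((D : ℝ) + 1) ^ 2 := by positivity
    nlinarith
  linarith

/-- `N t = #{d ≤ D | t ≤ y d}` (antitone in `t`, `≥ 1` for `t ≤ y 0`), `T₀ = (D+1)²`·2,
`F t = log (N t)` for `t > T₀`, `0` otherwise, `z q = exp (F (th q))`.  `S t = ∑_d min t (y d)` has increments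
`N t`.  `cm_exp_level` and `abel_ge` give `cm z a ≥ exp (∑_{T₀ < t ≤ y 0} N log N - 2 E log (D+1))` on `CapSet`.
`euler_exp`: for `th q > T₀`, `q > T₀` (`th_lt_self`), so `z q ≤ D + 1 ≤ 3q/4` and `∑ (z q/q)² ≤ 2`
(`sum_inv_sq_le`); `∑ z q/(q-1) ≤ T₀ + 1 + (D+1) + ∑_{T₀ < t ≤ y 0} N t` (`sum_PP_le`, `sum_th_anti_le`).
Finally `∑_{t ≤ y 0} (N - N log N) = y 0 - ∑ a_d y_d` (`profile_sum`) and each term is `≥ -(D+1)²`. -/
theorem capacity : ∃ C : ℝ, ∀ (D : ℕ) (y : ℕ → ℕ) (E : ℝ), 0 ≤ E → (∀ d < D, y (d + 1) ≤ y d) →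
    Bd (CapSet D y E) rcp
      (Real.exp (y 0 - ∑ d ∈ Icc 1 D, aCoef d * y d + C * (D + 1) ^ 4 + 2 * E * (D + 1))) := by
  refine ⟨10, fun D y E hE hy => ?_⟩
  have hD : (0 : ℝ) ≤ D := Nat.cast_nonneg _
  have he := euler_exp (y 0) (z := fun q => Real.exp (capF D y (th q)))
    (fun q => (Real.exp_pos _).le) (fun q hq => by
      rw [mem_PP] at hq
      have h2 : (2 : ℝ) ≤ q := by exact_mod_cast hq.1.two_le
      by_cases ht : 2 * (D + 1) < th q
      · have h3 := cap_z_le D y hq.2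
        have h4 : 2 * (D + 1) ≤ q := by have := th_lt_self hq.1.pos; omega
        have h5 : 2 * ((D : ℝ) + 1) ≤ q := by exact_mod_cast h4
        linarith
      · rw [cap_z_lo D y ht]
        linarith)
  set L := ∑ t ∈ Ioc (2 * (D + 1)) (y 0), (capN D y t : ℝ) * Real.log (capN D y t) -
      2 * E * (D + 1) with hL
  refine (he.const_mul (Real.exp_pos (-L)).le).mono (fun a ha => ha.1) (fun a ha => ?_) ?_
  · have h1 := cap_cm_ge hE ha
    rw [← hL] at h1
    rw [rcp, ← mul_div_assoc]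
    refine div_le_div_of_nonneg_right ?_ (Nat.cast_nonneg _)
    calc (1 : ℝ) = Real.exp (-L) * Real.exp L := by rw [← Real.exp_add]; simp
      _ ≤ _ := mul_le_mul_of_nonneg_left h1 (Real.exp_pos _).le
  · rw [← Real.exp_add]
    refine Real.exp_le_exp.2 ?_
    have h1 := cap_sum_one D y
    have h2 := cap_sum_two D y
    have h3 := cap_profile D y hy
    have hx : (1 : ℝ) ≤ D + 1 := by linarith
    have p1 : (D : ℝ) + 1 ≤ (D + 1) ^ 4 := le_self_pow₀ hx (by norm_num)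
    have p2 : ((D : ℝ) + 1) ^ 2 ≤ (D + 1) ^ 4 := pow_le_pow_right₀ hx (by norm_num)
    have p3 : ((D : ℝ) + 1) ^ 3 ≤ (D + 1) ^ 4 := pow_le_pow_right₀ hx (by norm_num)
    have p4 : 2 * ((D : ℝ) + 1) * (D + 1) ^ 2 = 2 * (D + 1) ^ 3 := by ring
    linarith

/-- extension by zero -/
def capExt {n : ℕ} (g : Fin n → ℕ) (d : ℕ) : ℕ := if h : d < n then g ⟨d, h⟩ else 0

theorem cap_anti_le {D : ℕ} {y : ℕ → ℕ} (hy : ∀ d < D, y (d + 1) ≤ y d) {d : ℕ} (hd : d ≤ D) :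
    y d ≤ y 0 := by
  induction d with
  | zero => exact le_rfl
  | succ d ih => exact (hy d (by omega)).trans (ih (by omega))

theorem CapSet.cap_congr {D : ℕ} {y y' : ℕ → ℕ} {E : ℝ} {a : ℕ} (h : CapSet D y E a)
    (e : ∀ d ≤ D, y' d = y d) : CapSet D y' E a := by
  refine ⟨by rw [e 0 (Nat.zero_le _)]; exact h.1, fun t => ?_⟩
  have : ∑ d ∈ range (D + 1), min t (y' d) = ∑ d ∈ range (D + 1), min t (y d) :=
    sum_congr rfl fun d hd => by rw [e d (by simp only [mem_range] at hd; omega)]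
  rw [this]
  exact h.2 t

/-- Union over `D ≤ ξ` and over the restrictions of `y` to `range (D+1)` (`Fintype.piFinset` on `Fin (D+1)`,
at most `(ξ^9+1)^(D+1)` of them; `CapSet` only depends on this restriction); `(D+1)² ≤ √ξ`. -/
theorem capBad_mass : ∀ᶠ ξ : ℝ in atTop, Bd (CapBad ξ) rcp (Real.exp (-(ξ ^ 7 / 4))) := by
  obtain ⟨C, hC⟩ := capacity
  filter_upwards [eventually_ge_atTop (48 ^ 2 : ℝ), eventually_ge_atTop (24 * (22 + |C|))]
    with ξ h1 h2
  have hξ1 : (1 : ℝ) ≤ ξ := by linarith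
  have hξ0 : (0 : ℝ) ≤ ξ := by linarith
  set n := ⌊ξ⌋₊ + 1 with hn
  set Y := ⌊ξ ^ 9⌋₊ + 1 with hY
  set I : Finset (ℕ × (Fin n → ℕ)) := range n ×ˢ Fintype.piFinset fun _ => range Y with hI
  set c : ℝ := Real.exp (-(ξ ^ 7 / 3) + |C| * ξ + ξ ^ 7 / 24 + 2 * ξ) with hc
  have hb := Bd.biUnion (f := rcp) I (c := fun _ => c)
    (R := fun i a => ((i.1 : ℝ) + 1) ^ 4 ≤ ξ ∧ (∀ d < i.1, capExt i.2 (d + 1) ≤ capExt i.2 d) ∧
      capExt i.2 0 + ξ ^ 7 / 3 ≤ ∑ d ∈ Icc 1 i.1, aCoef d * capExt i.2 d ∧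
      CapSet i.1 (capExt i.2) ((i.1 + 1) * ξ ^ 6 + 1) a) (by
      rintro ⟨D, g⟩ _
      by_cases hD : ((D : ℝ) + 1) ^ 4 ≤ ξ ∧ (∀ d < D, capExt g (d + 1) ≤ capExt g d) ∧
          capExt g 0 + ξ ^ 7 / 3 ≤ ∑ d ∈ Icc 1 D, aCoef d * capExt g d
      · obtain ⟨a1, a2, a3⟩ := hD
        refine (hC D (capExt g) ((D + 1) * ξ ^ 6 + 1) (by positivity) a2).mono
          (fun a ha => ha.2.2.2) (fun a _ => le_rfl) (Real.exp_le_exp.2 ?_)
        have hx : (1 : ℝ) ≤ D + 1 := by have : (0 : ℝ) ≤ D := Nat.cast_nonneg _; linarith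
        have b1 : C * ((D : ℝ) + 1) ^ 4 ≤ |C| * ξ :=
          (mul_le_mul_of_nonneg_right (le_abs_self C) (by positivity)).trans
            (mul_le_mul_of_nonneg_left a1 (abs_nonneg C))
        have b2 : (D : ℝ) + 1 ≤ ξ := (le_self_pow₀ hx (by norm_num)).trans a1
        have b3 : ((D : ℝ) + 1) ^ 2 ≤ ξ / 48 := by
          refine abs_le_of_sq_le_sq' ?_ (by positivity) |>.2
          nlinarith
        have b4 : 2 * (((D : ℝ) + 1) * ξ ^ 6 + 1) * (D + 1) =
            2 * (((D : ℝ) + 1) ^ 2 * ξ ^ 6) + 2 * (D + 1) := by ring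
        have b5 : ((D : ℝ) + 1) ^ 2 * ξ ^ 6 ≤ ξ / 48 * ξ ^ 6 :=
          mul_le_mul_of_nonneg_right b3 (by positivity)
        have b6 : ξ / 48 * ξ ^ 6 = ξ ^ 7 / 48 := by ring
        linarith
      · exact Bd.of_empty (fun a ha => hD ⟨ha.1, ha.2.1, ha.2.2.1⟩) (Real.exp_pos _).le)
  refine hb.mono ?_ (fun a _ => le_rfl) ?_
  · rintro a ⟨D, y, a1, a2, a3, a4, a5⟩
    have hx : (1 : ℝ) ≤ D + 1 := by have : (0 : ℝ) ≤ D := Nat.cast_nonneg _; linarith
    have b2 : (D : ℝ) + 1 ≤ ξ := (le_self_pow₀ hx (by norm_num)).trans a1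
    have hDn : D < n := by
      have : D ≤ ⌊ξ⌋₊ := Nat.le_floor (by linarith)
      omega
    have e : ∀ d ≤ D, capExt (fun i : Fin n => if (i : ℕ) ≤ D then y i else 0) d = y d := by
      intro d hd
      unfold capExt
      rw [dif_pos (by omega)]
      simp [hd]
    refine ⟨(D, fun i : Fin n => if (i : ℕ) ≤ D then y i else 0), ?_, a1, ?_, ?_, a5.cap_congr e⟩
    · rw [hI, mem_product]
      refine ⟨mem_range.2 hDn, Fintype.mem_piFinset.2 fun i => mem_range.2 ?_⟩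
      have h0 : y 0 ≤ ⌊ξ ^ 9⌋₊ := Nat.le_floor a3
      simp only
      split_ifs with hi
      · have := cap_anti_le a2 hi
        omega
      · omega
    · intro d hd
      simp only at hd ⊢
      rw [e d hd.le, e (d + 1) hd]
      exact a2 d hd
    · simp only
      rw [e 0 (Nat.zero_le _), sum_congr rfl fun d hd => by rw [e d (mem_Icc.1 hd).2]]
      exact a4
  · rw [sum_const, nsmul_eq_mul, hI, card_product, Fintype.card_piFinset]
    simp only [card_range, prod_const, card_univ, Fintype.card_fin]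
    have n1 : (n : ℝ) ≤ ξ + 1 := by
      rw [hn]
      push_cast
      linarith [Nat.floor_le hξ0]
    have n2 : (n : ℝ) ≤ Real.exp ξ := n1.trans (Real.add_one_le_exp ξ)
    have y1 : (Y : ℝ) ≤ Real.exp (9 * ξ) := by
      have t1 : (Y : ℝ) ≤ ξ ^ 9 + 1 := by
        rw [hY]
        push_cast
        linarith [Nat.floor_le (by positivity : 0 ≤ ξ ^ 9)]
      have t2 : ξ ^ 9 + 1 ≤ (ξ + 1) ^ 9 := by
        have := pow_add_pow_le hξ0 zero_le_one (by norm_num : (9 : ℕ) ≠ 0)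
        simpa using this
      have t3 : (ξ + 1) ^ 9 ≤ Real.exp ξ ^ 9 :=
        pow_le_pow_left₀ (by positivity) (Real.add_one_le_exp ξ) 9
      rw [← Real.exp_nat_mul] at t3
      push_cast at t3
      linarith
    have y2 : (Y : ℝ) ^ n ≤ Real.exp (n * (9 * ξ)) := by
      rw [Real.exp_nat_mul]
      exact pow_le_pow_left₀ (Nat.cast_nonneg _) y1 n
    push_cast
    calc (n : ℝ) * (Y : ℝ) ^ n * c ≤ Real.exp ξ * Real.exp (n * (9 * ξ)) * c := by
          gcongr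
      _ ≤ _ := by
          rw [hc, ← Real.exp_add, ← Real.exp_add]
          refine Real.exp_le_exp.2 ?_
          have q1 : (n : ℝ) * (9 * ξ) ≤ (ξ + 1) * (9 * ξ) :=
            mul_le_mul_of_nonneg_right n1 (by positivity)
          have q2 : ξ ≤ ξ ^ 2 := le_self_pow₀ hξ1 (by norm_num)
          have q3 : ξ ^ 3 ≤ ξ ^ 7 := pow_le_pow_right₀ hξ1 (by norm_num)
          have q4 : 24 * (22 + |C|) * ξ ^ 2 ≤ ξ * ξ ^ 2 :=
            mul_le_mul_of_nonneg_right h2 (by positivity)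
          have q5 : |C| * ξ ≤ |C| * ξ ^ 2 := mul_le_mul_of_nonneg_left q2 (abs_nonneg C)
          nlinarith

end Crest.Agent.R20
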