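import Crest.Agent.R20.CollFix
import Crest.Agent.R20.Abn

/-!
# R20/Coll: collisions; masses of families of tails
-/

set_option autoImplicit false

open Finset Filter Topology Crest.NumberTheoryR.TotientScale

namespace Crest.Agent.R20

theorem Coll_sup {P Q : Finset ℕ} (hQ : Q ⊆ P) (hs : P.sup id ∈ Q) : Q.sup id = P.sup id :=
  le_antisymm (sup_mono hQ) (le_sup (f := id) hs)

theorem Coll_rcp_pred {p : ℕ} (hp : p.Prime) : rcp (p - 1) = 1 / ((p : ℝ) - 1) := by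
  unfold rcp
  rw [Nat.cast_sub hp.one_le, Nat.cast_one]

theorem Coll_inv_nonneg {p : ℕ} (hp : p.Prime) : 0 ≤ 1 / ((p : ℝ) - 1) := by
  rw [← Coll_rcp_pred hp]; exact rcp_nonneg _

theorem Coll_sets {Y : ℝ} (hY : 0 ≤ Y) (k : ℕ) :
    Bd (fun Q : Finset ℕ => Q.card = k ∧ ∀ p ∈ Q, p.Prime ∧ (th p : ℝ) ≤ Y)
      (fun Q => rcp (∏ p ∈ Q, (p - 1))) ((Y + 1) ^ k) := by
  induction k with
  | zero =>
    refine Bd.of_finset {∅} (fun Q hQ => ?_) (fun _ _ => rcp_nonneg _) ?_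
    · rw [mem_singleton]; exact card_eq_zero.1 hQ.1
    · simp [rcp]
  | succ k ih =>
    have h := Bd.prod (bd_th hY) ih fun p hp => Coll_inv_nonneg hp.1
    rw [pow_succ']
    refine h.of_map (fun z => insert z.1 z.2) fun Q hQ => ?_
    obtain ⟨p, Q', hp, rfl, hc⟩ := card_eq_succ.1 hQ.1
    have h1 := hQ.2 p (mem_insert_self _ _)
    refine ⟨(p, Q'), ⟨h1, hc, fun q hq => hQ.2 q (mem_insert_of_mem hq)⟩, rfl, ?_⟩
    rw [prod_insert hp, rcp_mul, Coll_rcp_pred h1.1]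

theorem Coll_num {ξ x : ℝ} (hξ : 60 ≤ ξ) (hx : x ^ 4 ≤ ξ) : 20 * x ≤ ξ := by
  rcases le_total x 3 with h | h
  · linarith
  · have h1 : 27 ≤ x ^ 3 := by
      have := pow_le_pow_left₀ (by norm_num : (0 : ℝ) ≤ 3) h 3
      linarith
    nlinarith

theorem Coll_pow {ξ : ℝ} (hξ : 60 ≤ ξ) {n : ℕ} (hn : ((n : ℝ) + 1) ^ 4 ≤ ξ) :
    (ξ ^ 9 + 1) ^ n * ξ ≤ Real.exp (ξ ^ 2 / 2) := by
  have h0 : 0 ≤ ξ := by linarith
  have h1 : ξ ≤ Real.exp ξ := by linarith [Real.add_one_le_exp ξ]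
  have h2 : 1 ≤ ξ ^ 9 := one_le_pow₀ (by linarith)
  have h3 : ξ ^ 9 + 1 ≤ Real.exp (10 * ξ) := by
    calc ξ ^ 9 + 1 ≤ ξ ^ 9 * ξ := by nlinarith
      _ = ξ ^ 10 := by ring
      _ ≤ Real.exp ξ ^ 10 := pow_le_pow_left₀ h0 h1 10
      _ = Real.exp (10 * ξ) := by rw [← Real.exp_nat_mul]; norm_num
  have h4 := Coll_num hξ hn
  have h5 : (0 : ℝ) ≤ n := n.cast_nonneg
  calc (ξ ^ 9 + 1) ^ n * ξ ≤ Real.exp (10 * ξ) ^ n * Real.exp ξ := by gcongr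
    _ = Real.exp (n * (10 * ξ) + ξ) := by rw [← Real.exp_nat_mul, ← Real.exp_add]
    _ ≤ Real.exp (ξ ^ 2 / 2) := Real.exp_le_exp.2 (by nlinarith)

theorem Coll_val {P Q : Finset ℕ} (h : Q ⊆ P) (w : ℕ) :
    val P w = (∏ p ∈ Q, (p - 1)) * val (P \ Q) w := by
  unfold val
  rw [← prod_sdiff h]
  ring

theorem Coll_cok {ξ : ℝ} {J w : ℕ} {P Q : Finset ℕ} (h : COK ξ J P w) (hQ : Q ⊆ P) : COK ξ J Q w :=
  ⟨(card_le_card hQ).trans h.1, fun p hp => h.2.1 p (hQ hp), h.2.2⟩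

theorem Coll_prod_pos {Q : Finset ℕ} (h : ∀ p ∈ Q, p.Prime) : 0 < ∏ p ∈ Q, (p - 1) :=
  prod_pos fun p hp => Nat.sub_pos_of_lt (h p hp).one_lt

theorem Coll_injOn {J m : ℕ} (h : Chain J m) : Set.InjOn (pr m) (range J : Finset ℕ) := by
  intro i hi j hj e
  rw [coe_range, Set.mem_Iio] at hi hj
  rcases lt_trichotomy i j with h1 | h1 | h1
  · exact absurd e (h.lt hi h1).ne'
  · exact h1
  · exact absurd e (h.lt hj h1).ne

/-- `cN_mono`; the counts are `≥ 1` for `t ≤ th (sup)` -/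
theorem Zf_mono {P Q : Finset ℕ} (hQ : Q ⊆ P) (hs : P.sup id ∈ Q) : Zf P ≤ Zf Q := by
  unfold Zf
  rw [Coll_sup hQ hs]
  refine sum_le_sum fun t ht => sub_le_sub_left (cN_mono ?_ (card_le_card (filter_subset_filter _ hQ))) _
  exact card_pos.2 ⟨_, mem_filter.2 ⟨hs, (mem_Icc.1 ht).2⟩⟩

/-- sets of at most `J` primes of level `≤ Y`: `∑ ≤ ∑_{k ≤ J} (Y+1)^k` (elementary symmetric functions;
induct on `J`, or `Finset.sum_powersetCard`-type bound `e_k ≤ (∑)^k`) -/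
theorem bd_sets {Y : ℝ} (hY : 0 ≤ Y) (J : ℕ) :
    Bd (fun Q : Finset ℕ => Q.card ≤ J ∧ ∀ p ∈ Q, p.Prime ∧ (th p : ℝ) ≤ Y)
      (fun Q => rcp (∏ p ∈ Q, (p - 1))) ((J + 1) * (Y + 1) ^ J) := by
  refine (Bd.biUnion (range (J + 1)) fun k _ => Coll_sets hY k).mono
    (fun Q hQ => ⟨Q.card, mem_range.2 (Nat.lt_succ_of_le hQ.1), rfl, hQ.2⟩) (fun _ _ => le_rfl) ?_
  calc ∑ k ∈ range (J + 1), (Y + 1) ^ k ≤ ∑ k ∈ range (J + 1), (Y + 1) ^ J :=
        sum_le_sum fun k hk => pow_le_pow_right₀ (by linarith) (Nat.lt_succ_iff.1 (mem_range.1 hk))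
    _ = _ := by rw [sum_const, card_range, nsmul_eq_mul]; push_cast; ring

/-- Cancel `Q = P ∩ P'` (`P.sup id ∉ P'`); for fixed `Q` use `coll_fix` for `(P \ Q, w)`, `(P' \ Q, w')` with
`c = ∏_{p ∈ Q} (p-1)` (`Bd.union` over `Q`, `Bd.of_inj`/`of_map` with `P = Q ∪ (P \ Q)`), `Zf_mono`, `bd_sets`. -/
theorem coll : ∀ᶠ ξ : ℝ in atTop, ∀ (J : ℕ) (kap : ℕ → ℝ) (Λ u₀ : ℝ), ((J : ℝ) + 1) ^ 4 ≤ ξ →
    TopW ξ kap Λ u₀ →
    Bd (fun z : Finset ℕ × ℕ => COK ξ J z.1 z.2 ∧ u₀ + 2 * ξ ^ 6 ≤ th (z.1.sup id) ∧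
        ξ ^ 7 / 2 ≤ Zf z.1 ∧
        ∃ P' w', COK ξ J P' w' ∧ P'.sup id < z.1.sup id ∧ val z.1 z.2 = val P' w')
      (fun z => kap (val z.1 z.2)) (Λ * Real.exp (-(ξ ^ 7 / 10))) := by
  filter_upwards [coll_fix, eventually_ge_atTop 60] with ξ hfix hξ J kap Λ u₀ hJ hk
  have h0 : 0 ≤ ξ := by linarith
  have hA : 0 ≤ Λ * Real.exp (-(ξ ^ 7 / 8)) := mul_nonneg hk.1 (Real.exp_pos _).le
  have h1 := (bd_sets (pow_nonneg h0 9) J).const_mul hA
  have h2 := h1.union (f := fun z : Finset ℕ × ℕ => kap (val z.1 z.2))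
    (R := fun Q z => Q ⊆ z.1 ∧ COK ξ J (z.1 \ Q) z.2 ∧ u₀ + 2 * ξ ^ 6 ≤ th ((z.1 \ Q).sup id) ∧
      ξ ^ 7 / 2 ≤ Zf (z.1 \ Q) ∧ ∃ P' w', COK ξ J P' w' ∧ Disjoint (z.1 \ Q) P' ∧
        val (z.1 \ Q) z.2 = val P' w') fun Q hQ => by
    have h3 := hfix J kap Λ u₀ hJ hk _ (Coll_prod_pos fun p hp => (hQ.2 p hp).1)
    have e : Λ / ((∏ p ∈ Q, (p - 1) : ℕ) : ℝ) * Real.exp (-(ξ ^ 7 / 8)) =
        Λ * Real.exp (-(ξ ^ 7 / 8)) * rcp (∏ p ∈ Q, (p - 1)) := by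
      unfold rcp; ring
    rw [e] at h3
    refine h3.of_inj (fun z => (z.1 \ Q, z.2)) (fun z hz => ⟨hz.2, ?_⟩) fun z z' hz hz' e => ?_
    · rw [Coll_val hz.1]
    · have e1 := Prod.mk.inj e
      refine Prod.ext ?_ e1.2
      rw [← sdiff_union_of_subset hz.1, ← sdiff_union_of_subset hz'.1, e1.1]
  refine h2.mono (fun z hz => ?_) (fun _ _ => le_rfl) ?_
  · obtain ⟨hc, hu, hZ, P', w', hc', hlt, hv⟩ := hz
    have hne : z.1.Nonempty := by
      rw [nonempty_iff_ne_empty]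
      intro h
      rw [h] at hlt
      simp at hlt
    obtain ⟨p, hp, hps⟩ := exists_mem_eq_sup z.1 hne id
    have hs : z.1.sup id ∈ z.1 \ (z.1 ∩ P') := by
      refine mem_sdiff.2 ⟨by rw [hps]; exact hp, fun h => ?_⟩
      exact absurd (le_sup (f := id) (mem_inter.1 h).2) (not_le.2 hlt)
    have hQ : ∀ p ∈ z.1 ∩ P', p.Prime ∧ (th p : ℝ) ≤ ξ ^ 9 := fun p hp =>
      ⟨(hc.2.1 p (mem_inter.1 hp).1).1, (hc.2.1 p (mem_inter.1 hp).1).2.2⟩
    refine ⟨z.1 ∩ P', ⟨(card_le_card inter_subset_left).trans hc.1, hQ⟩, inter_subset_left,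
      Coll_cok hc sdiff_subset, by rwa [Coll_sup sdiff_subset hs],
      hZ.trans (Zf_mono sdiff_subset hs), P' \ (z.1 ∩ P'), w', Coll_cok hc' sdiff_subset, ?_, ?_⟩
    · rw [disjoint_left]
      intro q hq hq'
      exact (mem_sdiff.1 hq).2 (mem_inter.2 ⟨(mem_sdiff.1 hq).1, (mem_sdiff.1 hq').1⟩)
    · rw [Coll_val (P := z.1) (Q := z.1 ∩ P') inter_subset_left,
        Coll_val (P := P') (Q := z.1 ∩ P') inter_subset_right] at hv
      exact Nat.eq_of_mul_eq_mul_left (Coll_prod_pos fun p hp => (hQ p hp).1) hv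
  · have h3 := Coll_pow hξ hJ
    have h4 := Coll_num hξ hJ
    have h5 : (0 : ℝ) ≤ J := J.cast_nonneg
    have h6 : 20 ≤ ξ ^ 5 := by
      have := pow_le_pow_left₀ (by norm_num : (0 : ℝ) ≤ 2) (by linarith : 2 ≤ ξ) 5
      linarith
    have h7 : ξ ^ 2 / 2 ≤ ξ ^ 7 / 40 := by
      have := mul_le_mul_of_nonneg_left h6 (sq_nonneg ξ)
      have e : ξ ^ 2 * ξ ^ 5 = ξ ^ 7 := by ring
      linarith
    have h8 : ((J : ℝ) + 1) * (ξ ^ 9 + 1) ^ J ≤ Real.exp (ξ ^ 7 / 40) :=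
      calc ((J : ℝ) + 1) * (ξ ^ 9 + 1) ^ J ≤ ξ * (ξ ^ 9 + 1) ^ J :=
            mul_le_mul_of_nonneg_right (by linarith) (by positivity)
        _ ≤ Real.exp (ξ ^ 2 / 2) := by rwa [mul_comm]
        _ ≤ _ := Real.exp_le_exp.2 h7
    refine (mul_le_mul_of_nonneg_left h8 hA).trans (le_of_eq ?_)
    rw [mul_assoc, ← Real.exp_add]
    congr 2
    ring

/-- the set of the top primes of a chain (`Chain.lt`, `Chain.totient`, `profile_sum`) -/
theorem chain_set {D m : ℕ} (h : Chain (D + 1) m) :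
    ((range (D + 1)).image (pr m)).card = D + 1 ∧ ((range (D + 1)).image (pr m)).sup id = gp m ∧
      val ((range (D + 1)).image (pr m)) (tl^[D + 1] m).totient = m.totient ∧
      Zf ((range (D + 1)).image (pr m)) = yy m 0 - capSum D m := by
  have hi := Coll_injOn h
  have hs : ((range (D + 1)).image (pr m)).sup id = gp m := by
    refine le_antisymm (Finset.sup_le fun p hp => ?_) ?_
    · obtain ⟨d, -, rfl⟩ := mem_image.1 hp
      exact pr_anti h.1 (Nat.zero_le d)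
    · exact le_sup (f := id) (mem_image.2 ⟨0, mem_range.2 (Nat.succ_pos _), rfl⟩)
  refine ⟨by rw [card_image_of_injOn hi, card_range], hs, ?_, ?_⟩
  · unfold val
    rw [prod_image hi, ← h.totient]
  · unfold Zf capSum
    rw [hs, ← profile_sum D (yy m) fun d _ => yy_anti h.1 (Nat.le_succ d), sum_sub_distrib,
      sum_const, Nat.card_Icc, Nat.add_sub_cancel, nsmul_eq_mul, mul_one]
    congr 1
    refine sum_congr rfl fun t _ => ?_
    rw [filter_image, card_image_of_injOn (hi.mono (coe_subset.2 (filter_subset _ _)))]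
    rfl

/-- a strictly decreasing enumeration is determined by its image -/
theorem chain_set_inj {J m m' : ℕ} (h : Chain J m) (h' : Chain J m')
    (e : (range J).image (pr m) = (range J).image (pr m')) : ∀ d < J, pr m d = pr m' d := by
  have key : ∀ {m m' : ℕ}, Chain J m → Chain J m' →
      (range J).image (pr m) = (range J).image (pr m') → ∀ d < J, (∀ i < d, pr m i = pr m' i) →
      pr m d ≤ pr m' d := by
    intro m m' h h' e d hd ih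
    have h1 : pr m d ∈ (range J).image (pr m') := e ▸ mem_image_of_mem _ (mem_range.2 hd)
    obtain ⟨j, hj, hje⟩ := mem_image.1 h1
    rcases lt_or_ge j d with h2 | h2
    · rw [← ih j h2] at hje
      exact absurd hje (h.lt (h2.trans hd) h2).ne'
    · rw [← hje]; exact pr_anti h'.1 h2
  intro d
  induction d using Nat.strong_induction_on with
  | _ d ih =>
    intro hd
    have h1 : ∀ i < d, pr m i = pr m' i := fun i hi => ih i hi (hi.trans hd)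
    exact le_antisymm (key h h' e d hd h1) (key h' h e.symm d hd fun i hi => (h1 i hi).symm)

theorem Coll_rcp_inj {a b : ℕ} (h : rcp a = rcp b) : a = b := by
  unfold rcp at h
  rw [one_div, one_div, inv_inj] at h
  exact_mod_cast h

theorem Coll_top {ξ Y A : ℝ} (hξ : 0 ≤ ξ) (hY : 0 ≤ Y) (hA : 0 ≤ A) {D : ℕ} {T : Finset ℕ}
    (hT : TFam ξ (D + 1) T) {kap : ℕ → ℝ} {R : ℕ → Prop}
    (h : ∀ c : ℕ, 0 < c → Bd R (fun p => kap (c * (p - 1))) (A / c))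
    (ht : ∀ m ∈ T, (yy m 0 : ℝ) ≤ Y ∧ R (gp m)) :
    ∑ m ∈ T, kap m.totient ≤ A * ((Y + 1) ^ D * ξ) := by
  have h1 := tuple_bd 1 D (R := fun _ p => (th p : ℝ) ≤ Y) (c := fun _ => Y + 1) fun _ _ => bd_th hY
  rw [prod_const, Nat.card_Icc, Nat.add_sub_cancel] at h1
  have h2 := (Bd.prod h1 (bd_rcp_le hξ) fun a ha => wt_nonneg ha.1).const_mul hA
  have h3 : Bd (fun m => m ∈ T) (fun m => kap m.totient) (A * ((Y + 1) ^ D * ξ)) := by
    refine h2.fiber (fun m => (hd D m, (tl^[D + 1] m).totient)) (fun m hm => ?_) fun b hb => ?_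
    · have hc := (hT.1 m hm).1
      refine ⟨⟨hc.head, fun i hi => ?_⟩, Nat.totient_pos.2 (iter_pos hc.1 _), (hT.1 m hm).2⟩
      have e : hd D m i = pr m i := if_pos hi
      have h4 : yy m i ≤ yy m 0 := yy_anti hc.1 (Nat.zero_le _)
      show (th (hd D m i) : ℝ) ≤ Y
      rw [e]
      exact le_trans (by exact_mod_cast h4) (ht m hm).1
    · by_cases hex : ∃ m₀, m₀ ∈ T ∧ (hd D m₀, (tl^[D + 1] m₀).totient) = b
      · obtain ⟨m₀, hm₀, rfl⟩ := hex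
        have hc₀ := (hT.1 m₀ hm₀).1
        have h4 := h _ (Nat.totient_pos.2 (tl_pos hc₀.1))
        have h5 : A / ((tl m₀).totient : ℝ) =
            A * (wt 1 D (hd D m₀) * rcp (tl^[D + 1] m₀).totient) := by
          have := hc₀.wt_hd
          unfold rcp at this ⊢
          rw [mul_one_div, this, mul_one_div]
        rw [h5] at h4
        refine h4.of_inj gp (fun m hm => ⟨(ht m hm.1).2, le_of_eq ?_⟩) fun m m' hm hm' e => ?_
        · have hc := (hT.1 m hm.1).1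
          have h6 : (tl m).totient = (tl m₀).totient := by
            refine Coll_rcp_inj ?_
            rw [← hc.wt_hd, ← hc₀.wt_hd, (Prod.mk.inj hm.2).1, (Prod.mk.inj hm.2).2]
          have h7 := hc.2 0 (Nat.succ_pos _)
          rw [totient_of_not_dvd (n := m) h7.1 h7.2, h6, mul_comm]
        · have e1 := Prod.mk.inj (hm.2.trans hm'.2.symm)
          refine hT.2 m hm.1 m' hm'.1 (fun d hd' => ?_) e1.2
          rcases Nat.eq_zero_or_pos d with rfl | h0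
          · exact e
          · have hi : d ∈ Icc 1 D := mem_Icc.2 ⟨h0, by omega⟩
            have := congrFun e1.1 d
            unfold hd at this
            rwa [if_pos hi, if_pos hi] at this
      · exact Bd.of_empty (fun m hm => hex ⟨m, hm⟩)
          (mul_nonneg hA (mul_nonneg (wt_nonneg hb.1.1) (rcp_nonneg _)))
  exact h3 T fun _ hm => hm

theorem Coll_fine {ξ : ℝ} {D m : ℕ} (hc : Chain (D + 1) m) (hw : ((tl^[D + 1] m).totient : ℝ) ≤ ξ)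
    (hf : Fine ξ (D + 1) m) :
    COK ξ (D + 1) ((range (D + 1)).image (pr m)) (tl^[D + 1] m).totient := by
  refine ⟨(chain_set hc).1.le, fun p hp => ?_, Nat.totient_pos.2 (iter_pos hc.1 _), hw⟩
  obtain ⟨d, hd', rfl⟩ := mem_image.1 hp
  rw [mem_range] at hd'
  have h4 : yy m d ≤ yy m 0 := yy_anti hc.1 (Nat.zero_le _)
  exact ⟨hc.prime hd', hf.2 d hd', le_trans (by exact_mod_cast h4) hf.1⟩

/-- inject `m ↦ (gp m, hd D m, φ (tl^[D+1] m))`; `bd_th`, `tuple_bd`, `bd_rcp_le`, `Bd.prod` -/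
theorem TM1 {ξ : ℝ} (hξ : 0 ≤ ξ) {D t : ℕ} {T : Finset ℕ} (hT : TFam ξ (D + 1) T)
    (ht : ∀ m ∈ T, yy m 0 ≤ t) : ∑ m ∈ T, rcp m.totient ≤ ((t : ℝ) + 1) ^ (D + 1) * ξ := by
  have h0 : (0 : ℝ) ≤ t := t.cast_nonneg
  have h := Coll_top (kap := rcp) (R := fun p => p.Prime ∧ (th p : ℝ) ≤ t) hξ h0
    (by linarith : (0 : ℝ) ≤ t + 1) hT (fun c _ => ?_) fun m hm => ?_
  · rwa [pow_succ', mul_assoc]
  · refine ((bd_th h0).const_mul (rcp_nonneg c)).mono (fun _ h => h) (fun p hp => ?_) (le_of_eq ?_)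
    · rw [rcp_mul, Coll_rcp_pred hp.1]
    · unfold rcp; ring
  · have h1 : (yy m 0 : ℝ) ≤ t := by exact_mod_cast ht m hm
    exact ⟨h1, (hT.1 m hm).1.prime (Nat.succ_pos _), h1⟩

/-- as `TM1`, with `abn` (`c = φ (tl m)`) for the top prime; `(ξ^9+1)^D ξ ≤ exp (ξ²/2)` -/
theorem TM2 : ∀ᶠ ξ : ℝ in atTop, ∀ (D : ℕ) (kap : ℕ → ℝ) (Λ u₀ : ℝ) (T : Finset ℕ),
    ((D : ℝ) + 2) ^ 4 ≤ ξ → TopW ξ kap Λ u₀ → TFam ξ (D + 1) T →
    (∀ m ∈ T, u₀ + ξ ≤ yy m 0 ∧ (yy m 0 : ℝ) ≤ ξ ^ 9 ∧ ¬ Normal (ξ ^ 6) (gp m)) →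
    ∑ m ∈ T, kap m.totient ≤ Λ * Real.exp (-(ξ ^ 2 / 2)) := by
  filter_upwards [abn, eventually_ge_atTop 60] with ξ habn hξ D kap Λ u₀ T hD hk hT ht
  have h0 : 0 ≤ ξ := by linarith
  have hA : 0 ≤ Λ * Real.exp (-ξ ^ 2) := mul_nonneg hk.1 (Real.exp_pos _).le
  have h := Coll_top h0 (pow_nonneg h0 9) hA hT (habn kap Λ u₀ hk) fun m hm =>
    ⟨(ht m hm).2.1, (hT.1 m hm).1.prime (Nat.succ_pos _), ht m hm⟩
  have h1 : ((D : ℝ) + 1) ^ 4 ≤ ξ :=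
    le_trans (pow_le_pow_left₀ (by positivity) (by linarith) 4) hD
  refine (h.trans (mul_le_mul_of_nonneg_left (Coll_pow hξ h1) hA)).trans (le_of_eq ?_)
  rw [mul_assoc, ← Real.exp_add]
  congr 2
  ring

/-- inject `m ↦ (image (pr m) (range (D+1)), φ (tl^[D+1] m))` and use `coll` with `J = D + 1` -/
theorem TM3 : ∀ᶠ ξ : ℝ in atTop, ∀ (D : ℕ) (kap : ℕ → ℝ) (Λ u₀ : ℝ) (T : Finset ℕ),
    ((D : ℝ) + 2) ^ 4 ≤ ξ → TopW ξ kap Λ u₀ → TFam ξ (D + 1) T →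
    (∀ m ∈ T, u₀ + 2 * ξ ^ 6 ≤ yy m 0 ∧ capSum D m + ξ ^ 7 / 2 ≤ yy m 0 ∧ Fine ξ (D + 1) m ∧
      ∃ m', Chain (D + 1) m' ∧ ((tl^[D + 1] m').totient : ℝ) ≤ ξ ∧ Fine ξ (D + 1) m' ∧
        m.totient = m'.totient ∧ gp m' < gp m) →
    ∑ m ∈ T, kap m.totient ≤ Λ * Real.exp (-(ξ ^ 7 / 10)) := by
  filter_upwards [coll] with ξ hcoll D kap Λ u₀ T hD hk hT ht
  have h := hcoll (D + 1) kap Λ u₀ (by push_cast; rwa [add_assoc, one_add_one_eq_two]) hk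
  have h3 : Bd (fun m => m ∈ T) (fun m => kap m.totient) (Λ * Real.exp (-(ξ ^ 7 / 10))) := by
    refine h.of_inj (fun m => ((range (D + 1)).image (pr m), (tl^[D + 1] m).totient))
      (fun m hm => ?_) fun m m' hm hm' e => ?_
    · obtain ⟨h1, h2, hf, m', hc', hw', hf', he, hlt⟩ := ht m hm
      obtain ⟨hc, hw⟩ := hT.1 m hm
      obtain ⟨-, a2, a3, a4⟩ := chain_set hc
      obtain ⟨-, b2, b3, -⟩ := chain_set hc'
      refine ⟨⟨Coll_fine hc hw hf, ?_, ?_, _, _, Coll_fine hc' hw' hf', ?_, ?_⟩, ?_⟩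
      · rw [a2]; exact h1
      · rw [a4]; linarith
      · rw [a2, b2]; exact hlt
      · rw [a3, b3]; exact he
      · rw [a3]
    · have e1 := Prod.mk.inj e
      exact hT.2 m hm m' hm' (chain_set_inj (hT.1 m hm).1 (hT.1 m' hm').1 e1.1) e1.2
  exact h3 T fun _ hm => hm

end Crest.Agent.R20
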