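import Crest.Agent.R20.Omega

/-!
# R20/Euler: Euler products and Rankin bounds
-/

set_option autoImplicit false

open Finset Filter Topology Crest.NumberTheoryR.TotientScale

namespace Crest.Agent.R20

theorem euler_geom {r : ℝ} (h0 : 0 ≤ r) (h1 : r < 1) :
    Bd (fun _ : ℕ => True) (fun k => r ^ k) (1 - r)⁻¹ := fun S _ =>
  sum_le_hasSum S (fun k _ => pow_nonneg h0 k) (hasSum_geometric_of_lt_one h0 h1)

theorem euler_cm_pow (z : ℕ → ℝ) {q : ℕ} (hq : q.Prime) (k : ℕ) : cm z (q ^ k) = z q ^ k := by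
  unfold cm
  rw [hq.factorization_pow, Finsupp.prod_single_index (by simp)]

theorem euler_cm_ite (t : ℕ) (c : ℝ) (a : ℕ) :
    cm (fun q => if th q ≤ t then c else 1) a = c ^ Om t a := by
  unfold cm Om Finsupp.prod Finsupp.sum
  rw [← prod_pow_eq_pow_sum]
  refine prod_congr rfl fun q _ => ?_
  beta_reduce
  split_ifs <;> simp

theorem euler_two_le {t q : ℕ} (hq : q ∈ PP t) : (2 : ℝ) ≤ q := by
  exact_mod_cast (mem_PP.1 hq).1.two_le

theorem euler_sum_ite {t y : ℕ} (h : t ≤ y) (c : ℝ) :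
    ∑ q ∈ PP y, (if th q ≤ t then 1 + c else 1) / ((q : ℝ) - 1) =
      ∑ q ∈ PP y, 1 / ((q : ℝ) - 1) + c * ∑ q ∈ PP t, 1 / ((q : ℝ) - 1) := by
  have e : PP t = (PP y).filter fun q => th q ≤ t := by
    ext q
    simp only [mem_filter, mem_PP]
    exact ⟨fun h1 => ⟨⟨h1.1, h1.2.trans h⟩, h1.2⟩, fun h1 => ⟨h1.1.1, h1.2⟩⟩
  rw [e, sum_filter, mul_sum, ← sum_add_distrib]
  refine sum_congr rfl fun q _ => ?_
  split_ifs <;> ring

/-- Induction on `Q` (write `a = q^k b` with `q ∤ b`, `Bd.of_map`/`Bd.prod`, geometric sums), or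
`EulerProduct.summable_and_hasSum_factoredNumbers_prod_filter_prime_geometric`-type lemmas. -/
theorem euler_prod (Q : Finset ℕ) (hQ : ∀ q ∈ Q, q.Prime) {z : ℕ → ℝ} (h0 : ∀ q, 0 ≤ z q)
    (hz : ∀ q ∈ Q, z q < q) :
    Bd (fun a : ℕ => 0 < a ∧ a.primeFactors ⊆ Q) (fun a => cm z a / a) (∏ q ∈ Q, (1 - z q / q)⁻¹) := by
  induction Q using Finset.induction_on with
  | empty =>
    refine Bd.of_finset {1} (fun a ha => ?_) (fun a _ => div_nonneg (cm_nonneg h0 a) (Nat.cast_nonneg a))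
      (by simp [cm_one])
    have h1 := ha.2
    rw [subset_empty, Nat.primeFactors_eq_empty] at h1
    rcases h1 with h1 | h1
    · exact absurd ha.1 (by omega)
    · simp [h1]
  | insert q Q hqQ ih =>
    have hq : q.Prime := hQ q (mem_insert_self _ _)
    have hq0 : (0 : ℝ) < q := by exact_mod_cast hq.pos
    have ih' := ih (fun p hp => hQ p (mem_insert_of_mem hp)) fun p hp => hz p (mem_insert_of_mem hp)
    have hr0 : 0 ≤ z q / q := div_nonneg (h0 q) hq0.le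
    have hr1 : z q / q < 1 := (div_lt_one hq0).2 (hz q (mem_insert_self _ _))
    rw [prod_insert hqQ]
    refine ((euler_geom hr0 hr1).prod ih' fun k _ => pow_nonneg hr0 k).of_map
      (fun w : ℕ × ℕ => q ^ w.1 * w.2) fun a ha => ?_
    obtain ⟨k, b, hb, rfl⟩ := Nat.exists_eq_pow_mul_and_not_dvd ha.1.ne' q hq.ne_one
    have hb0 : 0 < b := Nat.pos_of_ne_zero (by rintro rfl; exact hb (dvd_zero q))
    refine ⟨(k, b), ⟨trivial, hb0, fun p hp => ?_⟩, rfl, le_of_eq ?_⟩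
    · have hp' : p ∈ (q ^ k * b).primeFactors := by
        rw [Nat.mem_primeFactors] at hp ⊢
        exact ⟨hp.1, hp.2.1.mul_left _, ha.1.ne'⟩
      rcases mem_insert.1 (ha.2 hp') with rfl | h
      · exact absurd (Nat.dvd_of_mem_primeFactors hp) hb
      · exact h
    · simp only
      rw [cm_mul z (pow_pos hq.pos k) hb0, euler_cm_pow z hq, div_pow]
      push_cast
      rw [mul_div_mul_comm]

/-- `(1 - s)⁻¹ ≤ exp (s + 4 s²)` for `0 ≤ s ≤ 3/4` -/
theorem euler_exp (t : ℕ) {z : ℕ → ℝ} (h0 : ∀ q, 0 ≤ z q) (hz : ∀ q ∈ PP t, z q ≤ 3 / 4 * q) :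
    Bd (Sm t) (fun a => cm z a / a)
      (Real.exp (∑ q ∈ PP t, z q / ((q : ℝ) - 1) + 4 * ∑ q ∈ PP t, (z q / q) ^ 2)) := by
  refine (euler_prod (PP t) (fun q hq => (mem_PP.1 hq).1) h0 fun q hq => ?_).mono
    (fun a ha => ⟨ha.1, ha.subset⟩) (fun _ _ => le_rfl) ?_
  · have := hz q hq
    have := euler_two_le hq
    linarith
  · rw [mul_sum, ← sum_add_distrib, Real.exp_sum]
    refine prod_le_prod (fun q hq => ?_) fun q hq => ?_
    · have h2 := euler_two_le hq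
      have h3 : z q / q ≤ 3 / 4 := by rw [div_le_iff₀ (by linarith)]; exact hz q hq
      exact inv_nonneg.2 (by linarith)
    · have h2 := euler_two_le hq
      have h3 : z q / q ≤ 3 / 4 := by rw [div_le_iff₀ (by linarith)]; exact hz q hq
      have h4 : 0 ≤ z q / q := div_nonneg (h0 q) (by linarith)
      have h5 : z q / q ≤ z q / ((q : ℝ) - 1) :=
        div_le_div_of_nonneg_left (h0 q) (by linarith) (by linarith)
      generalize z q / q = s at h3 h4 h5 ⊢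
      refine le_trans ?_ (Real.add_one_le_exp _)
      have h6 : (1 - s)⁻¹ ≤ 1 + s + 4 * s ^ 2 := by
        rw [inv_le_iff_one_le_mul₀ (by linarith)]
        nlinarith [mul_nonneg (sq_nonneg s) (sub_nonneg.2 h3)]
      linarith

/-- `(1 - z/q)⁻¹ = 1 + z/(q - z) ≤ exp (z/(q-1))` -/
theorem euler_exp_one (t : ℕ) {z : ℕ → ℝ} (h0 : ∀ q, 0 ≤ z q) (hz : ∀ q ∈ PP t, z q ≤ 1) :
    Bd (Sm t) (fun a => cm z a / a) (Real.exp (∑ q ∈ PP t, z q / ((q : ℝ) - 1))) := by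
  refine (euler_prod (PP t) (fun q hq => (mem_PP.1 hq).1) h0 fun q hq => ?_).mono
    (fun a ha => ⟨ha.1, ha.subset⟩) (fun _ _ => le_rfl) ?_
  · have := hz q hq
    have := euler_two_le hq
    linarith
  · rw [Real.exp_sum]
    refine prod_le_prod (fun q hq => ?_) fun q hq => ?_
    · have h2 := euler_two_le hq
      have h3 : z q / q ≤ 1 := by rw [div_le_iff₀ (by linarith)]; linarith [hz q hq]
      exact inv_nonneg.2 (by linarith)
    · have h2 := euler_two_le hq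
      have h3 := hz q hq
      refine le_trans ?_ (Real.add_one_le_exp _)
      have h4 : (0 : ℝ) < q - z q := by linarith
      have e : (1 - z q / q)⁻¹ = z q / (q - z q) + 1 := by
        have : (q : ℝ) ≠ 0 := by linarith
        field_simp
        ring
      rw [e]
      have h5 : z q / (q - z q) ≤ z q / ((q : ℝ) - 1) :=
        div_le_div_of_nonneg_left (h0 q) (by linarith) (by linarith)
      linarith

theorem sum_inv_sq_le (S : Finset ℕ) {T : ℕ} (hT : 1 ≤ T) (hS : ∀ q ∈ S, T < q) :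
    ∑ q ∈ S, 1 / (q : ℝ) ^ 2 ≤ 1 / (T : ℝ) := by
  have hsub : S ⊆ Ioc T (max T (S.sup id)) := fun q hq =>
    mem_Ioc.2 ⟨hS q hq, le_max_of_le_right (le_sup (f := id) hq)⟩
  have h1 := sum_Ioc_inv_sq_le_sub (α := ℝ) (k := T) (n := max T (S.sup id)) (by omega)
    (le_max_left _ _)
  have h2 : ∑ q ∈ S, 1 / (q : ℝ) ^ 2 ≤ ∑ q ∈ Ioc T (max T (S.sup id)), ((q : ℝ) ^ 2)⁻¹ := by
    simp only [one_div]
    exact sum_le_sum_of_subset_of_nonneg hsub fun q _ _ => by positivity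
  have h3 : (0 : ℝ) ≤ ((max T (S.sup id) : ℕ) : ℝ)⁻¹ := by positivity
  rw [one_div]
  linarith

theorem euler_lin (t : ℕ) {z : ℕ → ℝ} (_h0 : ∀ q, 0 ≤ z q) (hz : ∀ q ∈ PP t, z q ≤ 3 / 2) :
    ∑ q ∈ PP t, z q / ((q : ℝ) - 1) ≤ 3 / 2 * (t + 1) := by
  refine le_trans ?_ (mul_le_mul_of_nonneg_left (sum_PP_le t) (by norm_num))
  rw [mul_sum]
  refine sum_le_sum fun q hq => ?_
  rw [mul_one_div]
  exact div_le_div_of_nonneg_right (hz q hq) (by linarith [euler_two_le hq])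

theorem euler_sq (t : ℕ) {z : ℕ → ℝ} (h0 : ∀ q, 0 ≤ z q) (hz : ∀ q ∈ PP t, z q ≤ 3 / 2) :
    ∑ q ∈ PP t, (z q / q) ^ 2 ≤ 9 / 4 := by
  have h1 := sum_inv_sq_le (PP t) le_rfl fun q hq => (mem_PP.1 hq).1.one_lt
  calc ∑ q ∈ PP t, (z q / q) ^ 2 ≤ ∑ q ∈ PP t, 9 / 4 * (1 / (q : ℝ) ^ 2) := by
        refine sum_le_sum fun q hq => ?_
        rw [div_pow, mul_one_div]
        refine div_le_div_of_nonneg_right ?_ (by positivity)
        nlinarith [h0 q, hz q hq]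
    _ ≤ 9 / 4 := by
        rw [← mul_sum]
        simp only [Nat.cast_one, div_one] at h1
        linarith

theorem sm_mass (t : ℕ) : Bd (Sm t) rcp (Real.exp (t + 1)) := by
  refine (euler_exp_one t (z := fun _ => 1) (fun _ => zero_le_one) fun _ _ => le_rfl).mono
    (fun _ ha => ha) (fun a _ => le_of_eq ?_) (Real.exp_le_exp.2 (sum_PP_le t))
  simp [rcp, cm, Finsupp.prod]

theorem F_triv {Y : ℝ} (hY : 0 ≤ Y) : Bd (TV Y fun _ => True) rcp (Real.exp (Y + 1)) := by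
  refine (sm_mass ⌊Y⌋₊).mono (fun w hw => ?_) (fun _ _ => le_rfl)
    (Real.exp_le_exp.2 (by linarith [Nat.floor_le hY]))
  obtain ⟨m, hm, rfl, h, -⟩ := hw
  exact (sm_totient hm).mono (Nat.le_floor h)

/-- Rankin with `z q = q^δ`, `δ = exp (-t - C) ≤ 1/2`, so that `q^δ ≤ e` on `PP t` (`log_le_exp_th`) and
`q^δ ≤ 3q/4`; `1/a ≤ exp (-δ Λ) a^δ / a`; `euler_exp`, `cm_rpow`, `sum_PP_le`. -/
theorem sm_tail : ∃ C : ℝ, 0 ≤ C ∧ ∀ (t : ℕ) (Λ : ℝ), Bd (fun a : ℕ => Sm t a ∧ Λ ≤ Real.log a) rcp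
    (Real.exp (-(Λ * Real.exp (-(t + C))) + 3 * t + C)) := by
  obtain ⟨C₀, hC₀, hC⟩ := log_le_exp_th
  refine ⟨C₀ + 11, by positivity, fun t Λ => ?_⟩
  set δ := Real.exp (-(t + (C₀ + 11))) with hδ
  have hδ0 : 0 < δ := Real.exp_pos _
  have hz : ∀ q ∈ PP t, (q : ℝ) ^ δ ≤ 3 / 2 := by
    intro q hq
    have h2 := euler_two_le hq
    have h3 := (hC q (mem_PP.1 hq).1.two_le).1
    have h4 : (th q : ℝ) ≤ t := by exact_mod_cast (mem_PP.1 hq).2
    have h5 : Real.log q * δ ≤ 1 / 3 := by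
      calc Real.log q * δ ≤ Real.exp (th q + C₀) * δ := mul_le_mul_of_nonneg_right h3 hδ0.le
        _ = Real.exp (th q + C₀ + -(t + (C₀ + 11))) := (Real.exp_add _ _).symm
        _ ≤ Real.exp (-11) := Real.exp_le_exp.2 (by linarith)
        _ ≤ 1 / 3 := by
          rw [Real.exp_neg, one_div]
          exact inv_anti₀ (by norm_num) (by linarith [Real.add_one_le_exp 11])
    rw [Real.rpow_def_of_pos (by linarith)]
    calc Real.exp (Real.log q * δ) ≤ Real.exp (1 / 3) := Real.exp_le_exp.2 h5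
      _ ≤ 1 / (1 - 1 / 3) := Real.exp_bound_div_one_sub_of_interval (by norm_num) (by norm_num)
      _ = 3 / 2 := by norm_num
  have h0 : ∀ q : ℕ, 0 ≤ (q : ℝ) ^ δ := fun q => by positivity
  have H := (euler_exp t (z := fun q => (q : ℝ) ^ δ) h0 fun q hq => by
    linarith [hz q hq, euler_two_le hq]).const_mul (Real.exp_pos (-(Λ * δ))).le
  refine H.mono (fun _ ha => ha.1) (fun a ha => ?_) ?_
  · have ha0 : (0 : ℝ) < a := by exact_mod_cast ha.1.1
    rw [cm_rpow δ ha.1.1, Real.rpow_def_of_pos ha0, ← mul_div_assoc, ← Real.exp_add, rcp]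
    refine div_le_div_of_nonneg_right (Real.one_le_exp ?_) ha0.le
    nlinarith [ha.2]
  · rw [← Real.exp_add]
    refine Real.exp_le_exp.2 ?_
    have h1 := euler_lin t h0 hz
    have h2 := euler_sq t h0 hz
    have h3 : (0 : ℝ) ≤ t := Nat.cast_nonneg t
    linarith

/-- Rankin with `z q = 1 + δ` for `th q ≤ t`, `1` otherwise, `δ = e/(2Y) ≤ 1/2`: `cm z a = (1+δ)^(Om t a)`,
`log (1+δ) ≥ δ - δ²/2`, exponent `≤ y + 1 + δ (t+1) + C - (t+e)(δ - δ²/2) ≤ y + C' - e²/(4Y)`. -/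
theorem dev_up : ∃ C : ℝ, ∀ (y t : ℕ) (e Y : ℝ), t ≤ y → (y : ℝ) ≤ Y → 0 < Y → 0 ≤ e → e ≤ Y →
    Bd (fun a : ℕ => Sm y a ∧ t + e ≤ Om t a) rcp (Real.exp (y + C - e ^ 2 / (4 * Y))) := by
  refine ⟨11, fun y t e Y ht hy hY he heY => ?_⟩
  set δ := e / (2 * Y) with hδ
  have hδ0 : 0 ≤ δ := by positivity
  have hδ1 : δ ≤ 1 / 2 := by rw [hδ, div_le_iff₀ (by positivity)]; linarith
  have h0 : ∀ q : ℕ, 0 ≤ (if th q ≤ t then 1 + δ else 1 : ℝ) := fun q => by
    split_ifs <;> positivity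
  have hz : ∀ q ∈ PP y, (if th q ≤ t then 1 + δ else 1 : ℝ) ≤ 3 / 2 := fun q _ => by
    split_ifs <;> linarith
  set L := δ - δ ^ 2 / 2 with hL
  have hL0 : 0 ≤ L := by nlinarith
  have hL1 : Real.exp L ≤ 1 + δ := by
    rw [← Real.le_log_iff_exp_le (by linarith)]
    refine le_trans ?_ (Real.le_log_one_add_of_nonneg hδ0)
    rw [le_div_iff₀ (by linarith), hL]
    nlinarith [pow_nonneg hδ0 3]
  have H := (euler_exp y (z := fun q => if th q ≤ t then 1 + δ else 1) h0 fun q hq => by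
    linarith [hz q hq, euler_two_le hq]).const_mul (Real.exp_pos (-((t + e) * L))).le
  refine H.mono (fun _ ha => ha.1) (fun a ha => ?_) ?_
  · have ha0 : (0 : ℝ) < a := by exact_mod_cast ha.1.1
    rw [euler_cm_ite, ← mul_div_assoc, rcp]
    refine div_le_div_of_nonneg_right ?_ ha0.le
    calc (1 : ℝ) ≤ Real.exp (-((t + e) * L) + Om t a * L) :=
          Real.one_le_exp (by nlinarith [ha.2])
      _ = Real.exp (-((t + e) * L)) * Real.exp L ^ Om t a := by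
          rw [Real.exp_add, Real.exp_nat_mul]
      _ ≤ _ := mul_le_mul_of_nonneg_left (pow_le_pow_left₀ (Real.exp_pos _).le hL1 _)
          (Real.exp_pos _).le
  · rw [← Real.exp_add]
    refine Real.exp_le_exp.2 ?_
    have h1 := euler_sq y h0 hz
    have h2 := sum_PP_le y
    have h3 := mul_le_mul_of_nonneg_left (sum_PP_le t) hδ0
    have h4 : (t : ℝ) ≤ y := by exact_mod_cast ht
    have h5 : e ^ 2 / (4 * Y) = e * δ / 2 := by rw [hδ]; field_simp; ring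
    have h6 : Y * δ ^ 2 = e * δ / 2 := by rw [hδ]; field_simp
    have h7 : (t + e) * δ ^ 2 ≤ 2 * Y * δ ^ 2 :=
      mul_le_mul_of_nonneg_right (by linarith) (sq_nonneg δ)
    rw [euler_sum_ite ht, h5, hL]
    nlinarith

/-- Rankin with `z q = 1 - δ` for `th q ≤ t`, `euler_exp_one`, `sum_PP_ge`, `-log (1-δ) ≤ δ + δ²`:
exponent `≤ y + 1 - δ t + (t - e)(δ + δ²) ≤ y + 1 - e²/(4Y)` (empty if `t < e`). -/
theorem dev_lo (y t : ℕ) (e Y : ℝ) (ht : t ≤ y) (hy : (y : ℝ) ≤ Y) (hY : 0 < Y) (he : 0 ≤ e)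
    (heY : e ≤ Y) :
    Bd (fun a : ℕ => Sm y a ∧ (Om t a : ℝ) ≤ t - e) rcp (Real.exp (y + 1 - e ^ 2 / (4 * Y))) := by
  set δ := e / (2 * Y) with hδ
  have hδ0 : 0 ≤ δ := by positivity
  have hδ1 : δ ≤ 1 / 2 := by rw [hδ, div_le_iff₀ (by positivity)]; linarith
  have h0 : ∀ q : ℕ, 0 ≤ (if th q ≤ t then 1 + -δ else 1 : ℝ) := fun q => by
    split_ifs <;> linarith
  have hz : ∀ q ∈ PP y, (if th q ≤ t then 1 + -δ else 1 : ℝ) ≤ 1 := fun q _ => by
    split_ifs <;> linarith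
  set L := δ + δ ^ 2 with hL
  have hL0 : 0 ≤ L := by positivity
  have hL1 : Real.exp (-L) ≤ 1 + -δ := by
    rw [Real.exp_neg, inv_le_iff_one_le_mul₀ (Real.exp_pos _)]
    have h1 := mul_le_mul_of_nonneg_left (Real.quadratic_le_exp_of_nonneg hL0)
      (show 0 ≤ 1 + -δ by linarith)
    refine le_trans ?_ h1
    have h2 : 0 ≤ (1 - δ) * (1 + δ) ^ 2 / 2 - δ := by nlinarith [pow_nonneg hδ0 3, mul_nonneg hδ0 hδ0]
    rw [hL]
    nlinarith [mul_nonneg (sq_nonneg δ) h2]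
  have H := (euler_exp_one y (z := fun q => if th q ≤ t then 1 + -δ else 1) h0 hz).const_mul
    (Real.exp_pos ((t - e) * L)).le
  refine H.mono (fun _ ha => ha.1) (fun a ha => ?_) ?_
  · have ha0 : (0 : ℝ) < a := by exact_mod_cast ha.1.1
    rw [euler_cm_ite, ← mul_div_assoc, rcp]
    refine div_le_div_of_nonneg_right ?_ ha0.le
    calc (1 : ℝ) ≤ Real.exp ((t - e) * L + Om t a * -L) :=
          Real.one_le_exp (by nlinarith [ha.2])
      _ = Real.exp ((t - e) * L) * Real.exp (-L) ^ Om t a := by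
          rw [Real.exp_add, Real.exp_nat_mul]
      _ ≤ _ := mul_le_mul_of_nonneg_left (pow_le_pow_left₀ (Real.exp_pos _).le hL1 _)
          (Real.exp_pos _).le
  · rw [← Real.exp_add]
    refine Real.exp_le_exp.2 ?_
    have h2 := sum_PP_le y
    have h3 := mul_le_mul_of_nonneg_left (sum_PP_ge t) hδ0
    have h4 : (t : ℝ) ≤ y := by exact_mod_cast ht
    have h5 : e ^ 2 / (4 * Y) = e * δ / 2 := by rw [hδ]; field_simp; ring
    have h6 : Y * δ ^ 2 = e * δ / 2 := by rw [hδ]; field_simp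
    have h7 : (t - e) * δ ^ 2 ≤ Y * δ ^ 2 :=
      mul_le_mul_of_nonneg_right (by linarith) (sq_nonneg δ)
    rw [euler_sum_ite ht, h5, hL]
    nlinarith

end Crest.Agent.R20
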