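import Crest.Agent.R20.Sieve
import Crest.Agent.R20.Euler

/-!
# R20/TopW: the two weights satisfying `TopW`; rough numbers; prime counts
-/

set_option autoImplicit false

open Finset Filter Topology Crest.NumberTheoryR.TotientScale

namespace Crest.Agent.R20

theorem topW_inv_sq {T : ℝ} (hT : 0 < T) :
    Bd (fun n : ℕ => T ≤ n) (fun n => 1 / (n : ℝ) ^ 2) (4 / T) := by
  have hN : 1 ≤ ⌈T⌉₊ := Nat.ceil_pos.2 hT
  have h1 : Bd (fun q : ℕ => ⌈T⌉₊ < q) (fun q => 1 / (q : ℝ) ^ 2) (1 / (⌈T⌉₊ : ℝ)) :=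
    fun S hS => sum_inv_sq_le S hN hS
  have h2 := h1.const_mul (c := 4) (by norm_num)
  refine (h2.of_inj (P := fun n : ℕ => T ≤ n) (f := fun n => 1 / (n : ℝ) ^ 2) (fun n => n + 1)
    (fun n hn => ⟨Nat.lt_succ_of_le (Nat.ceil_le.2 hn), ?_⟩) fun a b _ _ h => by omega).mono
    (fun _ h => h) (fun _ _ => le_rfl) ?_
  · have h3 : (1 : ℝ) ≤ n := by exact_mod_cast hN.trans (Nat.ceil_le.2 hn)
    push_cast
    rw [mul_one_div, div_le_div_iff₀ (by positivity) (by positivity)]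
    nlinarith
  · rw [mul_one_div]
    exact div_le_div_of_nonneg_left (by norm_num) hT (Nat.le_ceil T)

theorem topW_inv_pow {T : ℝ} (hT : 0 < T) (k : ℕ) :
    Bd (fun n : ℕ => T ≤ n) (fun n => 1 / (n : ℝ) ^ (k + 2)) (4 / T ^ (k + 1)) := by
  refine ((topW_inv_sq hT).const_mul (c := 1 / T ^ k) (by positivity)).mono (fun _ h => h)
    (fun n hn => ?_) (le_of_eq ?_)
  · have hn0 : (0 : ℝ) < n := hT.trans_le hn
    rw [one_div_mul_one_div, pow_add]
    exact one_div_le_one_div_of_le (by positivity) (by gcongr)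
  · rw [pow_succ]
    field_simp

theorem topW_th_le {A : Finset ℕ} {r : ℕ} {Y : ℝ} (hr : r.Prime) (hA : ∀ m ∈ A, 0 < m)
    (h : ∀ m ∈ A, (m * r + 1).Prime ∧ (th (m * r + 1) : ℝ) ≤ Y) :
    ∀ m ∈ A, 0 < m ∧ (th m : ℝ) ≤ Y := by
  intro m hm
  refine ⟨hA m hm, le_trans ?_ (h m hm).2⟩
  have : m ≤ m * r + 1 := (Nat.le_mul_of_pos_right m hr.pos).trans (Nat.le_succ _)
  exact_mod_cast th_mono this

theorem topW_eventually (K : ℝ) : ∀ᶠ ξ : ℝ in atTop, 2 ≤ ξ ∧ K * (ξ ^ 9) ^ 9 ≤ ξ ^ 100 := by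
  filter_upwards [eventually_ge_atTop 2, eventually_ge_atTop K] with ξ h2 hK
  refine ⟨h2, ?_⟩
  have h1 : ξ ≤ ξ ^ 19 := le_self_pow₀ (by linarith) (by norm_num)
  calc K * (ξ ^ 9) ^ 9 ≤ ξ ^ 19 * (ξ ^ 9) ^ 9 :=
        mul_le_mul_of_nonneg_right (hK.trans h1) (by positivity)
    _ = ξ ^ 100 := by ring

/-- If the finite set `S` is nonempty then `th m ≤ th (m r + 1) ≤ ξ^9` for `m ∈ A`.  `A = ∅`: `bd_th`.
Otherwise split dyadically, `2^i < r ≤ 2^(i+1)`, use `sieve` with `X = 2^(i+1)`; only `n = i + 1` with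
`n log 2 ≥ log r ≥ exp (u - C)` occur, and `∑_{n ≥ N} n^{-κ} ≤ 2/N^{κ-1}` for `κ = |A| + 1 ≥ 2`, `N ≥ 1`. -/
theorem topW_rcp : ∀ᶠ ξ : ℝ in atTop, ∀ u₀ : ℝ, TopW ξ rcp 1 u₀ := by
  obtain ⟨C, hC0, hC⟩ := sieve
  obtain ⟨C₁, hC₁0, hC₁⟩ := log_le_exp_th
  filter_upwards [topW_eventually (64 * C * Real.exp (2 * C₁))] with ξ ⟨h2, hξ⟩ u₀
  have hY : 1 ≤ ξ ^ 9 := one_le_pow₀ (by linarith)
  refine ⟨zero_le_one, rcp_nonneg, fun v hv => ?_, fun a A u ha hA hA0 => ?_⟩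
  · rw [rcp, one_mul]
    exact div_le_div_of_nonneg_right (Real.one_le_exp (by linarith)) (Nat.cast_nonneg v)
  suffices H : Bd (fun r : ℕ => r.Prime ∧ u ≤ th r ∧ u₀ ≤ th r ∧ (th r : ℝ) ≤ ξ ^ 9 ∧
      ∀ m ∈ A, (m * r + 1).Prime ∧ (th (m * r + 1) : ℝ) ≤ ξ ^ 9) rcp
      (ξ ^ 100 * Real.exp (-(A.card * u))) by
    refine (H.const_mul (rcp_nonneg a)).mono (fun _ h => h) (fun r _ => (rcp_mul a r).le)
      (le_of_eq ?_)
    rw [rcp]
    ring
  rcases Nat.eq_zero_or_pos A.card with h0 | h0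
  · refine (bd_th (Y := ξ ^ 9) (by linarith)).mono (fun r h => ⟨h.1, h.2.2.2.1⟩) (fun r h => ?_) ?_
    · have : (2 : ℝ) ≤ r := by exact_mod_cast h.1.two_le
      exact one_div_le_one_div_of_le (by linarith) (by linarith)
    · rw [h0, Nat.cast_zero, zero_mul, neg_zero, Real.exp_zero, mul_one]
      have h3 : ξ ≤ ξ ^ 91 := le_self_pow₀ (by linarith) (by norm_num)
      calc ξ ^ 9 + 1 ≤ 2 * ξ ^ 9 := by linarith
        _ ≤ ξ ^ 91 * ξ ^ 9 := mul_le_mul_of_nonneg_right (by linarith) (by linarith)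
        _ = ξ ^ 100 := by ring
  by_cases hex : ∃ r : ℕ, r.Prime ∧ ∀ m ∈ A, (m * r + 1).Prime ∧ (th (m * r + 1) : ℝ) ≤ ξ ^ 9
  swap
  · exact Bd.of_empty (fun r h => hex ⟨r, h.1, h.2.2.2.2⟩) (by positivity)
  obtain ⟨r₀, hr₀, hr₀'⟩ := hex
  have hAY := topW_th_le hr₀ hA0 hr₀'
  obtain ⟨k, hk⟩ : ∃ k, A.card = k + 1 := ⟨A.card - 1, by omega⟩
  have hk1 : k ≤ 1 := by omega
  have hT : 0 < Real.exp (u - C₁) := Real.exp_pos _
  have hl0 : (1 / 2 : ℝ) ≤ Real.log 2 := by linarith [Real.log_two_gt_d9]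
  have hl1 : Real.log 2 ≤ 1 := by linarith [Real.log_two_lt_d9]
  have hQ := (topW_inv_pow hT k).const_mul (c := 16 * C * (ξ ^ 9) ^ 9) (by positivity)
  refine (hQ.fiber (fun r => Nat.clog 2 r) (fun r hr => ?_) fun n hn => ?_).mono (fun _ h => h)
    (fun _ _ => le_rfl) ?_
  · have a1 := (hC₁ r hr.1.two_le).2
    have a2 : Real.exp (u - C₁) ≤ Real.exp (th r - C₁) := Real.exp_le_exp.2 (by linarith [hr.2.1])
    have a3 : (r : ℝ) ≤ 2 ^ Nat.clog 2 r := by exact_mod_cast Nat.le_pow_clog one_lt_two r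
    have a4 : Real.log r ≤ Nat.clog 2 r * Real.log 2 := by
      rw [← Real.log_pow]
      exact Real.log_le_log (by exact_mod_cast hr.1.pos) a3
    have a5 : (Nat.clog 2 r : ℝ) * Real.log 2 ≤ Nat.clog 2 r :=
      mul_le_of_le_one_right (Nat.cast_nonneg _) hl1
    linarith
  · have hn0 : (0 : ℝ) < n := hT.trans_le hn
    have hn1 : 1 ≤ n := by exact_mod_cast hn0
    have hX : (2 : ℝ) ≤ 2 ^ n := le_self_pow₀ one_le_two (by omega)
    refine ((hC (2 ^ n) (ξ ^ 9) A hX hY hA hAY).const_mul (c := 2 / 2 ^ n) (by positivity)).mono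
      (fun r hr => ⟨hr.1.1, ?_, fun m hm => (hr.1.2.2.2.2 m hm).1⟩) (fun r hr => ?_) ?_
    · rw [← hr.2]
      exact_mod_cast Nat.le_pow_clog one_lt_two r
    · have a1 := Nat.pow_pred_clog_lt_self one_lt_two hr.1.1.one_lt
      rw [hr.2] at a1
      have a2 : 2 ^ n ≤ 2 * r := by
        obtain ⟨j, rfl⟩ : ∃ j, n = j + 1 := ⟨n - 1, by omega⟩
        rw [Nat.pred_succ] at a1
        rw [pow_succ]
        omega
      have a3 : (2 : ℝ) ^ n ≤ 2 * r := by exact_mod_cast a2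
      have a4 : (0 : ℝ) < r := by exact_mod_cast hr.1.1.pos
      rw [rcp, mul_one, div_le_div_iff₀ a4 (by positivity)]
      linarith
    · rw [hk, Real.log_pow, mul_pow]
      have a1 : (1 / 8 : ℝ) ≤ Real.log 2 ^ (k + 1 + 1) :=
        calc (1 / 8 : ℝ) = (1 / 2) ^ 3 := by norm_num
          _ ≤ (1 / 2) ^ (k + 1 + 1) := pow_le_pow_of_le_one (by norm_num) (by norm_num) (by omega)
          _ ≤ _ := by gcongr
      have a2 : 2 / 2 ^ n * (C * (ξ ^ 9) ^ 9 * 2 ^ n / ((n : ℝ) ^ (k + 1 + 1) * Real.log 2 ^ (k + 1 + 1)))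
          = 2 * C * (ξ ^ 9) ^ 9 / (n : ℝ) ^ (k + 2) / Real.log 2 ^ (k + 1 + 1) := by
        field_simp
      rw [a2, div_le_iff₀ (by positivity)]
      have a3 : 0 ≤ 2 * C * (ξ ^ 9) ^ 9 / (n : ℝ) ^ (k + 2) := by positivity
      have a4 : 16 * C * (ξ ^ 9) ^ 9 * (1 / (n : ℝ) ^ (k + 2))
          = 8 * (2 * C * (ξ ^ 9) ^ 9 / (n : ℝ) ^ (k + 2)) := by ring
      rw [a4]
      nlinarith
  · have a1 : 1 / Real.exp (u - C₁) ^ (k + 1)
        ≤ Real.exp (2 * C₁) * Real.exp (-(A.card * u)) := by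
      rw [← Real.exp_nat_mul, one_div, ← Real.exp_neg, ← Real.exp_add, hk]
      refine Real.exp_le_exp.2 ?_
      have : ((k + 1 : ℕ) : ℝ) ≤ 2 := by exact_mod_cast Nat.succ_le_succ hk1
      nlinarith
    calc 16 * C * (ξ ^ 9) ^ 9 * (4 / Real.exp (u - C₁) ^ (k + 1))
        = 64 * C * (ξ ^ 9) ^ 9 * (1 / Real.exp (u - C₁) ^ (k + 1)) := by ring
      _ ≤ 64 * C * (ξ ^ 9) ^ 9 * (Real.exp (2 * C₁) * Real.exp (-(A.card * u))) := by gcongr
      _ = 64 * C * Real.exp (2 * C₁) * (ξ ^ 9) ^ 9 * Real.exp (-(A.card * u)) := by ring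
      _ ≤ _ := by gcongr

/-- Only `r ≤ X/a` count; let `r*` be the largest such `r` in `S`; `sieve` with `X := r*` and
`log r* ≥ exp (max u u₀ - C)`. -/
theorem topW_ind : ∀ᶠ ξ : ℝ in atTop, ∀ X u₀ : ℝ, 0 ≤ X → u₀ ≤ ξ ^ 9 →
    TopW ξ (ind X) (X * Real.exp (-u₀)) u₀ := by
  obtain ⟨C, hC0, hC⟩ := sieve
  obtain ⟨C₁, hC₁0, hC₁⟩ := log_le_exp_th
  filter_upwards [topW_eventually (C * Real.exp (3 * C₁))] with ξ ⟨h2, hξ⟩ X u₀ hX hu₀
  have hY : 1 ≤ ξ ^ 9 := one_le_pow₀ (by linarith)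
  refine ⟨by positivity, fun v => ?_, fun v hv => ?_, fun a A u ha hA hA0 S hS => ?_⟩
  · unfold ind
    split_ifs <;> norm_num
  · have hv' : (0 : ℝ) < v := by exact_mod_cast hv
    unfold ind
    split_ifs with h
    · rw [le_div_iff₀ hv', one_mul, mul_assoc, ← Real.exp_add]
      exact h.trans (le_mul_of_one_le_right hX (Real.one_le_exp (by linarith)))
    · positivity
  have ha' : (0 : ℝ) < a := by exact_mod_cast ha
  have e1 : ∑ r ∈ S, ind X (a * r) = ((S.filter fun r => ((a * r : ℕ) : ℝ) ≤ X).card : ℝ) := by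
    simp only [ind, sum_boole]
  rw [e1]
  set S' := S.filter fun r => ((a * r : ℕ) : ℝ) ≤ X with hS'
  rcases S'.eq_empty_or_nonempty with h0 | h0
  · rw [h0, card_empty, Nat.cast_zero]
    positivity
  obtain ⟨hm1, hm2⟩ := mem_filter.1 (S'.max'_mem h0)
  set r := S'.max' h0 with hr
  obtain ⟨p1, p2, p3, -, p5⟩ := hS r hm1
  have hr2 : (2 : ℝ) ≤ r := by exact_mod_cast p1.two_le
  have b1 := (hC r (ξ ^ 9) A hr2 hY hA (topW_th_le p1 hA0 p5)).card_le (S := S') fun q hq =>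
    ⟨(hS q (mem_filter.1 hq).1).1, by exact_mod_cast S'.le_max' q hq,
      fun m hm => ((hS q (mem_filter.1 hq).1).2.2.2.2 m hm).1⟩
  have b2 := (hC₁ r p1.two_le).2
  have b3 : Real.exp (u - C₁) ≤ Real.log r := (Real.exp_le_exp.2 (by linarith)).trans b2
  have b4 : Real.exp (u₀ - C₁) ≤ Real.log r := (Real.exp_le_exp.2 (by linarith)).trans b2
  have b5 : Real.exp (A.card * u + u₀ - 3 * C₁) ≤ Real.log r ^ (A.card + 1) := by
    have c1 : (A.card : ℝ) ≤ 2 := by exact_mod_cast hA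
    calc Real.exp (A.card * u + u₀ - 3 * C₁)
        ≤ Real.exp (A.card * (u - C₁) + (u₀ - C₁)) := Real.exp_le_exp.2 (by nlinarith)
      _ = Real.exp (u - C₁) ^ A.card * Real.exp (u₀ - C₁) := by
        rw [Real.exp_add, Real.exp_nat_mul]
      _ ≤ Real.log r ^ A.card * Real.log r := by
        have := (Real.exp_pos _).le.trans b3
        gcongr
      _ = _ := (pow_succ _ _).symm
  have b6 : (r : ℝ) ≤ X / a := by
    rw [le_div_iff₀ ha']
    push_cast at hm2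
    linarith
  calc (S'.card : ℝ) ≤ C * (ξ ^ 9) ^ 9 * r / Real.log r ^ (A.card + 1) := b1
    _ ≤ C * (ξ ^ 9) ^ 9 * (X / a) / Real.exp (A.card * u + u₀ - 3 * C₁) := by gcongr
    _ = C * Real.exp (3 * C₁) * (ξ ^ 9) ^ 9 *
          (X * Real.exp (-u₀) * Real.exp (-(A.card * u)) / a) := by
      rw [Real.exp_sub, Real.exp_add, Real.exp_neg, Real.exp_neg]
      field_simp
    _ ≤ ξ ^ 100 * (X * Real.exp (-u₀) * Real.exp (-(A.card * u)) / a) := by gcongr
    _ = _ := by ring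

/-- `v ≤ x^{1/B}`: at most `x^{1/B} ≤ x/(2 log x)` values.  Otherwise `a ∣ v` with `Sm ⌊u0 x⌋₊ a` and
`log a ≥ log x / B = e^B / B`: `Bd.union`, `bd_multiples`, `sm_tail` give
`x exp (-B² e^{-C} + 3B + C) ≤ x e^{-B}/2`. -/
theorem nonrough : ∀ᶠ x : ℝ in atTop,
    Bd (fun v : ℕ => 0 < v ∧ (v : ℝ) ≤ x ∧ ¬ Rough x v) (fun _ => 1) (x / Real.log x) := by
  obtain ⟨C, hC0, hC⟩ := sm_tail
  have hB : Tendsto bigB atTop atTop := Real.tendsto_log_atTop.comp Real.tendsto_log_atTop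
  have h1 : ∀ᶠ x : ℝ in atTop, 2 * Real.log x ≤ x ^ (1 / 2 : ℝ) := by
    have := (isLittleO_log_rpow_atTop (r := 1 / 2) (by norm_num)).bound (c := 1 / 2) (by norm_num)
    filter_upwards [this, eventually_ge_atTop 1] with x hx hx1
    rw [Real.norm_of_nonneg (Real.log_nonneg hx1), Real.norm_of_nonneg (by positivity)] at hx
    linarith
  have h2 : ∀ᶠ B : ℝ in atTop, 3 * Real.log B ≤ B := by
    have := Real.isLittleO_log_id_atTop.bound (c := 1 / 3) (by norm_num)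
    filter_upwards [this, eventually_ge_atTop 1] with x hx hx1
    rw [Real.norm_of_nonneg (Real.log_nonneg hx1), id, Real.norm_of_nonneg (by positivity)] at hx
    linarith
  filter_upwards [h1, hB.eventually h2, hB.eventually (eventually_ge_atTop 2),
    hB.eventually (eventually_ge_atTop ((5 + C) * Real.exp C)), eventually_gt_atTop 1]
    with x hx1 hx2 hx3 hx4 hx5
  have hx0 : 0 < x := by linarith
  have hl : 0 < Real.log x := Real.log_pos hx5
  have hB0 : 0 < bigB x := by linarith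
  have hexp : Real.exp (bigB x) = Real.log x := Real.exp_log hl
  have hu0 : 0 ≤ u0 x := by
    rw [u0]
    linarith
  have a1 := bd_multiples (X := x ^ (1 / bigB x)) (by positivity) one_pos
  have a2 := ((hC ⌊u0 x⌋₊ (Real.log x / bigB x)).const_mul hx0.le).union
    (R := fun a v : ℕ => 0 < v ∧ (v : ℝ) ≤ x ∧ a ∣ v) (f := fun _ => 1) fun a ha =>
      (bd_multiples hx0.le ha.1.1).mono (fun _ h => h) (fun _ _ => le_rfl)
        (by rw [rcp, mul_one_div])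
  refine (a1.or a2).mono ?_ (fun _ _ => le_rfl) ?_
  · rintro v ⟨hv0, hvx, hv⟩
    by_cases h : x ^ (1 / bigB x) < v
    · right
      rw [Rough, not_and] at hv
      have hv' := hv h
      push Not at hv'
      obtain ⟨a, ha1, ha2, ha3⟩ := hv'
      refine ⟨a, ⟨⟨Nat.pos_of_dvd_of_pos ha1 hv0, Nat.le_floor ha2⟩, ?_⟩, hv0, hvx, ha1⟩
      have := Real.log_le_log (by positivity) ha3
      rwa [Real.log_rpow hx0, one_div, inv_mul_eq_div] at this
    · exact Or.inl ⟨hv0, not_lt.1 h, one_dvd v⟩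
  · have b1 : x ^ (1 / bigB x) ≤ x / Real.log x / 2 := by
      have c1 : x ^ (1 / bigB x) ≤ x ^ (1 / 2 : ℝ) :=
        Real.rpow_le_rpow_of_exponent_le hx5.le (one_div_le_one_div_of_le two_pos hx3)
      have c2 : x ^ (1 / 2 : ℝ) * x ^ (1 / 2 : ℝ) = x := by
        rw [← Real.rpow_add hx0]
        norm_num
      have c3 : 0 < x ^ (1 / 2 : ℝ) := by positivity
      refine c1.trans ?_
      rw [div_div, le_div_iff₀ (by positivity)]
      nlinarith
    have ht : (⌊u0 x⌋₊ : ℝ) ≤ bigB x - 3 * Real.log (bigB x) := Nat.floor_le hu0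
    have hlB : 0 ≤ Real.log (bigB x) := Real.log_nonneg (by linarith)
    have b2 : bigB x ^ 2 * Real.exp (-C) ≤
        Real.log x / bigB x * Real.exp (-((⌊u0 x⌋₊ : ℝ) + C)) := by
      have c1 : Real.exp (-bigB x + 3 * Real.log (bigB x) + -C)
          ≤ Real.exp (-((⌊u0 x⌋₊ : ℝ) + C)) := Real.exp_le_exp.2 (by linarith)
      have c2 : Real.exp (3 * Real.log (bigB x)) = bigB x ^ 3 := by
        rw [← Real.exp_log hB0, ← Real.exp_nat_mul, Real.log_exp]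
        norm_num
      refine le_trans (le_of_eq ?_) (mul_le_mul_of_nonneg_left c1 (by positivity))
      rw [Real.exp_add, Real.exp_add, c2, Real.exp_neg (bigB x), hexp]
      field_simp
    have b3 : 5 + C ≤ bigB x * Real.exp (-C) := by
      rwa [Real.exp_neg, ← div_eq_mul_inv, le_div_iff₀ (Real.exp_pos C)]
    have b4 : Real.exp (-(Real.log x / bigB x * Real.exp (-((⌊u0 x⌋₊ : ℝ) + C))) +
        3 * (⌊u0 x⌋₊ : ℝ) + C) ≤ Real.exp (-bigB x + -1) := by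
      refine Real.exp_le_exp.2 ?_
      have c1 : (5 + C) * bigB x ≤ bigB x ^ 2 * Real.exp (-C) := by nlinarith
      nlinarith
    have b5 : Real.exp (-bigB x + -1) ≤ 1 / Real.log x / 2 := by
      rw [Real.exp_add, Real.exp_neg, hexp, Real.exp_neg, one_div, div_eq_mul_inv]
      refine mul_le_mul_of_nonneg_left (inv_anti₀ two_pos ?_) (by positivity)
      linarith [Real.add_one_le_exp (1 : ℝ)]
    have b6 := mul_le_mul_of_nonneg_left (b4.trans b5) hx0.le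
    have b7 : x * (1 / Real.log x / 2) = x / Real.log x / 2 := by ring
    rw [Nat.cast_one, div_one]
    linarith

theorem Rough.u0_lt {x : ℝ} {v : ℕ} (h : Rough x v) : u0 x < th (gp v) := by
  by_contra hc
  exact absurd (h.2 v dvd_rfl (not_lt.1 hc)) (not_lt.2 h.1.le)

end Crest.Agent.R20
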