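import Crest.Agent.R20.Elim
import Crest.Agent.R20.TopW

/-!
# R20/CollFix: collisions between disjoint sets of primes
-/

set_option autoImplicit false

open Finset Filter Topology Crest.NumberTheoryR.TotientScale

namespace Crest.Agent.R20

theorem Zf_le (P : Finset ℕ) : Zf P ≤ th (P.sup id) := by
  unfold Zf
  calc _ ≤ ∑ t ∈ Icc 1 (th (P.sup id)), (1 : ℝ) :=
        sum_le_sum fun t _ => sub_le_self _ (cN_nonneg _)
    _ = _ := by rw [sum_const, Nat.card_Icc, Nat.add_sub_cancel, nsmul_eq_mul, mul_one]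

theorem CollFix_val {n : ℕ} {e : Fin n → ℕ} (he : Function.Injective e) (w : ℕ) :
    ∏ a : Option (Fin n), a.elim w (fun i => e i - 1) = val (univ.image e) w := by
  unfold val
  rw [Fintype.prod_option, prod_image fun i _ j _ h => he h, mul_comm]
  rfl

theorem CollFix_line {ξ : ℝ} (hξ : 6 ≤ ξ) {J n : ℕ} {y e : Fin n → ℕ} {w : ℕ}
    (hy : ∀ i, th (e i) = y i) (h : COK ξ J (univ.image e) w) (a : Option (Fin n)) :
    Sm (a.elim ⌊ξ⌋₊ y) (a.elim w fun i => e i - 1) ∧ ∀ t : ℕ,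
      (Om t (a.elim w fun i => e i - 1) : ℝ) ≤ ((min t (a.elim ⌊ξ⌋₊ y) : ℕ) : ℝ) + ξ ^ 6 := by
  cases a with
  | none =>
    have h1 := th_lt_self (n := gp w) (gp_pos w)
    have h2 := gp_le_self h.2.2.1
    have h3 : w ≤ ⌊ξ⌋₊ := Nat.le_floor h.2.2.2
    refine ⟨⟨h.2.2.1, ?_⟩, fun t => ?_⟩
    · show th (gp w) ≤ ⌊ξ⌋₊
      omega
    · show (Om t w : ℝ) ≤ _
      have h4 : (Om t w : ℝ) ≤ w := by exact_mod_cast Om_le_self t w
      have h5 : ξ ≤ ξ ^ 6 := le_self_pow₀ (by linarith) (by norm_num)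
      have h6 : (0 : ℝ) ≤ ((min t ((none : Option (Fin n)).elim ⌊ξ⌋₊ y) : ℕ) : ℝ) := Nat.cast_nonneg _
      linarith [h.2.2.2]
  | some i =>
    obtain ⟨h1, h2, -⟩ := h.2.1 (e i) (mem_image_of_mem _ (mem_univ i))
    refine ⟨?_, fun t => ?_⟩
    · show Sm (y i) (e i - 1)
      rw [← hy i]; exact sm_pred h1
    · show (Om t (e i - 1) : ℝ) ≤ ((min t (y i) : ℕ) : ℝ) + ξ ^ 6
      rw [← hy i]
      linarith [(abs_le.1 (h2 t)).2]

theorem CollFix_pend {ξ : ℝ} {J n : ℕ} {y e : Fin n → ℕ} {w : ℕ}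
    (hy : ∀ i, th (e i) = y i) (h : COK ξ J (univ.image e) w) (i : Fin n) :
    e i - 1 + 1 = e i ∧ (e i - 1 + 1).Prime ∧ (th (e i - 1 + 1) : ℝ) ≤ ξ ^ 9 ∧
      (y i : ℝ) - 2 * ξ ^ 6 ≤ th (gp (e i - 1)) := by
  obtain ⟨h1, h2, h3⟩ := h.2.1 (e i) (mem_image_of_mem _ (mem_univ i))
  have e1 : e i - 1 + 1 = e i := Nat.sub_add_cancel h1.one_le
  rw [e1, ← hy i]
  exact ⟨rfl, h1, h3, h2.gp_ge h1⟩

/-- the pending lines -/
noncomputable def CollFix_set (E : ℝ) {n : ℕ} (y : Fin n → ℕ) : Finset (Option (Fin n)) :=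
  (univ.filter fun i => 1 ≤ (y i : ℝ) - 2 * E).map Function.Embedding.some

theorem CollFix_mem {E : ℝ} {n : ℕ} {y : Fin n → ℕ} {a : Option (Fin n)} :
    a ∈ CollFix_set E y ↔ ∃ i, 1 ≤ (y i : ℝ) - 2 * E ∧ some i = a := by
  simp [CollFix_set]

theorem CollFix_card (E : ℝ) {n : ℕ} (y : Fin n → ℕ) : (CollFix_set E y).card ≤ n := by
  unfold CollFix_set
  rw [card_map]
  exact (card_le_univ _).trans (Fintype.card_fin n).le

theorem CollFix_mat {ξ : ℝ} (hξ : 6 ≤ ξ) {J J₁ J₂ : ℕ} {y e : Fin J₁ → ℕ} {y' e' : Fin J₂ → ℕ}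
    {w w' : ℕ} (he : Function.Injective e) (he' : Function.Injective e') (hy : ∀ i, th (e i) = y i)
    (hy' : ∀ j, th (e' j) = y' j) (h : COK ξ J (univ.image e) w) (h' : COK ξ J (univ.image e') w')
    (hd : Disjoint (univ.image e) (univ.image e'))
    (hv : val (univ.image e) w = val (univ.image e') w') :
    ∃ d : Option (Fin J₁) → Option (Fin J₂) → ℕ,
      (MatOK (fun a : Option (Fin J₁) => a.elim ⌊ξ⌋₊ y) (fun b : Option (Fin J₂) => b.elim ⌊ξ⌋₊ y')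
          (ξ ^ 6) d ∧
        Pend ξ (fun a : Option (Fin J₁) => ((a.elim ⌊ξ⌋₊ y : ℕ) : ℝ) - 2 * ξ ^ 6)
          (fun b : Option (Fin J₂) => ((b.elim ⌊ξ⌋₊ y' : ℕ) : ℝ) - 2 * ξ ^ 6)
          (CollFix_set (ξ ^ 6) y) (CollFix_set (ξ ^ 6) y') d) ∧
      ∀ a, rowP d a = a.elim w fun i => e i - 1 := by
  obtain ⟨d, hr, hc⟩ := refine_mat (fun a : Option (Fin J₁) => a.elim w fun i => e i - 1)
    (fun b : Option (Fin J₂) => b.elim w' fun j => e' j - 1) (fun a => (CollFix_line hξ hy h a).1.1)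
    (by rw [CollFix_val he, CollFix_val he', hv])
  refine ⟨d, ⟨⟨fun a b => ⟨?_, ?_⟩, fun a t => ?_⟩, fun a ha => ?_, fun b hb => ?_,
    fun a ha b hb => ?_⟩, hr⟩
  · refine (CollFix_line hξ hy h a).1.of_dvd ?_
    rw [← hr a]
    exact dvd_prod_of_mem _ (mem_univ b)
  · refine (CollFix_line hξ hy' h' b).1.of_dvd ?_
    rw [← hc b]
    exact dvd_prod_of_mem (fun a => d a b) (mem_univ a)
  · rw [hr a]
    exact (CollFix_line hξ hy h a).2 t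
  · obtain ⟨i, -, rfl⟩ := CollFix_mem.1 ha
    rw [hr]
    exact (CollFix_pend hy h i).2
  · obtain ⟨j, -, rfl⟩ := CollFix_mem.1 hb
    rw [hc]
    exact (CollFix_pend hy' h' j).2
  · obtain ⟨i, -, rfl⟩ := CollFix_mem.1 ha
    obtain ⟨j, -, rfl⟩ := CollFix_mem.1 hb
    rw [hr, hc]
    intro h1
    have h2 : e i - 1 = e' j - 1 := h1
    have h3 : e i = e' j := by rw [← (CollFix_pend hy h i).1, ← (CollFix_pend hy' h' j).1, h2]
    exact disjoint_left.1 hd (mem_image_of_mem _ (mem_univ i)) (h3 ▸ mem_image_of_mem _ (mem_univ j))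

/-- Fixed sizes and profiles.  Rows `Option (Fin J₁)`, columns `Option (Fin J₂)`, `T = ⌊ξ⌋₊`, `E = ξ^6`,
`U = (·.elim T y)`, `U' = (·.elim T y')`, `u a = U a - 2E`, `A = ` the `some i` with `1 ≤ y i - 2E`, same for `B`.
`refine_mat` with `R (some i) = e i - 1`, `R none = w` gives `d`; it is `MatOK` (`sm_pred`, `Sm.of_dvd`, normality,
`th (gp w) ≤ w ≤ ξ`, `Om_le_self`) and `Pend` (`Normal.gp_ge`, `e i ≠ e' j`).  `Bd.of_map` with
`π d = (univ.image fun i => rowP d (some i) + 1, rowP d none)` and `elim`, `mat_base`.  If the set is nonempty,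
`gp (e i₀ - 1)` divides some `d (some i₀) b`, which gives the hypothesis `hb` of `expo`; `Zf P` is the sum in `expo`. -/
theorem coll_prof {ξ Λ u₀ : ℝ} {kap : ℕ → ℝ} (hk : TopW ξ kap Λ u₀) (h1 : TopW ξ rcp 1 0) (hξ : 6 ≤ ξ)
    {J J₁ J₂ : ℕ} (hJ₁ : J₁ ≤ J) (hJ₂ : J₂ ≤ J) (y : Fin J₁ → ℕ) (y' : Fin J₂ → ℕ) {c : ℕ}
    (hc : 0 < c) :
    Bd (fun z : Finset ℕ × ℕ => ∃ (e : Fin J₁ → ℕ) (e' : Fin J₂ → ℕ) (w' : ℕ),
        Function.Injective e ∧ Function.Injective e' ∧ z.1 = univ.image e ∧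
        (∀ i, th (e i) = y i) ∧ (∀ j, th (e' j) = y' j) ∧ COK ξ J z.1 z.2 ∧
        COK ξ J (univ.image e') w' ∧ Disjoint z.1 (univ.image e') ∧
        val z.1 z.2 = val (univ.image e') w' ∧ u₀ + 2 * ξ ^ 6 ≤ th (z.1.sup id) ∧ ξ ^ 7 / 2 ≤ Zf z.1)
      (fun z => kap (c * val z.1 z.2))
      (Λ / c * (((J : ℝ) + 1) ^ 2 * ξ ^ 100) ^ (2 * J + 1) *
        Real.exp (-(ξ ^ 7 / 2) + 30 * ((J : ℝ) + 1) ^ 2 * ξ ^ 6)) := by
  have h0 : 0 ≤ ξ := by linarith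
  have hΛ : 0 ≤ Λ / c := div_nonneg hk.1 c.cast_nonneg
  have hE : 1 ≤ ξ ^ 6 := one_le_pow₀ (by linarith)
  have hE7 : 3 * ξ ^ 6 ≤ ξ ^ 7 / 2 := by
    have := mul_le_mul_of_nonneg_right hξ (pow_nonneg h0 6)
    have e : ξ * ξ ^ 6 = ξ ^ 7 := by ring
    linarith
  intro S hS
  rcases S.eq_empty_or_nonempty with rfl | ⟨z₀, hz₀⟩
  · rw [sum_empty]; positivity
  obtain ⟨e, e', w', he, he', hz, hy, hy', hc₀, hc₀', hd, hv, hu, hZ⟩ := hS z₀ hz₀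
  rw [hz] at hc₀ hd hv hu hZ
  have hZ1 := Zf_le (univ.image e)
  have hne : (univ.image e).Nonempty := by
    rw [nonempty_iff_ne_empty]
    intro h
    rw [h] at hZ hZ1
    have h2 : th ((∅ : Finset ℕ).sup id) = 0 := th_zero
    rw [h2] at hZ1
    push_cast at hZ1
    linarith
  obtain ⟨p, hp, hps⟩ := exists_mem_eq_sup _ hne id
  obtain ⟨i₀, -, rfl⟩ := mem_image.1 hp
  have hsup : th ((univ.image e).sup id) = y i₀ := by rw [hps]; exact hy i₀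
  have hmax : ∀ i, y i ≤ y i₀ := fun i => by
    rw [← hsup, ← hy i]
    exact th_mono (le_sup (f := id) (mem_image_of_mem _ (mem_univ i)))
  have hZ2 : Zf (univ.image e) = ∑ t ∈ Icc 1 (y i₀), (1 - cN (cntGe y t)) := by
    unfold Zf cntGe
    rw [hsup]
    refine sum_congr rfl fun t _ => ?_
    rw [filter_image, card_image_of_injective _ he]
    simp only [hy]
  rw [hsup] at hu hZ1
  have hi₀ : 1 ≤ (y i₀ : ℝ) - 2 * ξ ^ 6 := by linarith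
  have hb : ∃ b : Option (Fin J₂), (y i₀ : ℝ) - 2 * ξ ^ 6 ≤ ((b.elim ⌊ξ⌋₊ y' : ℕ) : ℝ) := by
    obtain ⟨d, ⟨hM, -⟩, hr⟩ := CollFix_mat hξ he he' hy hy' hc₀ hc₀' hd hv
    have h2 := (CollFix_pend hy hc₀ i₀).2.2.2
    have h3 : 0 < e i₀ - 1 := (CollFix_line hξ hy hc₀ (some i₀)).1.1
    have h4 : 1 < e i₀ - 1 := by
      by_contra h
      have h5 : e i₀ - 1 = 1 := by omega
      rw [h5, gp_one, th_one] at h2
      push_cast at h2
      linarith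
    have h5 := gp_prime h4
    have h6 : gp (e i₀ - 1) ∣ ∏ b, d (some i₀) b := by
      have h7 : rowP d (some i₀) = e i₀ - 1 := hr (some i₀)
      have h8 := gp_dvd (e i₀ - 1)
      rw [← h7] at h8 ⊢
      exact h8
    obtain ⟨b, -, hb⟩ := (Nat.Prime.prime h5).exists_mem_finset_dvd h6
    refine ⟨b, h2.trans ?_⟩
    exact_mod_cast (sm_iff.1 (hM.1 (some i₀) b).2).2 _ h5 hb
  have hT : (⌊ξ⌋₊ : ℝ) ≤ ξ ^ 6 := (Nat.floor_le h0).trans (le_self_pow₀ (by linarith) (by norm_num))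
  have hex := expo y y' (J := J) (by rwa [Fintype.card_fin]) (by rwa [Fintype.card_fin]) hE hT i₀
    hmax hb
  have hel := elim hk h1 (by linarith) (fun a : Option (Fin J₁) => a.elim ⌊ξ⌋₊ y)
    (fun b : Option (Fin J₂) => b.elim ⌊ξ⌋₊ y')
    (fun a : Option (Fin J₁) => ((a.elim ⌊ξ⌋₊ y : ℕ) : ℝ) - 2 * ξ ^ 6)
    (fun b : Option (Fin J₂) => ((b.elim ⌊ξ⌋₊ y' : ℕ) : ℝ) - 2 * ξ ^ 6)
    (mat_base _ _ (E := ξ ^ 6) (by linarith)) (2 * J) (CollFix_set (ξ ^ 6) y)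
    (CollFix_set (ξ ^ 6) y')
    (by have := CollFix_card (ξ ^ 6) y; have := CollFix_card (ξ ^ 6) y'; omega)
    (fun a ha => by obtain ⟨i, hi, rfl⟩ := CollFix_mem.1 ha; exact hi)
    (fun b hb => by obtain ⟨i, hi, rfl⟩ := CollFix_mem.1 hb; exact hi)
    ⟨some i₀, CollFix_mem.2 ⟨i₀, hi₀, rfl⟩, by
      show u₀ ≤ (y i₀ : ℝ) - 2 * ξ ^ 6
      linarith⟩ hc
  have hmap := hel.of_map (P := fun z : Finset ℕ × ℕ => z ∈ S) (f := fun z => kap (c * val z.1 z.2))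
    (fun d => (univ.image fun i => rowP d (some i) + 1, rowP d none)) fun z hz => by
      obtain ⟨e, e', w', he, he', hz, hy, hy', hc₀, hc₀', hd, hv, -, -⟩ := hS z hz
      rw [hz] at hc₀ hd hv
      obtain ⟨d, hM, hr⟩ := CollFix_mat hξ he he' hy hy' hc₀ hc₀' hd hv
      refine ⟨d, hM, Prod.ext ?_ (hr none), le_of_eq ?_⟩
      · rw [hz]
        refine image_congr fun i _ => ?_
        rw [hr]
        exact (CollFix_pend hy hc₀ i).1
      · rw [totP_eq_row, prod_congr rfl fun a _ => hr a, CollFix_val he, hz]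
  refine (hmap S fun _ h => h).trans ?_
  rw [mul_assoc, mul_assoc, ← Real.exp_add, mul_assoc (Λ / c)]
  refine mul_le_mul_of_nonneg_left ?_ hΛ
  refine mul_le_mul (pow_le_pow_left₀ (by positivity) ?_ _) (Real.exp_le_exp.2 ?_)
    (Real.exp_pos _).le (by positivity)
  · refine mul_le_mul_of_nonneg_right ?_ (by positivity)
    rw [Fintype.card_option, Fintype.card_option, Fintype.card_fin, Fintype.card_fin, sq]
    have a1 : (J₁ : ℝ) ≤ J := by exact_mod_cast hJ₁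
    have a2 : (J₂ : ℝ) ≤ J := by exact_mod_cast hJ₂
    push_cast
    gcongr
  · unfold CollFix_set
    rw [sum_map, sum_map]
    rw [hZ2] at hZ
    simp only [Function.Embedding.some_apply, Option.elim_some]
    linarith

theorem CollFix_union {α ι : Type*} (I : Finset ι) {R : ι → α → Prop} {f : α → ℝ} {K M : ℝ}
    (hK : 0 ≤ K) (hM : (I.card : ℝ) ≤ M) (h : ∀ i ∈ I, Bd (R i) f K) :
    Bd (fun a => ∃ i ∈ I, R i a) f (M * K) := by
  refine (Bd.biUnion I h).mono (fun _ h => h) (fun _ _ => le_rfl) ?_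
  rw [sum_const, nsmul_eq_mul]
  exact mul_le_mul_of_nonneg_right hM hK

theorem CollFix_enum (P : Finset ℕ) :
    ∃ e : Fin P.card → ℕ, Function.Injective e ∧ P = univ.image e :=
  ⟨P.orderEmbOfFin rfl, (P.orderEmbOfFin rfl).injective, (image_orderEmbOfFin_univ P rfl).symm⟩

theorem CollFix_pi {Y : ℝ} (hY : 0 ≤ Y) {n J : ℕ} (hn : n ≤ J) :
    ((Fintype.piFinset fun _ : Fin n => range (⌊Y⌋₊ + 1)).card : ℝ) ≤ (Y + 1) ^ J := by
  rw [Fintype.card_piFinset, prod_const, card_range, card_univ, Fintype.card_fin]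
  push_cast
  calc ((⌊Y⌋₊ : ℝ) + 1) ^ n ≤ (Y + 1) ^ n := by gcongr; exact Nat.floor_le hY
    _ ≤ (Y + 1) ^ J := pow_le_pow_right₀ (by linarith) hn

theorem CollFix_num {ξ : ℝ} (hξ : 14400 ≤ ξ) {J : ℕ} (hJ : ((J : ℝ) + 1) ^ 4 ≤ ξ) :
    ((J : ℝ) + 1) * (((J : ℝ) + 1) * ((ξ ^ 9 + 1) ^ J * ((ξ ^ 9 + 1) ^ J *
      ((((J : ℝ) + 1) ^ 2 * ξ ^ 100) ^ (2 * J + 1) *
        Real.exp (-(ξ ^ 7 / 2) + 30 * ((J : ℝ) + 1) ^ 2 * ξ ^ 6))))) ≤ Real.exp (-(ξ ^ 7 / 8)) := by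
  have h0 : 0 ≤ ξ := by linarith
  have hJ0 : (0 : ℝ) ≤ J := J.cast_nonneg
  have h1 : ξ ≤ Real.exp ξ := by linarith [Real.add_one_le_exp ξ]
  have h2 : 1 ≤ ξ ^ 9 := one_le_pow₀ (by linarith)
  have h3 : ξ ^ 9 + 1 ≤ Real.exp (10 * ξ) := by
    calc ξ ^ 9 + 1 ≤ ξ ^ 9 * ξ := by nlinarith
      _ = ξ ^ 10 := by ring
      _ ≤ Real.exp ξ ^ 10 := pow_le_pow_left₀ h0 h1 10
      _ = Real.exp (10 * ξ) := by rw [← Real.exp_nat_mul]; norm_num
  have h4 : 120 * ((J : ℝ) + 1) ^ 2 ≤ ξ := by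
    have e : ((J : ℝ) + 1) ^ 4 = (((J : ℝ) + 1) ^ 2) ^ 2 := by ring
    rw [e] at hJ
    generalize ((J : ℝ) + 1) ^ 2 = s at *
    rcases le_total s 120 with h | h
    · linarith
    · nlinarith
  have h5 : (J : ℝ) + 1 ≤ ((J : ℝ) + 1) ^ 2 := by nlinarith
  have h6 : ((J : ℝ) + 1) ^ 2 * ξ ^ 100 ≤ Real.exp (101 * ξ) := by
    calc ((J : ℝ) + 1) ^ 2 * ξ ^ 100 ≤ ξ * ξ ^ 100 :=
          mul_le_mul_of_nonneg_right (by linarith) (by positivity)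
      _ = ξ ^ 101 := by ring
      _ ≤ Real.exp ξ ^ 101 := pow_le_pow_left₀ h0 h1 101
      _ = Real.exp (101 * ξ) := by rw [← Real.exp_nat_mul]; norm_num
  have h7 : (J : ℝ) + 1 ≤ Real.exp ξ := by linarith
  have h8 : 3000 ≤ ξ ^ 5 := le_trans (by linarith) (le_self_pow₀ (by linarith) (by norm_num))
  have h9 : 3000 * ξ ^ 2 ≤ ξ ^ 7 := by
    have := mul_le_mul_of_nonneg_right h8 (sq_nonneg ξ)
    have e : ξ ^ 5 * ξ ^ 2 = ξ ^ 7 := by ring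
    linarith
  have h10 : 120 * ((J : ℝ) + 1) ^ 2 * ξ ^ 6 ≤ ξ ^ 7 := by
    have := mul_le_mul_of_nonneg_right h4 (pow_nonneg h0 6)
    have e : ξ * ξ ^ 6 = ξ ^ 7 := by ring
    linarith
  have h11 : ((J : ℝ) + 1) * ξ ≤ ξ ^ 2 := by
    rw [sq]; exact mul_le_mul_of_nonneg_right (by linarith) h0
  calc _ ≤ Real.exp ξ * (Real.exp ξ * (Real.exp (10 * ξ) ^ J * (Real.exp (10 * ξ) ^ J *
        (Real.exp (101 * ξ) ^ (2 * J + 1) *
          Real.exp (-(ξ ^ 7 / 2) + 30 * ((J : ℝ) + 1) ^ 2 * ξ ^ 6))))) := by gcongr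
    _ ≤ _ := by
      rw [← Real.exp_nat_mul, ← Real.exp_nat_mul, ← Real.exp_add, ← Real.exp_add, ← Real.exp_add,
        ← Real.exp_add, ← Real.exp_add]
      refine Real.exp_le_exp.2 ?_
      push_cast
      nlinarith

/-- Enumerate `P`, `P'` (`Finset.orderEmbOfFin` or `equivFin`); union over `J₁, J₂ ≤ J` and the profiles in
`Fintype.piFinset fun _ => range (⌊ξ^9⌋₊ + 1)`: at most `(J+1)² (ξ^9+1)^{2J}` terms; `(J+1)² ≤ √ξ`. -/
theorem coll_fix : ∀ᶠ ξ : ℝ in atTop, ∀ (J : ℕ) (kap : ℕ → ℝ) (Λ u₀ : ℝ), ((J : ℝ) + 1) ^ 4 ≤ ξ →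
    TopW ξ kap Λ u₀ → ∀ c : ℕ, 0 < c →
    Bd (fun z : Finset ℕ × ℕ => COK ξ J z.1 z.2 ∧ u₀ + 2 * ξ ^ 6 ≤ th (z.1.sup id) ∧
        ξ ^ 7 / 2 ≤ Zf z.1 ∧ ∃ P' w', COK ξ J P' w' ∧ Disjoint z.1 P' ∧ val z.1 z.2 = val P' w')
      (fun z => kap (c * val z.1 z.2)) (Λ / c * Real.exp (-(ξ ^ 7 / 8))) := by
  filter_upwards [topW_rcp, eventually_ge_atTop 14400] with ξ htop hξ J kap Λ u₀ hJ hk c hc
  have h0 : 0 ≤ ξ := by linarith
  have hΛ : 0 ≤ Λ / c := div_nonneg hk.1 c.cast_nonneg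
  have h9 : 0 ≤ ξ ^ 9 := pow_nonneg h0 9
  have hr : ((range (J + 1)).card : ℝ) ≤ (J : ℝ) + 1 := by rw [card_range]; push_cast; rfl
  have h := CollFix_union (range (J + 1)) (by positivity) hr fun J₁ hJ₁ =>
    CollFix_union (range (J + 1)) (by positivity) hr fun J₂ hJ₂ =>
      CollFix_union (Fintype.piFinset fun _ : Fin J₁ => range (⌊ξ ^ 9⌋₊ + 1)) (by positivity)
        (CollFix_pi h9 (Nat.lt_succ_iff.1 (mem_range.1 hJ₁))) fun y _ =>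
        CollFix_union (Fintype.piFinset fun _ : Fin J₂ => range (⌊ξ ^ 9⌋₊ + 1)) (by positivity)
          (CollFix_pi h9 (Nat.lt_succ_iff.1 (mem_range.1 hJ₂))) fun y' _ =>
          coll_prof hk (htop 0) (by linarith) (Nat.lt_succ_iff.1 (mem_range.1 hJ₁))
            (Nat.lt_succ_iff.1 (mem_range.1 hJ₂)) y y' hc
  refine h.mono (fun z hz => ?_) (fun _ _ => le_rfl) ?_
  · obtain ⟨hc₀, hu, hZ, P', w', hc', hd, hv⟩ := hz
    obtain ⟨e, he, hP⟩ := CollFix_enum z.1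
    obtain ⟨e', he', hP'⟩ := CollFix_enum P'
    refine ⟨z.1.card, mem_range.2 (Nat.lt_succ_of_le hc₀.1), P'.card,
      mem_range.2 (Nat.lt_succ_of_le hc'.1), fun i => th (e i), Fintype.mem_piFinset.2 fun i => ?_,
      fun j => th (e' j), Fintype.mem_piFinset.2 fun j => ?_, e, e', w', he, he', hP, fun _ => rfl,
      fun _ => rfl, hc₀, hP' ▸ hc', hP' ▸ hd, hP' ▸ hv, hu, hZ⟩
    · refine mem_range.2 (Nat.lt_succ_of_le (Nat.le_floor (hc₀.2.1 _ ?_).2.2))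
      have := mem_image_of_mem e (mem_univ i)
      rwa [← hP] at this
    · refine mem_range.2 (Nat.lt_succ_of_le (Nat.le_floor (hc'.2.1 _ ?_).2.2))
      have := mem_image_of_mem e' (mem_univ j)
      rwa [← hP'] at this
  · refine le_trans (le_of_eq ?_) (mul_le_mul_of_nonneg_left (CollFix_num hξ hJ) hΛ)
    ring

end Crest.Agent.R20
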