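import Mathlib
import Crest.Prelude.Def_TotientScale

/-!
# R20/Defs: definitions for row 20 (values of Euler's function).  See `R20/Blueprint.lean`.
-/

set_option autoImplicit false

open Finset Filter Topology Crest.NumberTheoryR.TotientScale

noncomputable section

namespace Crest.Agent.R20

/-- every finite partial sum of `f` over `{a | P a}` is at most `C` -/
def Bd {α : Type*} (P : α → Prop) (f : α → ℝ) (C : ℝ) : Prop :=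
  ∀ S : Finset α, (∀ a ∈ S, P a) → ∑ a ∈ S, f a ≤ C

/-- the weight `1/w` -/
def rcp (w : ℕ) : ℝ := 1 / (w : ℝ)

/-- the weight `1[v ≤ X]` -/
def ind (X : ℝ) (v : ℕ) : ℝ := if (v : ℝ) ≤ X then 1 else 0

/-! ### levels of primes -/

def uu (n : ℕ) : ℝ := ∑ q ∈ (range n).filter Nat.Prime, 1 / ((q : ℝ) - 1)

/-- the level `θ n ≈ log log n` -/
def th (n : ℕ) : ℕ := if n < 2 then 0 else ⌊uu n⌋₊ + 1

open Classical in
/-- the primes of level at most `t` -/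
def PP (t : ℕ) : Finset ℕ :=
  if h : {q : ℕ | q.Prime ∧ th q ≤ t}.Finite then h.toFinset else ∅

/-- greatest prime factor (`1` if there is none) -/
def gp (n : ℕ) : ℕ := max 1 (n.primeFactors.sup id)

/-- remove the greatest prime factor once -/
def tl (n : ℕ) : ℕ := n / gp n

/-- the `k`-th largest prime factor (with multiplicity, from `k = 0`) -/
def pr (n k : ℕ) : ℕ := gp (tl^[k] n)

def yy (n k : ℕ) : ℕ := th (pr n k)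

/-- positive and composed of primes of level at most `t` -/
def Sm (t a : ℕ) : Prop := 0 < a ∧ th (gp a) ≤ t

/-- number of prime factors (with multiplicity) of level at most `t` -/
def Om (t a : ℕ) : ℕ := a.factorization.sum fun q k => if th q ≤ t then k else 0

/-- the completely multiplicative function with values `z q` at primes -/
def cm (z : ℕ → ℝ) (a : ℕ) : ℝ := a.factorization.prod fun q k => z q ^ k

def Normal (E : ℝ) (p : ℕ) : Prop :=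
  ∀ t : ℕ, |(Om t (p - 1) : ℝ) - ((min t (th p) : ℕ) : ℝ)| ≤ E

/-- the `k` largest prime factors exist and each divides `n` exactly once -/
def Chain (k n : ℕ) : Prop := 0 < n ∧ ∀ i < k, 1 < tl^[i] n ∧ ¬ pr n i ∣ tl^[i + 1] n

def cN (N : ℕ) : ℝ := (N : ℝ) * Real.log N - N + 1

def capSum (D m : ℕ) : ℝ := ∑ d ∈ Icc 1 D, aCoef d * yy m d

/-- `w` is the totient of some `m` with top level `≤ Y` and property `P` -/
def TV (Y : ℝ) (P : ℕ → Prop) (w : ℕ) : Prop :=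
  ∃ m : ℕ, 0 < m ∧ m.totient = w ∧ (yy m 0 : ℝ) ≤ Y ∧ P m

/-- `kap` can be summed over the largest prime, with sieve conditions -/
def TopW (ξ : ℝ) (kap : ℕ → ℝ) (Λ u₀ : ℝ) : Prop :=
  0 ≤ Λ ∧ (∀ v, 0 ≤ kap v) ∧ (∀ v : ℕ, 0 < v → kap v ≤ Λ * Real.exp (ξ ^ 9) / v) ∧
  ∀ (a : ℕ) (A : Finset ℕ) (u : ℝ), 0 < a → A.card ≤ 2 → (∀ m ∈ A, 0 < m) →
    Bd (fun r : ℕ => r.Prime ∧ u ≤ th r ∧ u₀ ≤ th r ∧ (th r : ℝ) ≤ ξ ^ 9 ∧
        ∀ m ∈ A, (m * r + 1).Prime ∧ (th (m * r + 1) : ℝ) ≤ ξ ^ 9)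
      (fun r => kap (a * r)) (Λ * ξ ^ 100 * Real.exp (-(A.card * u)) / a)

def CapSet (D : ℕ) (y : ℕ → ℕ) (E : ℝ) (a : ℕ) : Prop :=
  Sm (y 0) a ∧ ∀ t : ℕ, |(Om t a : ℝ) - ((∑ d ∈ range (D + 1), min t (y d) : ℕ) : ℝ)| ≤ E

def CapBad (ξ : ℝ) (a : ℕ) : Prop :=
  ∃ (D : ℕ) (y : ℕ → ℕ), ((D : ℝ) + 1) ^ 4 ≤ ξ ∧ (∀ d < D, y (d + 1) ≤ y d) ∧ (y 0 : ℝ) ≤ ξ ^ 9 ∧
    y 0 + ξ ^ 7 / 3 ≤ ∑ d ∈ Icc 1 D, aCoef d * y d ∧ CapSet D y ((D + 1) * ξ ^ 6 + 1) a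

def Bad (ξ : ℝ) (m : ℕ) : Prop := ξ < yy m 0 ∧ (¬ Normal (ξ ^ 6) (gp m) ∨ gp m ∣ tl m)

def GoodAt (ξ : ℝ) (D m : ℕ) : Prop :=
  (yy m 0 : ℝ) ≤ ξ ^ 9 ∧ 1 < m ∧ ¬ gp m ∣ tl m ∧ Normal (ξ ^ 6) (gp m) ∧ capSum D m - ξ ^ 7 ≤ yy m 0

def Good0 (ξ B : ℝ) (D n : ℕ) : Prop := 1 < n ∧ ¬ gp n ∣ tl n ∧ capSum D n - ξ ^ 7 ≤ B

/-! ### collisions -/

def rowP {α β : Type} [Fintype β] (d : α → β → ℕ) (a : α) : ℕ := ∏ b, d a b

def colP {α β : Type} [Fintype α] (d : α → β → ℕ) (b : β) : ℕ := ∏ a, d a b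

def totP {α β : Type} [Fintype α] [Fintype β] (d : α → β → ℕ) : ℕ := ∏ a, ∏ b, d a b

def MatOK {α β : Type} [Fintype β] (U : α → ℕ) (U' : β → ℕ) (E : ℝ) (d : α → β → ℕ) : Prop :=
  (∀ a b, Sm (U a) (d a b) ∧ Sm (U' b) (d a b)) ∧
    ∀ a (t : ℕ), (Om t (rowP d a) : ℝ) ≤ ((min t (U a) : ℕ) : ℝ) + E

def Pend {α β : Type} [Fintype α] [Fintype β] (ξ : ℝ) (u : α → ℝ) (u' : β → ℝ) (A : Finset α)
    (B : Finset β) (d : α → β → ℕ) : Prop :=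
  (∀ a ∈ A, (rowP d a + 1).Prime ∧ (th (rowP d a + 1) : ℝ) ≤ ξ ^ 9 ∧ u a ≤ th (gp (rowP d a))) ∧
  (∀ b ∈ B, (colP d b + 1).Prime ∧ (th (colP d b + 1) : ℝ) ≤ ξ ^ 9 ∧ u' b ≤ th (gp (colP d b))) ∧
  ∀ a ∈ A, ∀ b ∈ B, rowP d a ≠ colP d b

/-- number of lines of level at least `t` -/
def cntGe {β : Type} [Fintype β] (U : β → ℕ) (t : ℕ) : ℕ := (univ.filter fun b => t ≤ U b).card

/-- exponent of the Rankin bound for matrices -/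
def baseExp {α β : Type} [Fintype α] [Fintype β] (U : α → ℕ) (U' : β → ℕ) (E : ℝ) : ℝ :=
  ∑ a, (((U a : ℝ) + 1) + ∑ t ∈ Icc 1 (U a), Real.log (cntGe U' t) + E * Real.log (Fintype.card β))

def val (P : Finset ℕ) (w : ℕ) : ℕ := (∏ p ∈ P, (p - 1)) * w

def COK (ξ : ℝ) (J : ℕ) (P : Finset ℕ) (w : ℕ) : Prop :=
  P.card ≤ J ∧ (∀ p ∈ P, p.Prime ∧ Normal (ξ ^ 6) p ∧ (th p : ℝ) ≤ ξ ^ 9) ∧ 0 < w ∧ (w : ℝ) ≤ ξ

/-- capacity slack of a set of primes -/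
def Zf (P : Finset ℕ) : ℝ :=
  ∑ t ∈ Icc 1 (th (P.sup id)), (1 - cN (P.filter fun p => t ≤ th p).card)

/-- a family of tails determined by their `J` top primes and the totient of the rest -/
def TFam (ξ : ℝ) (J : ℕ) (T : Finset ℕ) : Prop :=
  (∀ m ∈ T, Chain J m ∧ ((tl^[J] m).totient : ℝ) ≤ ξ) ∧
  ∀ m ∈ T, ∀ m' ∈ T, (∀ d < J, pr m d = pr m' d) → (tl^[J] m).totient = (tl^[J] m').totient → m = m'

def Fine (ξ : ℝ) (J m : ℕ) : Prop := (yy m 0 : ℝ) ≤ ξ ^ 9 ∧ ∀ d < J, Normal (ξ ^ 6) (pr m d)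

/-! ### heads and volumes -/

def Head (m l : ℕ) (h : ℕ → ℕ) : Prop :=
  (∀ i ∈ Icc m l, (h i).Prime) ∧ ∀ i, i ∉ Icc m l → h i = 0

def wt (m l : ℕ) (h : ℕ → ℕ) : ℝ := ∏ i ∈ Icc m l, 1 / ((h i : ℝ) - 1)

def lev (B : ℝ) (h : ℕ → ℕ) (i : ℕ) : ℝ := if i = 0 then B else th (h i)

def Cons (l : ℕ) (A : ℕ → ℕ → ℝ) (β : ℕ → ℝ) (B : ℝ) (h : ℕ → ℕ) : Prop :=
  ∀ i ≤ l, β i + ∑ k ∈ Ioc i l, A i k * th (h k) ≤ lev B h i

def aA (i k : ℕ) : ℝ := aCoef (k - i)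

def pw (l : ℕ) (x : ℝ) : ℝ := if 0 ≤ x then x ^ l / l.factorial else 0

def gP (l : ℕ) : ℝ := ∏ i ∈ range l, gSeq (i + 1)

def GG (l : ℕ) (B : ℝ) : ℝ := B ^ l / (l.factorial * gP l)

def hd (l n : ℕ) : ℕ → ℕ := fun i => if i ∈ Icc 1 l then pr n i else 0

/-! ### scales -/

def IsRho (ρ : ℝ) : Prop :=
  0 < ρ ∧ ρ < 1 ∧ HasSum (fun j : ℕ => aCoef (j + 1) * ρ ^ (j + 1)) 1

/-- `ξ_j = ρ^{-j/8}` -/
def xi (ρ : ℝ) (j : ℕ) : ℝ := (ρ ^ (-(1 / 8) : ℝ)) ^ j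

/-- the slack `s` at level `i` -/
def sl (ρ : ℝ) (M i : ℕ) : ℝ := xi ρ (M - i) ^ 7

def Adm (ρ x : ℝ) (M : ℕ) : Prop := (M : ℝ) ≤ phaseArg ρ x ∧ phaseArg ρ x ≤ M + 3

/-- `x → ∞` together with an admissible number of levels `M` -/
def FA (ρ : ℝ) : Filter (ℝ × ℕ) := comap Prod.fst atTop ⊓ 𝓟 {z | Adm ρ z.1 z.2}

theorem eventually_FA {ρ : ℝ} {P : ℝ × ℕ → Prop} :
    (∀ᶠ z in FA ρ, P z) ↔ ∀ᶠ x in atTop, ∀ M, Adm ρ x M → P (x, M) := by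
  unfold FA
  rw [eventually_inf_principal, eventually_comap]
  refine ⟨fun h => h.mono fun x hx M hM => hx (x, M) rfl hM, fun h => h.mono ?_⟩
  rintro x hx ⟨y, M⟩ rfl hM
  exact hx M hM

theorem tendsto_fst_FA (ρ : ℝ) : Tendsto (fun z : ℝ × ℕ => z.1) (FA ρ) atTop :=
  tendsto_comap.mono_left inf_le_left

theorem adm_FA (ρ : ℝ) : ∀ᶠ z in FA ρ, Adm ρ z.1 z.2 :=
  eventually_FA.2 (Eventually.of_forall fun _ _ h => h)

/-- contribution of the tail `r` (levels `L+1, …, L+D`) to the constraint at level `i` -/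
def tb (L D r i : ℕ) : ℝ := ∑ e ∈ range D, aCoef (L + 1 + e - i) * yy r e

def TT (L D r : ℕ) : ℝ := ∑ i ∈ range (L + 1), gSeq i * tb L D r i

def Sig (ρ : ℝ) (M l : ℕ) : ℝ := ∑ k ∈ range (l + 1), gSeq k * (sl ρ M k + 2)

/-- capacity constraints (with slack `-s`) at the levels `i < k`, using the levels `≤ k'` -/
def HC (ρ B : ℝ) (M k k' n : ℕ) : Prop :=
  ∀ i < k, ∑ l ∈ Ioc i k', aCoef (l - i) * yy n l - sl ρ M i ≤ if i = 0 then B else (yy n i : ℝ)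

def u0 (x : ℝ) : ℝ := bigB x - 3 * Real.log (bigB x)

def Rough (x : ℝ) (v : ℕ) : Prop :=
  x ^ (1 / bigB x) < v ∧ ∀ a : ℕ, a ∣ v → (th (gp a) : ℝ) ≤ u0 x → (a : ℝ) < x ^ (1 / bigB x)

/-- rough and good at the levels `< k` -/
def PG (ρ x : ℝ) (M K' k n : ℕ) : Prop :=
  Rough x n.totient ∧ Good0 (xi ρ M) (bigB x) (M - K') n ∧
    ∀ i, 1 ≤ i → i < k → GoodAt (xi ρ (M - i)) (M - K' - i) (tl^[i] n)

def Canon (r : ℕ) : Prop :=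
  0 < r ∧ ∀ r' : ℕ, 0 < r' → r'.totient = r.totient → gp r < gp r' ∨ (gp r = gp r' ∧ r ≤ r')

def GoodTail (ρ : ℝ) (K' W K r : ℕ) : Prop :=
  0 < r ∧ (∀ e < K - K', GoodAt (xi ρ (K - 1 - e)) (K - 1 - e - K') (tl^[e] r)) ∧
    (tl^[K - K'] r).totient ≤ W

open Classical in
def Rfin (ρ : ℝ) (K' W K : ℕ) : Finset ℕ :=
  if h : {r : ℕ | Canon r ∧ GoodTail ρ K' W K r}.Finite then h.toFinset else ∅

/-- the main term, `sg = 1` (upper bound) or `sg = -1` (lower bound) -/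
def MT (sg ρ x : ℝ) (M K D : ℕ) (R : Finset ℕ) : ℝ :=
  ∑ r ∈ R, pw (M - K) (bigB x - TT (M - K) D r + sg * Sig ρ M (M - K)) / (r.totient * gP (M - K))

def TailOK (ξ : ℝ) (D W r : ℕ) : Prop :=
  Chain D r ∧ (∀ e < D, Normal (ξ ^ 6) (pr r e)) ∧ (tl^[D] r).totient ≤ W

/-- members (head, tail) of a lower-bound family -/
def LowH (ρ x : ℝ) (M K D W : ℕ) (z : (ℕ → ℕ) × ℕ) : Prop :=
  Head 1 (M - K) z.1 ∧ Cons (M - K) aA (fun i => sl ρ M i + tb (M - K) D z.2 i) (bigB x) z.1 ∧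
    th (z.1 1) + sl ρ M 0 ≤ bigB x ∧ (∀ i, 1 ≤ i → i < M - K → th (z.1 (i + 1)) < th (z.1 i)) ∧
    yy z.2 0 < th (z.1 (M - K)) ∧ TailOK (xi ρ K) D W z.2

/-- members `n` of a lower-bound family -/
def LowN (ρ x : ℝ) (M K D W n : ℕ) : Prop :=
  Chain (M - K + D + 1) n ∧ √x < gp n ∧ (n.totient : ℝ) ≤ x ∧
    ((tl n).totient : ℝ) ≤ x ^ (1 / bigB x) ∧
    (∀ i, M - K < i → i ≤ M - K + D → Normal (xi ρ K ^ 6) (pr n i)) ∧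
    (tl^[M - K + D + 1] n).totient ≤ W ∧
    ∀ i ≤ M - K, ∑ l ∈ Ioc i (M - K + D), aCoef (l - i) * yy n l + sl ρ M i ≤
      if i = 0 then bigB x else (yy n i : ℝ)

def TailInj (l : ℕ) (N : Finset ℕ) : Prop :=
  ∀ n ∈ N, ∀ n' ∈ N, (tl^[l] n).totient = (tl^[l] n').totient → tl^[l] n = tl^[l] n'

def FineN (ρ : ℝ) (M K n : ℕ) : Prop :=
  ∀ i ≤ M - K, (yy n i : ℝ) ≤ xi ρ (M - i) ^ 9 ∧ Normal (xi ρ (M - i) ^ 6) (pr n i)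

/-- normalised counting function -/
def Wn (x : ℝ) (M : ℕ) : ℝ := (totientCount x : ℝ) / (x / Real.log x * GG M (bigB x))

end Crest.Agent.R20

end
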