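import Crest.Agent.R20.Mat

/-!
# R20/Elim: eliminating the largest prime of the pending lines
-/

set_option autoImplicit false

open Finset Filter Topology Crest.NumberTheoryR.TotientScale

namespace Crest.Agent.R20

/-- divide the entry `(a, b)` by `r` -/
def divAt {α β : Type} [DecidableEq α] [DecidableEq β] (d : α → β → ℕ) (a : α) (b : β) (r : ℕ) :
    α → β → ℕ := fun a' b' => if a' = a ∧ b' = b then d a b / r else d a' b'

/-- multiply the entry `(a, b)` by `r` -/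
def elimMul {α β : Type} [DecidableEq α] [DecidableEq β] (d : α → β → ℕ) (a : α) (b : β) (r : ℕ) :
    α → β → ℕ := fun a' b' => if a' = a ∧ b' = b then d a b * r else d a' b'

section aux

variable {α β : Type} [DecidableEq α] [DecidableEq β]

theorem elim_mul_divAt (d : α → β → ℕ) (a : α) (b : β) {r : ℕ} (h : r ∣ d a b) :
    elimMul (divAt d a b r) a b r = d := by
  funext a' b'
  unfold elimMul divAt
  by_cases h1 : a' = a ∧ b' = b
  · obtain ⟨rfl, rfl⟩ := h1
    simp [Nat.div_mul_cancel h]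
  · simp only [if_neg h1]

theorem elim_mul_eq (d : α → β → ℕ) (a : α) (b : β) (r : ℕ) (a' : α) (b' : β) :
    elimMul d a b r a' b' = d a' b' * if a' = a ∧ b' = b then r else 1 := by
  unfold elimMul
  by_cases h1 : a' = a ∧ b' = b
  · obtain ⟨rfl, rfl⟩ := h1
    simp
  · simp only [if_neg h1, mul_one]

theorem elim_row [Fintype β] (d : α → β → ℕ) (a : α) (b : β) (r : ℕ) (a' : α) :
    rowP (elimMul d a b r) a' = rowP d a' * if a' = a then r else 1 := by
  unfold rowP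
  simp only [elim_mul_eq, prod_mul_distrib]
  congr 1
  by_cases h : a' = a <;> simp [h]

theorem elim_col [Fintype α] (d : α → β → ℕ) (a : α) (b : β) (r : ℕ) (b' : β) :
    colP (elimMul d a b r) b' = colP d b' * if b' = b then r else 1 := by
  unfold colP
  simp only [elim_mul_eq, prod_mul_distrib]
  congr 1
  by_cases h : b' = b <;> simp [h]

theorem elim_tot [Fintype α] [Fintype β] (d : α → β → ℕ) (a : α) (b : β) (r : ℕ) :
    totP (elimMul d a b r) = totP d * r := by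
  rw [totP_eq_row, totP_eq_row]
  simp only [elim_row, prod_mul_distrib]
  simp

omit [DecidableEq α] [DecidableEq β] in
theorem elim_row_pos [Fintype β] {U : α → ℕ} {U' : β → ℕ} {E : ℝ} {d : α → β → ℕ}
    (h : MatOK U U' E d) (a : α) : 0 < rowP d a :=
  prod_pos fun b _ => (h.1 a b).1.1

omit [DecidableEq α] [DecidableEq β] in
theorem elim_col_pos [Fintype α] [Fintype β] {U : α → ℕ} {U' : β → ℕ} {E : ℝ} {d : α → β → ℕ}
    (h : MatOK U U' E d) (b : β) : 0 < colP d b :=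
  prod_pos fun a _ => (h.1 a b).1.1

omit [DecidableEq α] [DecidableEq β] in
theorem elim_tot_pos [Fintype α] [Fintype β] {U : α → ℕ} {U' : β → ℕ} {E : ℝ} {d : α → β → ℕ}
    (h : MatOK U U' E d) : 0 < totP d :=
  prod_pos fun a _ => elim_row_pos h a

theorem elim_matOK [Fintype β] {U : α → ℕ} {U' : β → ℕ} {E : ℝ} {d : α → β → ℕ} {a : α} {b : β}
    {r : ℕ} (hr : 0 < r) (h : MatOK U U' E (elimMul d a b r)) : MatOK U U' E d := by
  have h1 : ∀ a' b', Sm (U a') (d a' b') ∧ Sm (U' b') (d a' b') := fun a' b' => by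
    have hd : d a' b' ∣ elimMul d a b r a' b' := by
      rw [elim_mul_eq]; exact Dvd.intro _ rfl
    exact ⟨(h.1 a' b').1.of_dvd hd, (h.1 a' b').2.of_dvd hd⟩
  refine ⟨h1, fun a' t => le_trans ?_ (h.2 a' t)⟩
  have h2 : 0 < rowP d a' := prod_pos fun b' _ => (h1 a' b').1.1
  rw [elim_row, Om_mul t h2 (by split_ifs <;> omega)]
  push_cast
  linarith [(Nat.cast_nonneg (Om t (if a' = a then r else 1)) : (0 : ℝ) ≤ _)]

theorem elim_pend [Fintype α] [Fintype β] {ξ : ℝ} {u : α → ℝ} {u' : β → ℝ} {A : Finset α}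
    {B : Finset β} {d : α → β → ℕ} {a : α} {b : β} {r : ℕ}
    (h : Pend ξ u u' A B (elimMul d a b r)) : Pend ξ u u' (A.erase a) (B.erase b) d := by
  have hr : ∀ a' ∈ A.erase a, rowP (elimMul d a b r) a' = rowP d a' := fun a' ha' => by
    rw [elim_row, if_neg (ne_of_mem_erase ha'), mul_one]
  have hc : ∀ b' ∈ B.erase b, colP (elimMul d a b r) b' = colP d b' := fun b' hb' => by
    rw [elim_col, if_neg (ne_of_mem_erase hb'), mul_one]
  refine ⟨fun a' ha' => ?_, fun b' hb' => ?_, fun a' ha' b' hb' => ?_⟩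
  · rw [← hr a' ha']; exact h.1 a' (mem_of_mem_erase ha')
  · rw [← hc b' hb']; exact h.2.1 b' (mem_of_mem_erase hb')
  · rw [← hr a' ha', ← hc b' hb']
    exact h.2.2 a' (mem_of_mem_erase ha') b' (mem_of_mem_erase hb')

omit [DecidableEq α] [DecidableEq β] in
theorem elim_gp_prime {n : ℕ} {x : ℝ} (hn : 0 < n) (hx : 1 ≤ x) (h : x ≤ th (gp n)) :
    (gp n).Prime := by
  refine gp_prime ?_
  by_contra h1
  have h2 : n = 1 := by omega
  rw [h2, gp_one, th_one] at h
  norm_num at h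
  linarith

omit [DecidableEq α] [DecidableEq β] in
/-- the largest prime of the pending lines -/
theorem elim_exists_cell [Fintype α] [Fintype β] {ξ E : ℝ} {U : α → ℕ} {U' : β → ℕ} {u : α → ℝ}
    {u' : β → ℝ} {A : Finset α} {B : Finset β} (hu : ∀ a ∈ A, 1 ≤ u a) (hu' : ∀ b ∈ B, 1 ≤ u' b)
    (hne : A.Nonempty ∨ B.Nonempty) {d : α → β → ℕ} (hM : MatOK U U' E d)
    (hP : Pend ξ u u' A B d) :
    ∃ a b, (a ∈ A ∨ b ∈ B) ∧ ∃ r : ℕ, r.Prime ∧ r ∣ d a b ∧ (∀ a' ∈ A, gp (rowP d a') ≤ r) ∧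
      ∀ b' ∈ B, gp (colP d b') ≤ r := by
  have hS : (A.image (fun a => gp (rowP d a)) ∪ B.image fun b => gp (colP d b)).Nonempty := by
    rcases hne with h | h
    · exact (h.image _).mono subset_union_left
    · exact (h.image _).mono subset_union_right
  obtain ⟨r, hr, hmax⟩ := exists_max_image _ id hS
  have h1 : ∀ a' ∈ A, gp (rowP d a') ≤ r := fun a' ha' =>
    hmax _ (mem_union_left _ (mem_image_of_mem _ ha'))
  have h2 : ∀ b' ∈ B, gp (colP d b') ≤ r := fun b' hb' =>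
    hmax _ (mem_union_right _ (mem_image_of_mem _ hb'))
  rcases mem_union.1 hr with hr | hr
  · obtain ⟨a, ha, rfl⟩ := mem_image.1 hr
    have hp := elim_gp_prime (elim_row_pos hM a) (hu a ha) (hP.1 a ha).2.2
    obtain ⟨b, -, hb⟩ := hp.prime.exists_mem_finset_dvd (s := univ) (f := fun b => d a b)
      (gp_dvd (rowP d a))
    exact ⟨a, b, Or.inl ha, _, hp, hb, h1, h2⟩
  · obtain ⟨b, hb, rfl⟩ := mem_image.1 hr
    have hp := elim_gp_prime (elim_col_pos hM b) (hu' b hb) (hP.2.1 b hb).2.2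
    obtain ⟨a, -, ha⟩ := hp.prime.exists_mem_finset_dvd (s := univ) (f := fun a => d a b)
      (gp_dvd (colP d b))
    exact ⟨a, b, Or.inr hb, _, hp, ha, h1, h2⟩

/-- the lines removed at the cell `(a, b)` -/
def elimSet [Fintype α] [Fintype β] (A : Finset α) (B : Finset β) (a : α) (b : β) (d : α → β → ℕ) :
    Finset ℕ := (if a ∈ A then {rowP d a} else ∅) ∪ if b ∈ B then {colP d b} else ∅

theorem elim_set_card [Fintype α] [Fintype β] (A : Finset α) (B : Finset β) (a : α) (b : β)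
    (d : α → β → ℕ) : (elimSet A B a b d).card ≤ 2 := by
  unfold elimSet
  refine (card_union_le _ _).trans ?_
  split_ifs <;> simp

theorem elim_mem_set [Fintype α] [Fintype β] {A : Finset α} {B : Finset β} {a : α} {b : β}
    {d : α → β → ℕ} {m : ℕ} (h : m ∈ elimSet A B a b d) :
    (a ∈ A ∧ m = rowP d a) ∨ (b ∈ B ∧ m = colP d b) := by
  unfold elimSet at h
  rcases mem_union.1 h with h | h
  · split_ifs at h with h1
    · exact Or.inl ⟨h1, mem_singleton.1 h⟩
    · simp at h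
  · split_ifs at h with h1
    · exact Or.inr ⟨h1, mem_singleton.1 h⟩
    · simp at h

theorem elim_set_ge [Fintype α] [Fintype β] {A : Finset α} {B : Finset β} {a : α} {b : β}
    {d : α → β → ℕ} (x y : ℝ) (h : a ∈ A → b ∈ B → rowP d a ≠ colP d b) :
    (if a ∈ A then x else 0) + (if b ∈ B then y else 0) ≤
      (elimSet A B a b d).card * max (if a ∈ A then x else 0) (if b ∈ B then y else 0) := by
  unfold elimSet
  by_cases ha : a ∈ A <;> by_cases hb : b ∈ B
  · simp only [if_pos ha, if_pos hb]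
    rw [← insert_eq, card_pair (h ha hb)]
    push_cast
    linarith [le_max_left x y, le_max_right x y]
  · simp [ha, hb]
  · simp [ha, hb]
  · simp [ha, hb]

theorem elim_sum_erase (A : Finset α) (u : α → ℝ) (a : α) :
    ∑ a' ∈ A, u a' = ∑ a' ∈ A.erase a, u a' + if a ∈ A then u a else 0 := by
  split_ifs with h
  · exact (sum_erase_add _ _ h).symm
  · rw [erase_eq_of_notMem h, add_zero]

theorem elim_cell [Fintype α] [Fintype β] {ξ Λ u₀ E R : ℝ} {kap : ℕ → ℝ} (hk : TopW ξ kap Λ u₀)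
    (hξ : 1 ≤ ξ) (U : α → ℕ) (U' : β → ℕ) (u : α → ℝ) (u' : β → ℝ) (A : Finset α) (B : Finset β)
    (h0 : (∃ a ∈ A, u₀ ≤ u a) ∨ u₀ ≤ 0) {c : ℕ} (hc : 0 < c) {a : α} {b : β}
    (hab : a ∈ A ∨ b ∈ B)
    (H : Bd (fun d => MatOK U U' E d ∧ Pend ξ u u' (A.erase a) (B.erase b) d)
      (fun d => rcp (totP d)) (R * Real.exp (-(∑ a' ∈ A.erase a, u a' + ∑ b' ∈ B.erase b, u' b')))) :
    Bd (fun d => (MatOK U U' E d ∧ Pend ξ u u' A B d) ∧ ∃ r : ℕ, r.Prime ∧ r ∣ d a b ∧
        (∀ a' ∈ A, gp (rowP d a') ≤ r) ∧ ∀ b' ∈ B, gp (colP d b') ≤ r)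
      (fun d => kap (c * totP d))
      (Λ / c * ξ ^ 100 * R * Real.exp (-(∑ a ∈ A, u a + ∑ b ∈ B, u' b))) := by
  set x : ℝ := if a ∈ A then u a else 0 with hx
  set y : ℝ := if b ∈ B then u' b else 0 with hy
  have hΛ := hk.1
  have hc' : (0 : ℝ) < c := by exact_mod_cast hc
  have hK : 0 ≤ Λ / c * ξ ^ 100 * Real.exp (-(x + y)) := by positivity
  have H1 := H.const_mul hK
  have H2 : Bd (fun z : (α → β → ℕ) × ℕ =>
      (MatOK U U' E z.1 ∧ Pend ξ u u' (A.erase a) (B.erase b) z.1) ∧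
        (a ∈ A → b ∈ B → rowP z.1 a ≠ colP z.1 b) ∧
        (z.2.Prime ∧ max x y ≤ th z.2 ∧ u₀ ≤ th z.2 ∧ (th z.2 : ℝ) ≤ ξ ^ 9 ∧
          ∀ m ∈ elimSet A B a b z.1, (m * z.2 + 1).Prime ∧ (th (m * z.2 + 1) : ℝ) ≤ ξ ^ 9))
      (fun z => kap (c * totP z.1 * z.2)) (Λ / c * ξ ^ 100 * Real.exp (-(x + y)) *
        (R * Real.exp (-(∑ a' ∈ A.erase a, u a' + ∑ b' ∈ B.erase b, u' b')))) := by
    refine H1.fiber Prod.fst (fun z hz => hz.1) fun d hd => ?_
    have ht := elim_tot_pos hd.1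
    have ht' : (0 : ℝ) < totP d := by exact_mod_cast ht
    by_cases hne : a ∈ A → b ∈ B → rowP d a ≠ colP d b
    · have h3 := hk.2.2.2 (c * totP d) (elimSet A B a b d) (max x y) (Nat.mul_pos hc ht)
        (elim_set_card A B a b d) fun m hm => by
          rcases elim_mem_set hm with ⟨-, rfl⟩ | ⟨-, rfl⟩
          · exact elim_row_pos hd.1 a
          · exact elim_col_pos hd.1 b
      refine (h3.of_inj Prod.snd ?_ ?_).mono (fun _ h => h) (fun _ _ => le_rfl) ?_
      · rintro ⟨d', r⟩ ⟨hz, rfl⟩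
        exact ⟨hz.2.2, le_rfl⟩
      · rintro ⟨d', r⟩ ⟨d'', r'⟩ ⟨-, rfl⟩ ⟨-, h2⟩ h
        exact Prod.ext h2.symm h
      · have h4 : Real.exp (-((elimSet A B a b d).card * max x y)) ≤ Real.exp (-(x + y)) :=
          Real.exp_le_exp.2 (neg_le_neg (elim_set_ge (u a) (u' b) hne))
        unfold rcp
        push_cast
        calc Λ * ξ ^ 100 * Real.exp (-((elimSet A B a b d).card * max x y)) / (c * totP d)
            ≤ Λ * ξ ^ 100 * Real.exp (-(x + y)) / (c * totP d) := by gcongr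
          _ = _ := by field_simp
    · refine Bd.of_empty ?_ (mul_nonneg hK (rcp_nonneg _))
      rintro ⟨d', r⟩ ⟨hz, rfl⟩
      exact hne hz.2.1
  refine (H2.of_map (fun z => elimMul z.1 a b z.2) ?_).mono (fun _ h => h) (fun _ _ => le_rfl)
    (le_of_eq ?_)
  · rintro d ⟨⟨hM, hP⟩, r, hr, hrd, h1, h2⟩
    obtain ⟨d', rfl⟩ : ∃ d', d = elimMul d' a b r := ⟨_, (elim_mul_divAt d a b hrd).symm⟩
    have hM' := elim_matOK hr.pos hM
    have er : rowP (elimMul d' a b r) a = rowP d' a * r := by rw [elim_row, if_pos rfl]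
    have ec : colP (elimMul d' a b r) b = colP d' b * r := by rw [elim_col, if_pos rfl]
    have hth : ∀ {n : ℕ}, n ≤ r → (th n : ℝ) ≤ th r := fun h => by exact_mod_cast th_mono h
    have h1' : ∀ a' ∈ A, u a' ≤ th r := fun a' ha' => (hP.1 a' ha').2.2.trans (hth (h1 a' ha'))
    have h2' : ∀ b' ∈ B, u' b' ≤ th r := fun b' hb' => (hP.2.1 b' hb').2.2.trans (hth (h2 b' hb'))
    have hr0 : (0 : ℝ) ≤ th r := Nat.cast_nonneg _
    refine ⟨(d', r), ⟨⟨hM', elim_pend hP⟩, fun ha hb he => ?_, hr, max_le ?_ ?_, ?_, ?_, ?_⟩, rfl,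
      le_of_eq ?_⟩
    · refine hP.2.2 a ha b hb ?_
      rw [er, ec]
      exact congrArg (· * r) he
    · rw [hx]; split_ifs with h
      exacts [h1' a h, hr0]
    · rw [hy]; split_ifs with h
      exacts [h2' b h, hr0]
    · rcases h0 with ⟨a', ha', h⟩ | h
      exacts [h.trans (h1' a' ha'), h.trans hr0]
    · have key : ∀ m : ℕ, 0 < m → (th (m * r + 1) : ℝ) ≤ ξ ^ 9 → (th r : ℝ) ≤ ξ ^ 9 := by
        intro m hm h
        refine le_trans ?_ h
        exact_mod_cast th_mono (show r ≤ m * r + 1 by nlinarith)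
      rcases hab with h | h
      · exact key _ (elim_row_pos hM' a) (er ▸ (hP.1 a h).2.1)
      · exact key _ (elim_col_pos hM' b) (ec ▸ (hP.2.1 b h).2.1)
    · intro m hm
      rcases elim_mem_set hm with ⟨h, rfl⟩ | ⟨h, rfl⟩
      · exact er ▸ ⟨(hP.1 a h).1, (hP.1 a h).2.1⟩
      · exact ec ▸ ⟨(hP.2.1 b h).1, (hP.2.1 b h).2.1⟩
    · simp only [elim_tot, mul_assoc]
  · rw [elim_sum_erase A u a, elim_sum_erase B u' b, ← hx, ← hy]
    rw [show -(∑ a' ∈ A.erase a, u a' + x + (∑ b' ∈ B.erase b, u' b' + y)) =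
      -(x + y) + -(∑ a' ∈ A.erase a, u a' + ∑ b' ∈ B.erase b, u' b') by ring, Real.exp_add]
    ring

end aux

/-- One step.  All pending lines have product `> 1` (as `1 ≤ u a ≤ th (gp ·)`).  Let `r` be the largest `gp` of a
pending line; it is prime and divides an entry `d a b` with `a ∈ A ∨ b ∈ B` (`Prime.exists_mem_finset_dvd`).
`Bd.biUnion` over the cells `(a, b)`; for a fixed cell use `Bd.of_map`/`Bd.fiber` with `d ↦ (d', r)`,
`d' = divAt d a b r`: `d'` is `MatOK` (`Sm.of_dvd`, `Om_mul`) and `Pend` for `A.erase a`, `B.erase b` (those lines are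
unchanged), `totP d = totP d' * r`, `rowP d a = rowP d' a * r`, `colP d b = colP d' b * r`.  For fixed `d'` apply
`TopW` with `c * totP d'`, the set `𝒜` of `rowP d' a` (if `a ∈ A`) and `colP d' b` (if `b ∈ B`) (distinct by `Pend`,
otherwise no `r` exists), and `u` the maximum of the removed `u a`, `u' b`; `th r ≤ ξ^9` as `r ≤` the line product. -/
theorem elim_step {α β : Type} [Fintype α] [Fintype β] [DecidableEq α] [DecidableEq β]
    {ξ Λ u₀ E R : ℝ} {kap : ℕ → ℝ} (hk : TopW ξ kap Λ u₀) (hξ : 1 ≤ ξ) (U : α → ℕ) (U' : β → ℕ)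
    (u : α → ℝ) (u' : β → ℝ) (A : Finset α) (B : Finset β) (hu : ∀ a ∈ A, 1 ≤ u a)
    (hu' : ∀ b ∈ B, 1 ≤ u' b)
    (h0 : (∃ a ∈ A, u₀ ≤ u a) ∨ (u₀ ≤ 0 ∧ (A.Nonempty ∨ B.Nonempty))) {c : ℕ} (hc : 0 < c)
    (hR : 0 ≤ R)
    (H : ∀ a b, (a ∈ A ∨ b ∈ B) →
      Bd (fun d => MatOK U U' E d ∧ Pend ξ u u' (A.erase a) (B.erase b) d) (fun d => rcp (totP d))
        (R * Real.exp (-(∑ a' ∈ A.erase a, u a' + ∑ b' ∈ B.erase b, u' b')))) :
    Bd (fun d => MatOK U U' E d ∧ Pend ξ u u' A B d) (fun d => kap (c * totP d))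
      (Λ / c * (Fintype.card α * Fintype.card β * ξ ^ 100) * R *
        Real.exp (-(∑ a ∈ A, u a + ∑ b ∈ B, u' b))) := by
  have hne : A.Nonempty ∨ B.Nonempty := by
    rcases h0 with ⟨a, ha, -⟩ | h
    exacts [Or.inl ⟨a, ha⟩, h.2]
  have h0' : (∃ a ∈ A, u₀ ≤ u a) ∨ u₀ ≤ 0 := h0.imp id fun h => h.1
  have h1 := Bd.biUnion (univ.filter fun z : α × β => z.1 ∈ A ∨ z.2 ∈ B) fun z hz =>
    elim_cell hk hξ U U' u u' A B h0' hc (mem_filter.1 hz).2 (H z.1 z.2 (mem_filter.1 hz).2)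
  refine h1.mono ?_ (fun _ _ => le_rfl) ?_
  · rintro d ⟨hM, hP⟩
    obtain ⟨a, b, hab, h⟩ := elim_exists_cell hu hu' hne hM hP
    exact ⟨(a, b), mem_filter.2 ⟨mem_univ _, hab⟩, ⟨hM, hP⟩, h⟩
  · rw [sum_const, nsmul_eq_mul]
    have hΛ := hk.1
    have h2 : ((univ.filter fun z : α × β => z.1 ∈ A ∨ z.2 ∈ B).card : ℝ) ≤
        Fintype.card α * Fintype.card β := by
      have := card_le_univ (univ.filter fun z : α × β => z.1 ∈ A ∨ z.2 ∈ B)
      rw [Fintype.card_prod] at this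
      exact_mod_cast this
    calc _ ≤ (Fintype.card α * Fintype.card β : ℝ) *
          (Λ / c * ξ ^ 100 * R * Real.exp (-(∑ a ∈ A, u a + ∑ b ∈ B, u' b))) := by
          refine mul_le_mul_of_nonneg_right h2 ?_
          positivity
      _ = _ := by ring

/-- Induction on `|A| + |B| ≤ n` with `elim_step` for `kap = rcp`, `c = 1`; use `S = max 1 (|α| |β| ξ^100)`. -/
theorem elim_rcp {α β : Type} [Fintype α] [Fintype β] [DecidableEq α] [DecidableEq β] [Nonempty α]
    [Nonempty β] {ξ E base : ℝ} (h1 : TopW ξ rcp 1 0) (hξ : 1 ≤ ξ) (U : α → ℕ) (U' : β → ℕ)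
    (u : α → ℝ) (u' : β → ℝ) (hb : Bd (MatOK U U' E) (fun d => rcp (totP d)) base) (n : ℕ)
    (A : Finset α) (B : Finset β) (hn : A.card + B.card ≤ n) (hu : ∀ a ∈ A, 1 ≤ u a)
    (hu' : ∀ b ∈ B, 1 ≤ u' b) :
    Bd (fun d => MatOK U U' E d ∧ Pend ξ u u' A B d) (fun d => rcp (totP d))
      ((Fintype.card α * Fintype.card β * ξ ^ 100) ^ n * base *
        Real.exp (-(∑ a ∈ A, u a + ∑ b ∈ B, u' b))) := by
  have hb0 := hb.nonneg
  have hS : (1 : ℝ) ≤ Fintype.card α * Fintype.card β * ξ ^ 100 := by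
    have h2 : (1 : ℝ) ≤ Fintype.card α := by exact_mod_cast Fintype.card_pos
    have h3 : (1 : ℝ) ≤ Fintype.card β := by exact_mod_cast Fintype.card_pos
    exact one_le_mul_of_one_le_of_one_le (one_le_mul_of_one_le_of_one_le h2 h3) (one_le_pow₀ hξ)
  have hemp : ∀ n : ℕ, Bd (fun d => MatOK U U' E d ∧ Pend ξ u u' ∅ ∅ d) (fun d => rcp (totP d))
      ((Fintype.card α * Fintype.card β * ξ ^ 100) ^ n * base *
        Real.exp (-(∑ a ∈ (∅ : Finset α), u a + ∑ b ∈ (∅ : Finset β), u' b))) := by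
    intro n
    refine hb.mono (fun _ h => h.1) (fun _ _ => le_rfl) ?_
    simp only [sum_empty, add_zero, neg_zero, Real.exp_zero, mul_one]
    exact le_mul_of_one_le_left hb0 (one_le_pow₀ hS)
  induction n generalizing A B with
  | zero =>
    obtain rfl : A = ∅ := card_eq_zero.1 (by omega)
    obtain rfl : B = ∅ := card_eq_zero.1 (by omega)
    exact hemp 0
  | succ n ih =>
    by_cases hne : A.Nonempty ∨ B.Nonempty
    · have h2 := elim_step h1 hξ U U' u u' A B hu hu' (Or.inr ⟨le_rfl, hne⟩) (c := 1) one_pos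
        (R := (Fintype.card α * Fintype.card β * ξ ^ 100) ^ n * base) (by positivity)
        fun a b hab => ih (A.erase a) (B.erase b) (by
            have h3 := card_erase_le (s := A) (a := a)
            have h4 := card_erase_le (s := B) (a := b)
            rcases hab with h | h
            · have := card_erase_lt_of_mem h; omega
            · have := card_erase_lt_of_mem h; omega)
          (fun a' ha' => hu a' (mem_of_mem_erase ha')) fun b' hb' => hu' b' (mem_of_mem_erase hb')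
      refine h2.mono (fun _ h => h) (fun _ _ => by rw [one_mul]) (le_of_eq ?_)
      push_cast
      ring
    · rw [not_or, not_nonempty_iff_eq_empty, not_nonempty_iff_eq_empty] at hne
      obtain ⟨rfl, rfl⟩ := hne
      exact hemp _

theorem elim {α β : Type} [Fintype α] [Fintype β] [DecidableEq α] [DecidableEq β] [Nonempty α]
    [Nonempty β] {ξ Λ u₀ E base : ℝ} {kap : ℕ → ℝ} (hk : TopW ξ kap Λ u₀) (h1 : TopW ξ rcp 1 0)
    (hξ : 1 ≤ ξ) (U : α → ℕ) (U' : β → ℕ) (u : α → ℝ) (u' : β → ℝ)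
    (hb : Bd (MatOK U U' E) (fun d => rcp (totP d)) base) (n : ℕ) (A : Finset α) (B : Finset β)
    (hn : A.card + B.card ≤ n) (hu : ∀ a ∈ A, 1 ≤ u a) (hu' : ∀ b ∈ B, 1 ≤ u' b)
    (h0 : ∃ a ∈ A, u₀ ≤ u a) {c : ℕ} (hc : 0 < c) :
    Bd (fun d => MatOK U U' E d ∧ Pend ξ u u' A B d) (fun d => kap (c * totP d))
      (Λ / c * (Fintype.card α * Fintype.card β * ξ ^ 100) ^ (n + 1) * base *
        Real.exp (-(∑ a ∈ A, u a + ∑ b ∈ B, u' b))) := by
  have hb0 := hb.nonneg
  have h2 := elim_step hk hξ U U' u u' A B hu hu' (Or.inl h0) hc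
    (R := (Fintype.card α * Fintype.card β * ξ ^ 100) ^ n * base) (by positivity)
    fun a b _ => elim_rcp h1 hξ U U' u u' hb n (A.erase a) (B.erase b) (by
        have h3 := card_erase_le (s := A) (a := a)
        have h4 := card_erase_le (s := B) (a := b)
        omega)
      (fun a' ha' => hu a' (mem_of_mem_erase ha')) fun b' hb' => hu' b' (mem_of_mem_erase hb')
  refine h2.mono (fun _ h => h) (fun _ _ => le_rfl) (le_of_eq ?_)
  ring

end Crest.Agent.R20
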