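import Crest.Agent.R20.Main

/-!
# R20/Final: the two statements
-/

set_option autoImplicit false

open Finset Filter Topology Crest.NumberTheoryR.TotientScale

namespace Crest.Agent.R20

variable {ρ : ℝ}

theorem adm_mIndex (hρ : IsRho ρ) : ∀ᶠ x : ℝ in atTop, Adm ρ x (mIndex ρ x) ∧
    phase ρ x ∈ Set.Ico (0 : ℝ) 1 := by
  filter_upwards [(tendsto_phaseArg hρ).eventually_ge_atTop 0] with x hx
  have h1 : (mIndex ρ x : ℝ) ≤ phaseArg ρ x := Nat.floor_le hx
  have h2 : phaseArg ρ x < mIndex ρ x + 1 := Nat.lt_floor_add_one _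
  refine ⟨⟨h1, by linarith⟩, ?_, ?_⟩
  · unfold phase; linarith
  · unfold phase; linarith

/-- `phaseArg ρ` is continuous on `Ici X` for large `X` and tends to `∞`; intermediate value theorem for the value
`N + s`, `N` large -/
theorem phase_surj (hρ : IsRho ρ) {s : ℝ} (hs : s ∈ Set.Ico (0 : ℝ) 1) :
    ∃ᶠ x : ℝ in atTop, phase ρ x = s := by
  rw [frequently_atTop]
  intro a
  obtain ⟨X, hX⟩ := eventually_atTop.1 ((eventually_gt_atTop (1 : ℝ)).and
    ((tendsto_bigB.eventually_gt_atTop 1).and (eventually_ge_atTop a)))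
  have hcont : ContinuousOn (phaseArg ρ) (Set.Ici X) := by
    intro x hx
    obtain ⟨h1, h2, -⟩ := hX x hx
    have hl : 0 < Real.log x := Real.log_pos h1
    have hB : ContinuousAt bigB x :=
      (Real.continuousAt_log (by linarith : x ≠ 0)).log hl.ne'
    have hlB : 0 < Real.log (bigB x) := Real.log_pos h2
    have hB' : ContinuousAt (fun y => Real.log (bigB y)) x := hB.log (by linarith)
    exact ((hB'.sub (hB'.log hlB.ne')).div_const _).continuousWithinAt
  set N : ℕ := ⌈phaseArg ρ X⌉₊ with hN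
  have hN1 : phaseArg ρ X ≤ N := Nat.le_ceil _
  obtain ⟨Y, hY, hXY⟩ := (((tendsto_phaseArg hρ).eventually_ge_atTop (N + s)).and
    (eventually_ge_atTop X)).exists
  obtain ⟨b, hb, hbv⟩ := intermediate_value_Icc hXY (hcont.mono Set.Icc_subset_Ici_self)
    (show (N : ℝ) + s ∈ Set.Icc (phaseArg ρ X) (phaseArg ρ Y) from ⟨by linarith [hs.1], hY⟩)
  refine ⟨b, (hX b hb.1).2.2, ?_⟩
  have hm : mIndex ρ b = N := by
    unfold mIndex
    rw [hbv, Nat.floor_eq_iff (by have := hs.1; positivity)]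
    exact ⟨by linarith [hs.1], by linarith [hs.2]⟩
  unfold phase
  rw [hm, hbv]
  ring

/-- `A_n` from `main_approx (1/(n+1))`; by `phase_surj`, `|A_n s - A_m s| ≤ 1/(n+1) + 1/(m+1)` on `[0,1)`;
`A s = limUnder atTop (A_· s)`, `|A s - A_n s| ≤ 1/(n+1)`, `c ≤ A s ≤ C` -/
theorem final27 (hρ : IsRho ρ) :
    ∃ A : ℝ → ℝ, (∃ c₁ c₂ : ℝ, 0 < c₁ ∧ ∀ s ∈ Set.Ico (0 : ℝ) 1, c₁ ≤ A s ∧ A s ≤ c₂) ∧
      Tendsto (fun x : ℝ =>
          (totientCount x : ℝ) / (x / Real.log x * scaleG ρ x * A (phase ρ x)))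
        atTop (𝓝 1) := by
  obtain ⟨c, C, hc, hb⟩ := main_bounds hρ
  have hpos : ∀ n : ℕ, (0 : ℝ) < 1 / ((n : ℝ) + 1) := fun n => by positivity
  choose An hAn using fun n : ℕ => main_approx hρ (hpos n)
  have hE : ∀ n : ℕ, ∀ᶠ x : ℝ in atTop,
      |Wn x (mIndex ρ x) - An n (phase ρ x)| ≤ 1 / ((n : ℝ) + 1) := fun n => by
    filter_upwards [eventually_FA.1 (hAn n).2, adm_mIndex hρ] with x hx hx'
    exact hx _ hx'.1
  have hB : ∀ᶠ x : ℝ in atTop, c ≤ Wn x (mIndex ρ x) ∧ Wn x (mIndex ρ x) ≤ C := by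
    filter_upwards [eventually_FA.1 hb, adm_mIndex hρ] with x hx hx'
    exact hx _ hx'.1
  have h0 : Tendsto (fun n : ℕ => 1 / ((n : ℝ) + 1)) atTop (𝓝 0) :=
    tendsto_one_div_add_atTop_nhds_zero_nat
  have hd : ∀ s ∈ Set.Ico (0 : ℝ) 1, ∀ n m : ℕ,
      |An n s - An m s| ≤ 1 / ((n : ℝ) + 1) + 1 / ((m : ℝ) + 1) := by
    intro s hs n m
    obtain ⟨x, hx, h1, h2⟩ := ((phase_surj hρ hs).and_eventually ((hE n).and (hE m))).exists
    rw [hx] at h1 h2
    rw [abs_le] at h1 h2 ⊢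
    constructor <;> linarith [h1.1, h1.2, h2.1, h2.2]
  have hlim : ∀ s ∈ Set.Ico (0 : ℝ) 1,
      Tendsto (fun n => An n s) atTop (𝓝 (limUnder atTop fun n => An n s)) := by
    intro s hs
    refine CauchySeq.tendsto_limUnder ?_
    refine cauchySeq_of_le_tendsto_0' (fun n : ℕ => 2 * (1 / ((n : ℝ) + 1))) (fun n m hnm => ?_) ?_
    · rw [Real.dist_eq]
      have : 1 / ((m : ℝ) + 1) ≤ 1 / ((n : ℝ) + 1) :=
        one_div_le_one_div_of_le (by positivity) (by exact_mod_cast Nat.succ_le_succ hnm)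
      linarith [hd s hs n m]
    · simpa using h0.const_mul 2
  set A : ℝ → ℝ := fun s => limUnder atTop fun n => An n s with hA
  have hAA : ∀ s ∈ Set.Ico (0 : ℝ) 1, ∀ n : ℕ, |An n s - A s| ≤ 1 / ((n : ℝ) + 1) := by
    intro s hs n
    have h1 : Tendsto (fun m => |An n s - An m s|) atTop (𝓝 |An n s - A s|) :=
      (tendsto_const_nhds.sub (hlim s hs)).abs
    have h2 : Tendsto (fun m : ℕ => 1 / ((n : ℝ) + 1) + 1 / ((m : ℝ) + 1)) atTop
        (𝓝 (1 / ((n : ℝ) + 1) + 0)) := tendsto_const_nhds.add h0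
    rw [add_zero] at h2
    exact le_of_tendsto_of_tendsto' h1 h2 (hd s hs n)
  have hbd : ∀ s ∈ Set.Ico (0 : ℝ) 1, c ≤ A s ∧ A s ≤ C := by
    intro s hs
    have key : ∀ n : ℕ, c - 2 * (1 / ((n : ℝ) + 1)) ≤ A s ∧ A s ≤ C + 2 * (1 / ((n : ℝ) + 1)) := by
      intro n
      obtain ⟨x, hx, h1, h2⟩ := ((phase_surj hρ hs).and_eventually ((hE n).and hB)).exists
      rw [hx] at h1
      have h3 := hAA s hs n
      rw [abs_le] at h1 h3
      constructor <;> linarith [h1.1, h1.2, h2.1, h2.2, h3.1, h3.2]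
    constructor
    · have : Tendsto (fun n : ℕ => c - 2 * (1 / ((n : ℝ) + 1))) atTop (𝓝 (c - 2 * 0)) :=
        tendsto_const_nhds.sub (h0.const_mul 2)
      simpa using le_of_tendsto' this fun n => (key n).1
    · have : Tendsto (fun n : ℕ => C + 2 * (1 / ((n : ℝ) + 1))) atTop (𝓝 (C + 2 * 0)) :=
        tendsto_const_nhds.add (h0.const_mul 2)
      simpa using ge_of_tendsto' this fun n => (key n).2
  refine ⟨A, ⟨c, C, hc, hbd⟩, ?_⟩
  have hform : ∀ x : ℝ, (totientCount x : ℝ) / (x / Real.log x * scaleG ρ x * A (phase ρ x)) =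
      Wn x (mIndex ρ x) / A (phase ρ x) := fun x => by
    rw [div_mul_eq_div_div]
    rfl
  simp only [hform]
  rw [Metric.tendsto_nhds]
  intro ε hε
  obtain ⟨n, hn⟩ := (h0.eventually (gt_mem_nhds (show (0 : ℝ) < ε * c / 2 by positivity))).exists
  filter_upwards [hE n, adm_mIndex hρ] with x hx hx'
  have h1 := hAA _ hx'.2 n
  have h2 := (hbd _ hx'.2).1
  have h3 : 0 < A (phase ρ x) := lt_of_lt_of_le hc h2
  rw [Real.dist_eq, div_sub_one h3.ne', abs_div, abs_of_pos h3, div_lt_iff₀ h3]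
  have h4 : |Wn x (mIndex ρ x) - A (phase ρ x)| ≤ 2 * (1 / ((n : ℝ) + 1)) := by
    rw [abs_le] at hx h1 ⊢
    constructor <;> linarith [hx.1, hx.2, h1.1, h1.2]
  nlinarith

theorem Final_div {f g : ℝ → ℝ} {a : ℝ} (hf : Tendsto f atTop atTop)
    (h : Tendsto (fun x => g x - f x) atTop (𝓝 a)) : Tendsto (fun x => g x / f x) atTop (𝓝 1) := by
  have h1 := (h.div_atTop hf).const_add 1
  rw [add_zero] at h1
  refine h1.congr' ?_
  filter_upwards [hf.eventually_gt_atTop 0] with x hx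
  field_simp
  ring

theorem Final_log_sub {f g : ℝ → ℝ} {a : ℝ} (hf : Tendsto f atTop atTop)
    (h : Tendsto (fun x => g x - f x) atTop (𝓝 a)) :
    Tendsto (fun x => Real.log (g x) - Real.log (f x)) atTop (𝓝 0) := by
  have h1 := Final_div hf h
  have h2 := h1.log one_ne_zero
  rw [Real.log_one] at h2
  refine h2.congr' ?_
  filter_upwards [hf.eventually_gt_atTop 0, h1.eventually (lt_mem_nhds zero_lt_one)] with x hx hx'
  have hg : 0 < g x := by
    have := mul_pos hx' hx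
    rwa [div_mul_cancel₀ _ hx.ne'] at this
  rw [Real.log_div hg.ne' hx.ne']

theorem tendsto_bigB_sub {c : ℝ} (hc : 0 < c) :
    Tendsto (fun x : ℝ => bigB (c * x) - bigB x) atTop (𝓝 0) := by
  refine Final_log_sub Real.tendsto_log_atTop (a := Real.log c) ?_
  refine tendsto_const_nhds.congr' ?_
  filter_upwards [eventually_gt_atTop (0 : ℝ)] with x hx
  rw [Real.log_mul hc.ne' hx.ne']
  ring

theorem tendsto_phase_sub (hρ : IsRho ρ) {c : ℝ} (hc : 0 < c) :
    Tendsto (fun x : ℝ => phaseArg ρ (c * x) - phaseArg ρ x) atTop (𝓝 0) := by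
  have h1 := Final_log_sub tendsto_bigB (tendsto_bigB_sub hc)
  have h2 := Final_log_sub (Real.tendsto_log_atTop.comp tendsto_bigB) h1
  have h3 := (h1.sub h2).div_const (lam ρ)
  simp only [sub_zero, zero_div] at h3
  refine h3.congr fun x => ?_
  simp only [phaseArg, Function.comp]
  ring

/-- `|M log (B'/B)| ≤ M |B' - B| / min B B'` and `M ≤ B` -/
theorem tendsto_GG_ratio (hρ : IsRho ρ) {c : ℝ} (hc : 0 < c) :
    Tendsto (fun x : ℝ => GG (mIndex ρ x - 1) (bigB (c * x)) / GG (mIndex ρ x - 1) (bigB x))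
      atTop (𝓝 1) := by
  have hl := lam_pos hρ
  have hcx : Tendsto (fun x : ℝ => c * x) atTop atTop := tendsto_id.const_mul_atTop hc
  have hsub := tendsto_bigB_sub hc
  have h1 : Tendsto (fun x : ℝ => ((mIndex ρ x - 1 : ℕ) : ℝ) *
      Real.log (bigB (c * x) / bigB x)) atTop (𝓝 0) := by
    have h2 : Tendsto (fun x : ℝ => 2 / lam ρ * |bigB (c * x) - bigB x|) atTop (𝓝 0) := by
      simpa using hsub.abs.const_mul (2 / lam ρ)
    refine squeeze_zero_norm' ?_ h2
    filter_upwards [tendsto_bigB.eventually_ge_atTop 2,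
      hsub.abs.eventually (gt_mem_nhds (show |(0 : ℝ)| < 1 by simp)),
      eventually_FA.1 (M_le hρ), adm_mIndex hρ] with x hB hd hM ha
    have hM1 := (hM _ ha.1).1
    set B := bigB x
    set B' := bigB (c * x)
    have hB0 : 0 < B := by linarith
    have hd' := abs_lt.1 hd
    have hB' : B / 2 ≤ B' := by linarith [hd'.1]
    have hB'0 : 0 < B' := by linarith
    have hM2 : ((mIndex ρ x - 1 : ℕ) : ℝ) ≤ B / lam ρ := by
      rw [le_div_iff₀ hl]
      have h3 : ((mIndex ρ x - 1 : ℕ) : ℝ) ≤ mIndex ρ x := by exact_mod_cast Nat.sub_le _ _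
      have h4 := Real.log_le_sub_one_of_pos hB0
      nlinarith
    have hlog : |Real.log (B' / B)| ≤ 2 * |B' - B| / B := by
      have hy : 0 < B' / B := div_pos hB'0 hB0
      have u1 := Real.log_le_sub_one_of_pos hy
      have u2 := Real.one_sub_inv_le_log_of_pos hy
      have e1 : B' / B - 1 = (B' - B) / B := by field_simp
      have e2 : 1 - (B' / B)⁻¹ = (B' - B) / B' := by field_simp
      have a1 := le_abs_self (B' - B)
      have a2 := neg_abs_le (B' - B)
      have a0 := abs_nonneg (B' - B)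
      rw [abs_le]
      constructor
      · refine le_trans ?_ u2
        rw [e2, neg_le, ← neg_div, div_le_div_iff₀ hB'0 hB0]
        nlinarith
      · refine u1.trans ?_
        rw [e1]
        exact div_le_div_of_nonneg_right (by linarith) hB0.le
    rw [Real.norm_eq_abs, abs_mul, Nat.abs_cast]
    calc ((mIndex ρ x - 1 : ℕ) : ℝ) * |Real.log (B' / B)| ≤ B / lam ρ * (2 * |B' - B| / B) :=
          mul_le_mul hM2 hlog (abs_nonneg _) (by positivity)
      _ = 2 / lam ρ * |B' - B| := by field_simp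
  have h2 := (Real.continuous_exp.tendsto 0).comp h1
  rw [Real.exp_zero] at h2
  refine h2.congr' ?_
  filter_upwards [tendsto_bigB.eventually_gt_atTop 0,
    (tendsto_bigB.comp hcx).eventually_gt_atTop 0] with x hB hB'
  have hB'' : 0 < bigB (c * x) := hB'
  have hg := gP_pos (mIndex ρ x - 1)
  have hf : (0 : ℝ) < (mIndex ρ x - 1).factorial := by exact_mod_cast Nat.factorial_pos _
  simp only [Function.comp]
  rw [← Real.log_pow, Real.exp_log (pow_pos (div_pos hB'' hB) _), div_pow]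
  unfold GG
  field_simp

theorem Final_adm (hρ : IsRho ρ) {c : ℝ} (hc : 0 < c) :
    ∀ᶠ x : ℝ in atTop, Adm ρ x (mIndex ρ x - 1) ∧ Adm ρ (c * x) (mIndex ρ x - 1) := by
  filter_upwards [(tendsto_phaseArg hρ).eventually_ge_atTop 1,
    Metric.tendsto_nhds.1 (tendsto_phase_sub hρ hc) 1 one_pos] with x hx hd
  have h1 : (mIndex ρ x : ℝ) ≤ phaseArg ρ x := Nat.floor_le (by linarith)
  have h2 : phaseArg ρ x < mIndex ρ x + 1 := Nat.lt_floor_add_one _
  have h3 : 1 ≤ mIndex ρ x := Nat.le_floor (by simpa using hx)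
  have h4 : ((mIndex ρ x - 1 : ℕ) : ℝ) = mIndex ρ x - 1 := by
    rw [Nat.cast_sub h3, Nat.cast_one]
  rw [Real.dist_eq, sub_zero, abs_lt] at hd
  unfold Adm
  rw [h4]
  refine ⟨⟨by linarith, by linarith⟩, by linarith [hd.1], by linarith [hd.2]⟩

/-- `M = mIndex ρ x - 1` is admissible for `x` and `c x`; uniform continuity of `A_ε` on `[0, 3]`
(`IsCompact.uniformContinuousOn_of_continuous`) gives `Wn (c x) M - Wn x M → 0`; `main_bounds` -/
theorem tendsto_Wn_ratio (hρ : IsRho ρ) {c : ℝ} (hc : 0 < c) :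
    Tendsto (fun x : ℝ => Wn (c * x) (mIndex ρ x - 1) / Wn x (mIndex ρ x - 1)) atTop (𝓝 1) := by
  obtain ⟨c₀, C, hc₀, hb⟩ := main_bounds hρ
  have hcx : Tendsto (fun x : ℝ => c * x) atTop atTop := tendsto_id.const_mul_atTop hc
  rw [Metric.tendsto_nhds]
  intro ε hε
  have hε' : 0 < ε * c₀ / 4 := by positivity
  obtain ⟨A, hA, hW⟩ := main_approx hρ hε'
  obtain ⟨δ, hδ, hu⟩ := Metric.uniformContinuousOn_iff.1
    ((isCompact_Icc (a := (0 : ℝ)) (b := 3)).uniformContinuousOn_of_continuous hA.continuousOn) _ hε'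
  filter_upwards [Final_adm hρ hc, eventually_FA.1 hW, hcx.eventually (eventually_FA.1 hW),
    eventually_FA.1 hb, Metric.tendsto_nhds.1 (tendsto_phase_sub hρ hc) δ hδ] with x ha h1 h2 h3 h4
  have h1' := h1 _ ha.1
  have h2' := h2 _ ha.2
  have h3' := (h3 _ ha.1).1
  have h5 := hu (phaseArg ρ (c * x) - (mIndex ρ x - 1 : ℕ))
    ⟨by linarith [ha.2.1], by linarith [ha.2.2]⟩ (phaseArg ρ x - (mIndex ρ x - 1 : ℕ))
    ⟨by linarith [ha.1.1], by linarith [ha.1.2]⟩ (by
      rw [Real.dist_eq] at h4 ⊢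
      simpa using h4)
  have h6 : 0 < Wn x (mIndex ρ x - 1) := lt_of_lt_of_le hc₀ h3'
  rw [Real.dist_eq] at h5
  rw [Real.dist_eq, div_sub_one h6.ne', abs_div, abs_of_pos h6, div_lt_iff₀ h6]
  have h7 : |Wn (c * x) (mIndex ρ x - 1) - Wn x (mIndex ρ x - 1)| ≤ 3 * (ε * c₀ / 4) := by
    have h5' := abs_lt.1 h5
    rw [abs_le] at h1' h2' ⊢
    constructor <;> linarith [h1'.1, h1'.2, h2'.1, h2'.2, h5'.1, h5'.2]
  nlinarith

/-- `exists_isRho`; `V(cx)/V(x) = c (log x / log (c x)) (G_M(B')/G_M(B)) (Wn (c x) M / Wn x M)` -/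
theorem final26 {c : ℝ} (hc : 0 < c) :
    Tendsto (fun x : ℝ => (totientCount (c * x) : ℝ) / (totientCount x : ℝ)) atTop (𝓝 c) := by
  obtain ⟨ρ, hρ⟩ := exists_isRho
  obtain ⟨c₀, C, hc₀, hb⟩ := main_bounds hρ
  have hcx : Tendsto (fun x : ℝ => c * x) atTop atTop := tendsto_id.const_mul_atTop hc
  have hlog : Tendsto (fun x : ℝ => Real.log (c * x) / Real.log x) atTop (𝓝 1) := by
    refine Final_div Real.tendsto_log_atTop (a := Real.log c) ?_
    refine tendsto_const_nhds.congr' ?_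
    filter_upwards [eventually_gt_atTop (0 : ℝ)] with x hx
    rw [Real.log_mul hc.ne' hx.ne']
    ring
  have h := (((hlog.inv₀ one_ne_zero).const_mul c).mul (tendsto_GG_ratio hρ hc)).mul
    (tendsto_Wn_ratio hρ hc)
  simp only [inv_one, mul_one] at h
  refine h.congr' ?_
  filter_upwards [Final_adm hρ hc, eventually_FA.1 hb, eventually_gt_atTop (1 : ℝ),
    hcx.eventually_gt_atTop 1, tendsto_bigB.eventually_gt_atTop 0,
    (tendsto_bigB.comp hcx).eventually_gt_atTop 0] with x ha h1 hx hx' hB hB'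
  have hB'' : 0 < bigB (c * x) := hB'
  have h2 : 0 < Wn x (mIndex ρ x - 1) := lt_of_lt_of_le hc₀ (h1 _ ha.1).1
  have l1 : 0 < Real.log x := Real.log_pos hx
  have l2 : 0 < Real.log (c * x) := Real.log_pos hx'
  have g1 := GG_pos (mIndex ρ x - 1) hB
  have g2 := GG_pos (mIndex ρ x - 1) hB''
  have hx0 : 0 < x := by linarith
  have hV : (totientCount x : ℝ) ≠ 0 := by
    intro h0
    simp [Wn, h0] at h2
  unfold Wn
  field_simp

end Crest.Agent.R20
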