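import Crest.Agent.R20.Theta

/-!
# R20/Gp: greatest prime factors, chains
-/

set_option autoImplicit false

open Finset Filter Topology Crest.NumberTheoryR.TotientScale

namespace Crest.Agent.R20

theorem gp_one : gp 1 = 1 := by
  simp [gp]

theorem gp_pos (n : ℕ) : 1 ≤ gp n := by
  exact le_max_left _ _

theorem Gp_mem {n : ℕ} (hn : 1 < n) : gp n ∈ n.primeFactors := by
  obtain ⟨q, hq, e⟩ := Finset.exists_mem_eq_sup n.primeFactors (Nat.nonempty_primeFactors.2 hn) id
  have h1 : 1 ≤ q := (Nat.prime_of_mem_primeFactors hq).one_le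
  rw [gp, e, id, max_eq_right h1]
  exact hq

theorem gp_prime {n : ℕ} (hn : 1 < n) : (gp n).Prime := by
  exact Nat.prime_of_mem_primeFactors (Gp_mem hn)

theorem gp_dvd (n : ℕ) : gp n ∣ n := by
  rcases Nat.lt_trichotomy n 1 with h | rfl | h
  · obtain rfl : n = 0 := by omega
    exact dvd_zero _
  · rw [gp_one]
  · exact Nat.dvd_of_mem_primeFactors (Gp_mem h)

theorem le_gp {n q : ℕ} (hn : 0 < n) (hq : q.Prime) (h : q ∣ n) : q ≤ gp n := by
  exact le_max_of_le_right (Finset.le_sup (f := id) (Nat.mem_primeFactors.2 ⟨hq, h, hn.ne'⟩))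

theorem gp_le_iff {n t : ℕ} (hn : 0 < n) (ht : 1 ≤ t) : gp n ≤ t ↔ ∀ q : ℕ, q.Prime → q ∣ n → q ≤ t := by
  refine ⟨fun h q hq hd => (le_gp hn hq hd).trans h, fun h => max_le ht (Finset.sup_le fun q hq => ?_)⟩
  exact h q (Nat.prime_of_mem_primeFactors hq) (Nat.dvd_of_mem_primeFactors hq)

theorem gp_le_self {n : ℕ} (hn : 0 < n) : gp n ≤ n := by
  exact Nat.le_of_dvd hn (gp_dvd n)

theorem gp_le_of_dvd {a n : ℕ} (hn : 0 < n) (h : a ∣ n) : gp a ≤ gp n := by
  exact (gp_le_iff (Nat.pos_of_dvd_of_pos h hn) (gp_pos n)).2 fun q hq hd => le_gp hn hq (hd.trans h)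

theorem gp_of_prime {p : ℕ} (hp : p.Prime) : gp p = p := by
  exact le_antisymm (gp_le_self hp.pos) (le_gp hp.pos hp dvd_rfl)

theorem gp_mul_tl (n : ℕ) : gp n * tl n = n := by
  exact Nat.mul_div_cancel' (gp_dvd n)

theorem tl_one : tl 1 = 1 := by
  simp [tl, gp_one]

theorem tl_pos {n : ℕ} (hn : 0 < n) : 0 < tl n := by
  exact Nat.div_pos (gp_le_self hn) (gp_pos n)

theorem tl_dvd (n : ℕ) : tl n ∣ n := by
  exact Nat.div_dvd_of_dvd (gp_dvd n)

theorem gp_tl_le {n : ℕ} (hn : 0 < n) : gp (tl n) ≤ gp n := by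
  exact gp_le_of_dvd hn (tl_dvd n)

theorem gp_tl_eq {n : ℕ} (hn : 0 < n) (h : gp n ∣ tl n) : gp (tl n) = gp n := by
  refine le_antisymm (gp_tl_le hn) ?_
  rcases Nat.eq_or_lt_of_le (Nat.succ_le_of_lt hn) with h1 | h1
  · rw [← h1]
    exact (gp_one.trans_le (gp_pos _))
  · exact le_gp (tl_pos hn) (gp_prime h1) h

theorem gp_mul_prime {p m : ℕ} (hp : p.Prime) (hm : 0 < m) (h : gp m ≤ p) :
    gp (p * m) = p ∧ tl (p * m) = m := by
  have hpm : 0 < p * m := Nat.mul_pos hp.pos hm
  have e : gp (p * m) = p := by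
    refine le_antisymm ((gp_le_iff hpm hp.one_le).2 fun q hq hd => ?_)
      (le_gp hpm hp (dvd_mul_right p m))
    rcases (Nat.Prime.dvd_mul hq).1 hd with h1 | h1
    · exact Nat.le_of_dvd hp.pos h1
    · exact (le_gp hm hq h1).trans h
  exact ⟨e, by rw [tl, e, Nat.mul_div_cancel_left _ hp.pos]⟩

theorem iter_pos {n : ℕ} (hn : 0 < n) (k : ℕ) : 0 < tl^[k] n := by
  induction k with
  | zero => exact hn
  | succ k ih =>
    rw [Function.iterate_succ_apply']
    exact tl_pos ih

theorem iter_dvd (n k : ℕ) : tl^[k] n ∣ n := by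
  induction k with
  | zero => exact dvd_rfl
  | succ k ih =>
    rw [Function.iterate_succ_apply']
    exact (tl_dvd _).trans ih

theorem iter_iter (n i d : ℕ) : tl^[d] (tl^[i] n) = tl^[i + d] n := by
  rw [add_comm, Function.iterate_add_apply]

theorem iter_succ (n i : ℕ) : tl^[i + 1] n = tl (tl^[i] n) := by
  exact Function.iterate_succ_apply' _ _ _

theorem pr_zero (n : ℕ) : pr n 0 = gp n := by
  rfl

theorem pr_iter (n i d : ℕ) : pr (tl^[i] n) d = pr n (i + d) := by
  rw [pr, pr, iter_iter]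

theorem yy_iter (n i d : ℕ) : yy (tl^[i] n) d = yy n (i + d) := by
  rw [yy, yy, pr_iter]

theorem pr_tl (n d : ℕ) : pr (tl n) d = pr n (d + 1) := by
  rfl

theorem yy_tl (n d : ℕ) : yy (tl n) d = yy n (d + 1) := by
  rfl

theorem pr_anti {n : ℕ} (hn : 0 < n) {i j : ℕ} (h : i ≤ j) : pr n j ≤ pr n i := by
  obtain ⟨d, rfl⟩ := Nat.exists_eq_add_of_le h
  rw [pr, pr, ← iter_iter]
  exact gp_le_of_dvd (iter_pos hn i) (iter_dvd _ d)

theorem yy_anti {n : ℕ} (hn : 0 < n) {i j : ℕ} (h : i ≤ j) : yy n j ≤ yy n i := by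
  exact th_mono (pr_anti hn h)

theorem one_lt_of_yy_pos {n i : ℕ} (hn : 0 < n) (h : 0 < yy n i) : 1 < tl^[i] n := by
  rcases Nat.eq_or_lt_of_le (Nat.succ_le_of_lt (iter_pos hn i)) with h1 | h1
  · rw [yy, pr, ← h1] at h
    exact absurd h (by rw [show Nat.succ 0 = 1 from rfl, gp_one, th_one]; exact lt_irrefl 0)
  · exact h1

theorem prod_pr_mul (n k : ℕ) : (∏ i ∈ range k, pr n i) * tl^[k] n = n := by
  induction k with
  | zero => simp
  | succ k ih => rw [prod_range_succ, iter_succ, mul_assoc, pr, gp_mul_tl, ih]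

theorem eq_of_pr_eq {n n' k : ℕ} (h : ∀ i < k, pr n i = pr n' i) (h' : tl^[k] n = tl^[k] n') :
    n = n' := by
  have e := prod_pr_mul n k
  rw [prod_congr rfl fun i hi => h i (mem_range.1 hi), h', prod_pr_mul] at e
  exact e.symm

theorem totient_of_not_dvd {n : ℕ} (hn : 1 < n) (h : ¬ gp n ∣ tl n) :
    n.totient = (gp n - 1) * (tl n).totient := by
  have e := Nat.totient_mul_of_prime_of_not_dvd (gp_prime hn) h
  rwa [gp_mul_tl] at e

theorem totient_of_dvd {n : ℕ} (hn : 1 < n) (h : gp n ∣ tl n) :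
    n.totient = gp n * (tl n).totient := by
  have e := Nat.totient_mul_of_prime_of_dvd (gp_prime hn) h
  rwa [gp_mul_tl] at e

theorem totient_rep {n : ℕ} (hn : 1 < n) (h : gp n ∣ tl n) :
    n.totient = gp n * (gp n - 1) * (tl (tl n)).totient ∨
      n.totient = gp n * gp n * (tl (tl n)).totient := by
  have hn0 : 0 < n := by omega
  have h1 : 1 < tl n := (gp_prime hn).one_lt.trans_le (Nat.le_of_dvd (tl_pos hn0) h)
  have e := gp_tl_eq hn0 h
  rw [totient_of_dvd hn h]
  by_cases h2 : gp (tl n) ∣ tl (tl n)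
  · right
    rw [totient_of_dvd h1 h2, e, mul_assoc]
  · left
    rw [totient_of_not_dvd h1 h2, e, mul_assoc]

theorem totient_le_gp_mul {n : ℕ} (hn : 0 < n) : n.totient ≤ gp n * (tl n).totient := by
  rcases Nat.eq_or_lt_of_le (Nat.succ_le_of_lt hn) with h1 | h1
  · obtain rfl : n = 1 := h1.symm
    simp [gp_one, tl_one]
  · by_cases h : gp n ∣ tl n
    · exact (totient_of_dvd h1 h).le
    · exact (totient_of_not_dvd h1 h).trans_le (Nat.mul_le_mul_right _ (Nat.sub_le _ _))

theorem gp_sub_one_mul_le {n : ℕ} (hn : 0 < n) : (gp n - 1) * (tl n).totient ≤ n.totient := by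
  rcases Nat.eq_or_lt_of_le (Nat.succ_le_of_lt hn) with h1 | h1
  · obtain rfl : n = 1 := h1.symm
    simp [gp_one]
  · by_cases h : gp n ∣ tl n
    · exact (Nat.mul_le_mul_right _ (Nat.sub_le _ _)).trans (totient_of_dvd h1 h).ge
    · exact (totient_of_not_dvd h1 h).ge

/-- strong induction on `n` with the three formulas above -/
theorem gp_totient_le {n : ℕ} (hn : 0 < n) : gp n.totient ≤ gp n := by
  induction n using Nat.strong_induction_on with
  | _ n ih =>
    rcases Nat.eq_or_lt_of_le (Nat.succ_le_of_lt hn) with h1 | h1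
    · obtain rfl : n = 1 := h1.symm
      simp
    · have hp := gp_prime h1
      have h2 := hp.two_le
      have hlt : tl n < n := Nat.div_lt_self hn hp.one_lt
      have h3 := (ih _ hlt (tl_pos hn)).trans (gp_tl_le hn)
      have h4 : ∀ q : ℕ, q.Prime → q ∣ (tl n).totient → q ≤ gp n := fun q hq hd =>
        (le_gp (Nat.totient_pos.2 (tl_pos hn)) hq hd).trans h3
      refine (gp_le_iff (Nat.totient_pos.2 hn) (gp_pos n)).2 fun q hq hd => ?_
      by_cases h : gp n ∣ tl n
      · rw [totient_of_dvd h1 h] at hd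
        rcases (Nat.Prime.dvd_mul hq).1 hd with h5 | h5
        · exact Nat.le_of_dvd hp.pos h5
        · exact h4 q hq h5
      · rw [totient_of_not_dvd h1 h] at hd
        rcases (Nat.Prime.dvd_mul hq).1 hd with h5 | h5
        · exact (Nat.le_of_dvd (by omega) h5).trans (Nat.sub_le _ _)
        · exact h4 q hq h5

theorem gp_sub_one_le {n : ℕ} (hn : 0 < n) : gp n - 1 ≤ n.totient := by
  exact (Nat.le_mul_of_pos_right _ (Nat.totient_pos.2 (tl_pos hn))).trans (gp_sub_one_mul_le hn)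

theorem Chain.mono {k k' n : ℕ} (h : Chain k n) (hk : k' ≤ k) : Chain k' n := by
  exact ⟨h.1, fun i hi => h.2 i (hi.trans_le hk)⟩

theorem Chain.iter {k n : ℕ} (i : ℕ) (h : Chain (i + k) n) : Chain k (tl^[i] n) := by
  refine ⟨iter_pos h.1 i, fun d hd => ?_⟩
  rw [iter_iter, iter_iter, pr_iter]
  exact h.2 (i + d) (by omega)

theorem chain_add {i k n : ℕ} (h1 : Chain i n) (h2 : Chain k (tl^[i] n)) : Chain (i + k) n := by
  refine ⟨h1.1, fun j hj => ?_⟩
  rcases lt_or_ge j i with h | h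
  · exact h1.2 j h
  · obtain ⟨d, rfl⟩ := Nat.exists_eq_add_of_le h
    have h3 := h2.2 d (by omega)
    rwa [iter_iter, iter_iter, pr_iter] at h3

theorem Chain.prime {k n i : ℕ} (h : Chain k n) (hi : i < k) : (pr n i).Prime := by
  exact gp_prime (h.2 i hi).1

theorem Chain.lt {k n i j : ℕ} (h : Chain k n) (hi : i < k) (hij : i < j) : pr n j < pr n i := by
  refine (pr_anti h.1 (Nat.succ_le_of_lt hij)).trans_lt
    (lt_of_le_of_ne (pr_anti h.1 (Nat.le_succ i)) fun e => (h.2 i hi).2 ?_)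
  rw [← e]
  exact gp_dvd _

theorem Chain.totient {k n : ℕ} (h : Chain k n) :
    n.totient = (∏ i ∈ range k, (pr n i - 1)) * (tl^[k] n).totient := by
  induction k with
  | zero => simp
  | succ k ih =>
    have h1 := h.2 k (Nat.lt_succ_self k)
    rw [iter_succ] at h1
    rw [ih (h.mono (Nat.le_succ k)), totient_of_not_dvd h1.1 h1.2, prod_range_succ, iter_succ,
      mul_assoc, pr]

/-- induction on `k` (generalising `p`), peeling off `p 0` with `gp_mul_prime` -/
theorem build (k : ℕ) (p : ℕ → ℕ) {r : ℕ} (hr : 0 < r) (hp : ∀ i < k, (p i).Prime)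
    (hlt : ∀ i, i + 1 < k → p (i + 1) < p i) (hend : 0 < k → gp r < p (k - 1)) :
    Chain k ((∏ i ∈ range k, p i) * r) ∧ (∀ i < k, pr ((∏ i ∈ range k, p i) * r) i = p i) ∧
      tl^[k] ((∏ i ∈ range k, p i) * r) = r := by
  induction k generalizing p with
  | zero => simp [Chain, hr]
  | succ k ih =>
    obtain ⟨h1, h2, h3⟩ := ih (fun i => p (i + 1)) (fun i hi => hp (i + 1) (by omega))
      (fun i hi => hlt (i + 1) (by omega)) (fun hk => by
        have := hend (by omega)
        rwa [show k + 1 - 1 = k - 1 + 1 by omega] at this)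
    have e : (∏ i ∈ range (k + 1), p i) * r = p 0 * ((∏ i ∈ range k, p (i + 1)) * r) := by
      rw [prod_range_succ']
      ring
    rw [e]
    have hlt0 : gp ((∏ i ∈ range k, p (i + 1)) * r) < p 0 := by
      rcases Nat.eq_zero_or_pos k with rfl | hk
      · simpa using hend (by omega)
      · rw [← pr_zero, h2 0 hk]
        exact hlt 0 (by omega)
    generalize (∏ i ∈ range k, p (i + 1)) * r = m at h1 h2 h3 hlt0 ⊢
    have hp0 := hp 0 (by omega)
    obtain ⟨e1, e2⟩ := gp_mul_prime hp0 h1.1 hlt0.le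
    refine ⟨⟨Nat.mul_pos hp0.pos h1.1, fun i hi => ?_⟩, fun i hi => ?_, ?_⟩
    · cases i with
      | zero =>
        refine ⟨hp0.one_lt.trans_le (Nat.le_mul_of_pos_right _ h1.1), ?_⟩
        change ¬ gp (p 0 * m) ∣ tl (p 0 * m)
        rw [e1, e2]
        exact fun hd => absurd (le_gp h1.1 hp0 hd) (not_le.2 hlt0)
      | succ i =>
        rw [← pr_tl, Function.iterate_succ_apply, Function.iterate_succ_apply tl (i + 1), e2]
        exact h1.2 i (by omega)
    · cases i with
      | zero => exact e1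
      | succ i =>
        rw [← pr_tl, e2]
        exact h2 i (by omega)
    · rw [Function.iterate_succ_apply, e2, h3]

theorem Chain.head {k n : ℕ} (h : Chain (k + 1) n) : Head 1 k (hd k n) := by
  refine ⟨fun i hi => ?_, fun i hi => if_neg hi⟩
  rw [hd, if_pos hi]
  exact h.prime (Nat.lt_succ_of_le (mem_Icc.1 hi).2)

theorem Gp_prod_Icc (f : ℕ → ℝ) (k : ℕ) : ∏ i ∈ Icc 1 k, f i = ∏ i ∈ range k, f (i + 1) := by
  induction k with
  | zero => simp
  | succ k ih => rw [prod_Icc_succ_top (by omega), prod_range_succ, ih]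

theorem Chain.wt_hd {k n : ℕ} (h : Chain (k + 1) n) :
    wt 1 k (hd k n) / ((tl^[k + 1] n).totient : ℝ) = rcp (tl n).totient := by
  have h1 : Chain k (tl n) := Chain.iter 1 (by rwa [add_comm])
  have e : wt 1 k (hd k n) = ∏ i ∈ range k, 1 / ((pr (tl n) i - 1 : ℕ) : ℝ) := by
    rw [wt, prod_congr rfl (g := fun i => 1 / ((pr n i : ℝ) - 1))
      fun i hi => by rw [hd, if_pos hi], Gp_prod_Icc]
    refine prod_congr rfl fun i _ => ?_
    rw [pr_tl, Nat.cast_sub (show 1 ≤ pr n (i + 1) from gp_pos _), Nat.cast_one]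
  rw [e, rcp, h1.totient, Function.iterate_succ_apply, Nat.cast_mul, Nat.cast_prod,
    prod_div_distrib, prod_const_one, div_div]

theorem capSum_iter (D n i : ℕ) :
    capSum D (tl^[i] n) = ∑ l ∈ Ioc i (i + D), aCoef (l - i) * yy n l := by
  unfold capSum
  induction D with
  | zero => simp
  | succ D ih =>
    rw [sum_Icc_succ_top (by omega), ← add_assoc, sum_Ioc_succ_top (by omega), ih, yy_iter,
      show i + D + 1 - i = D + 1 by omega, add_assoc]

end Crest.Agent.R20
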