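import Crest.Agent.R20.HVol

/-!
# R20/HLow: a family of heads without small gaps and of full volume
-/

set_option autoImplicit false

open Finset Filter Topology Crest.NumberTheoryR.TotientScale

namespace Crest.Agent.R20

variable {ρ : ℝ}

/-- split the sum at `n₀` with `C ∑_{n ≥ n₀} κ^{-n} ≤ 1/4`, then take `Λ` large -/
theorem exists_Lambda {C c κ q : ℝ} (hC : 0 < C) (hc : 0 < c) (hκ : 1 < κ) (hq : 1 ≤ q) :
    ∃ Λ : ℝ, 4 ≤ Λ ∧ ∀ L : ℕ, ∑ n ∈ range L, C * Real.exp (-(c * Λ / q ^ n)) / κ ^ n ≤ 1 / 2 := by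
  have hκ0 : 0 < κ := by linarith
  have hq0 : 0 < q := by linarith
  have hs : Summable fun n : ℕ => C * κ⁻¹ ^ n :=
    (summable_geometric_of_lt_one (by positivity) (inv_lt_one_of_one_lt₀ hκ)).mul_left C
  have hb : ∀ Λ : ℝ, 0 ≤ Λ → ∀ n : ℕ,
      ‖C * Real.exp (-(c * Λ / q ^ n)) / κ ^ n‖ ≤ C * κ⁻¹ ^ n := by
    intro Λ hΛ n
    rw [Real.norm_of_nonneg (by positivity), inv_pow, ← div_eq_mul_inv]
    refine div_le_div_of_nonneg_right ?_ (by positivity)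
    have : Real.exp (-(c * Λ / q ^ n)) ≤ 1 :=
      Real.exp_le_one_iff.2 (neg_nonpos.2 (by positivity))
    nlinarith
  have ht : ∀ n : ℕ, Tendsto (fun Λ : ℝ => C * Real.exp (-(c * Λ / q ^ n)) / κ ^ n) atTop (𝓝 0) := by
    intro n
    have h1 : Tendsto (fun Λ : ℝ => c * Λ / q ^ n) atTop atTop :=
      (tendsto_id.const_mul_atTop hc).atTop_div_const (by positivity)
    have h2 := Real.tendsto_exp_neg_atTop_nhds_zero.comp h1
    simpa using (h2.const_mul C).div_const (κ ^ n)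
  have h := tendsto_tsum_of_dominated_convergence hs ht
    ((eventually_ge_atTop 0).mono fun Λ hΛ => hb Λ hΛ)
  rw [tsum_zero] at h
  obtain ⟨Λ, h1, h2⟩ := ((eventually_ge_atTop (4 : ℝ)).and
    (h.eventually (gt_mem_nhds (by norm_num : (0 : ℝ) < 1 / 2)))).exists
  refine ⟨Λ, h1, fun L => le_trans ?_ h2.le⟩
  exact (Summable.of_norm_bounded hs (hb Λ (by linarith))).sum_le_tsum _ fun n _ => by positivity

theorem HLow_xi_pow (ρ : ℝ) (n : ℕ) : xi ρ n = xi ρ 1 ^ n := by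
  simp [xi]

theorem HLow_sl_anti (hρ : IsRho ρ) (M i : ℕ) : sl ρ M (i + 1) ≤ sl ρ M i :=
  pow_le_pow_left₀ (zero_le_one.trans (one_le_xi hρ _)) (xi_mono hρ (by omega)) 7

/-- the argument of `pw` in `vol_gap` -/
theorem HLow_arg {L i : ℕ} (hi : i < L) {γ β : ℕ → ℝ} {C₁ B μ : ℝ}
    (hγ : ∀ k, gSeq k ≤ γ k ∧ γ k ≤ C₁ * gSeq k) (hβ : ∀ k, 0 ≤ β k) (h1 : β (i + 1) ≤ β i)
    (hμ : 4 * μ ≤ β i) :
    B - ∑ k ∈ (range (L + 1)).erase (i + 1), γ k * β k -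
        gSeq (i + 1) * ((β i - μ) / (1 - aCoef 1)) + 2 * ∑ k ∈ range (L + 1), γ k ≤
      (B - ∑ k ∈ range (L + 1), gSeq k * β k - 2 * ∑ k ∈ range (L + 1), gSeq k) +
        ((1 + C₁) * (2 * ∑ k ∈ range (L + 1), gSeq k) - gSeq (i + 1) * β (i + 1) / 5) := by
  have e1 : ∑ k ∈ (range (L + 1)).erase (i + 1), gSeq k * β k ≤
      ∑ k ∈ (range (L + 1)).erase (i + 1), γ k * β k :=
    sum_le_sum fun k _ => mul_le_mul_of_nonneg_right (hγ k).1 (hβ k)
  have e2 := add_sum_erase (range (L + 1)) (fun k => gSeq k * β k)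
    (show i + 1 ∈ range (L + 1) from mem_range.2 (by omega))
  have e3 : ∑ k ∈ range (L + 1), γ k ≤ C₁ * ∑ k ∈ range (L + 1), gSeq k := by
    rw [mul_sum]
    exact sum_le_sum fun k _ => (hγ k).2
  have e4 : 6 / 5 * β (i + 1) ≤ (β i - μ) / (1 - aCoef 1) := by
    have a1 := aCoef_one
    rw [le_div_iff₀ (by linarith [a1.2])]
    have := hβ (i + 1)
    nlinarith [a1.1]
  have e5 := mul_le_mul_of_nonneg_left e4 (gSeq_pos (i + 1)).le
  nlinarith

/-- removing finitely many bad families from a finite set -/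
theorem HLow_remove {α : Type*} (S : Finset α) {P : α → Prop} {f : α → ℝ} (L : ℕ)
    {R : ℕ → α → Prop} {c : ℕ → ℝ} (hS : ∀ a ∈ S, P a)
    (h : ∀ i ∈ range L, Bd (fun a => P a ∧ R i a) f (c i)) :
    ∃ T : Finset α, (∀ a ∈ T, a ∈ S ∧ ∀ i < L, ¬ R i a) ∧
      ∑ a ∈ S, f a ≤ ∑ a ∈ T, f a + ∑ i ∈ range L, c i := by
  classical
  refine ⟨S.filter (fun a => ∀ i < L, ¬ R i a), fun a ha => mem_filter.1 ha, ?_⟩
  rw [← sum_filter_add_sum_filter_not S (fun a => ∀ i < L, ¬ R i a)]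
  refine add_le_add le_rfl (Bd.biUnion (range L) h _ fun a ha => ?_)
  obtain ⟨ha1, ha2⟩ := mem_filter.1 ha
  push Not at ha2
  obtain ⟨i, hi, hR⟩ := ha2
  exact ⟨i, mem_range.2 hi, hS a ha1, hR⟩

/-- `L = M - K`, `β i = Λ ξ_K sl ρ M i ≥ 4 sl ρ M i`, `σ = ∑ g_i β_i`, `δ = 2 ∑ g_i`, `Y = B - σ - δ`.
`M (σ + δ) ≤ Λ ξ_K M Sig ≤ C Λ B` (`sc_Sig`), so `B/2 ≤ Y ≤ B` eventually and `vol_g_lo`, `le_pw_sub` give a set of mass
`≥ m₀ = pw L Y / gP L ≥ exp (-CΛ - 1) G_L`.  Remove the heads with `lev B h i ≤ th (h (i+1)) + sl ρ M i`, `i < L`: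
in `vol_gap` the argument of `pw` is `≤ Y - Δ + (2 C₁ + 2) ∑ g` with
`Δ = g_{i+1} ((β i - sl i)/(1 - a_1) - β (i+1)) ≥ g_{i+1} β (i+1) / 5` (`β i ≥ β (i+1)`, `(3/4)/(1 - a_1) ≥ 6/5`), so by
`pw_add_le` the mass is `≤ m₀ C' exp (-L Δ/B)/κ^n`, `n = L - i - 1`, and `L Δ / B ≥ c Λ / ξ_1^n` by `sc_lg_ge`
(`ρ^j ξ_K ξ_j^7 = ξ_K/ξ_j`, `j = K + n`).  `exists_Lambda` with `q = xi ρ 1`. -/
theorem H4 (hρ : IsRho ρ) : ∃ c : ℝ, 0 < c ∧ ∀ K : ℕ, ∀ᶠ z : ℝ × ℕ in FA ρ,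
    ∃ S : Finset (ℕ → ℕ), (∀ h ∈ S, Head 1 (z.2 - K) h ∧
        Cons (z.2 - K) aA (fun i => sl ρ z.2 i) (bigB z.1) h ∧
        ∀ i < z.2 - K, th (h (i + 1)) + sl ρ z.2 i < lev (bigB z.1) h i) ∧
      c * GG (z.2 - K) (bigB z.1) ≤ ∑ h ∈ S, wt 1 (z.2 - K) h := by
  classical
  obtain ⟨CS, hCS, hSig⟩ := sc_Sig hρ
  obtain ⟨cg, hcg, hlg⟩ := sc_lg_ge hρ
  obtain ⟨κ, C₁, hκ, hC₁, hgap⟩ := vol_gap hρ
  obtain ⟨Λ, hΛ, hsum⟩ := exists_Lambda (C := Real.exp (2 * (1 + C₁) * CS)) (c := cg / 5)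
    (Real.exp_pos _) (by positivity) hκ (one_lt_xi_one hρ).le
  refine ⟨Real.exp (-(2 * Λ * CS)) / 2, by positivity, fun K => ?_⟩
  have hMr : Tendsto (fun z : ℝ × ℕ => (z.2 : ℝ)) (FA ρ) atTop :=
    tendsto_natCast_atTop_atTop.comp (tendsto_M hρ)
  filter_upwards [hSig, hlg, (tendsto_M hρ).eventually (eventually_ge_atTop (2 * K + 1)),
    hMr.eventually (eventually_ge_atTop (2 * Λ * CS)),
    (tendsto_bigB.comp (tendsto_fst_FA ρ)).eventually (eventually_gt_atTop 0)]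
    with z h1 h2 h3 h4 h5
  obtain ⟨x, M⟩ := z
  simp only [Function.comp] at h1 h2 h3 h4 h5 ⊢
  set B := bigB x with hB
  set L := M - K with hL
  have hML : M - L = K := by omega
  have hξK : 1 ≤ xi ρ K := one_le_xi hρ K
  have hM0 : (0 : ℝ) < M := by exact_mod_cast (by omega : 0 < M)
  have hLM : (L : ℝ) ≤ M := by exact_mod_cast (by omega : L ≤ M)
  have hL0 : (0 : ℝ) ≤ L := Nat.cast_nonneg _
  have hΛξ : 4 ≤ Λ * xi ρ K := by nlinarith
  set β : ℕ → ℝ := fun i => Λ * xi ρ K * sl ρ M i with hβ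
  have hsl : ∀ i, 0 ≤ sl ρ M i := sl_nonneg hρ M
  have hβ0 : ∀ i, 0 ≤ β i := fun i => mul_nonneg (by linarith) (hsl i)
  have hβ4 : ∀ i, 4 * sl ρ M i ≤ β i := fun i => mul_le_mul_of_nonneg_right hΛξ (hsl i)
  have hβa : ∀ i, β (i + 1) ≤ β i := fun i =>
    mul_le_mul_of_nonneg_left (HLow_sl_anti hρ M i) (by linarith)
  set σ := ∑ i ∈ range (L + 1), gSeq i * β i with hσ
  set δ := 2 * ∑ i ∈ range (L + 1), gSeq i with hδ
  have hσ0 : 0 ≤ σ := sum_nonneg fun i _ => mul_nonneg (gSeq_pos i).le (hβ0 i)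
  have hδ0 : 0 ≤ δ := mul_nonneg zero_le_two (sum_nonneg fun i _ => (gSeq_pos i).le)
  have hS := h1 L (by omega)
  rw [hML] at hS
  have hSig0 := Sig_nonneg hρ M L
  have hδS : δ ≤ Sig ρ M L := by
    rw [hδ, mul_sum]
    refine sum_le_sum fun i _ => ?_
    nlinarith [mul_nonneg (gSeq_pos i).le (hsl i)]
  have hσS : σ + δ ≤ Λ * xi ρ K * Sig ρ M L := by
    unfold Sig
    rw [hσ, hδ, mul_sum, mul_sum, ← sum_add_distrib]
    refine sum_le_sum fun i _ => ?_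
    simp only [hβ]
    nlinarith [gSeq_pos i]
  have hMδ : M * δ ≤ CS * B := by
    refine (mul_le_mul_of_nonneg_left hδS hM0.le).trans (hS.trans ?_)
    exact mul_le_mul_of_nonneg_right (div_le_self hCS.le hξK) h5.le
  have hMw : M * (σ + δ) ≤ Λ * CS * B := by
    calc _ ≤ M * (Λ * xi ρ K * Sig ρ M L) := mul_le_mul_of_nonneg_left hσS hM0.le
      _ = Λ * xi ρ K * (M * Sig ρ M L) := by ring
      _ ≤ Λ * xi ρ K * (CS / xi ρ K * B) := mul_le_mul_of_nonneg_left hS (by linarith)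
      _ = _ := by field_simp
  have hw : 2 * (σ + δ) ≤ B := by
    refine le_of_mul_le_mul_left ?_ hM0
    nlinarith
  set Y := B - σ - δ with hY
  have hY1 : B / 2 ≤ Y := by linarith
  have hY2 : Y ≤ B := by linarith
  have hY0 : 0 < Y := by linarith
  have hgP := gP_pos L
  set m₀ := pw L Y / gP L with hm₀
  have hpwY : pw L Y = Y ^ L / L.factorial := by
    unfold pw
    rw [if_pos hY0.le]
  have hm0 : 0 ≤ m₀ := div_nonneg (pw_nonneg _ _) hgP.le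
  have hlow : Real.exp (-(2 * Λ * CS)) * GG L B ≤ m₀ := by
    have e := le_pw_sub L h5 (add_nonneg hσ0 hδ0) hw
    rw [show B - (σ + δ) = Y by rw [hY]; ring] at e
    have a1 : L * (σ + δ) / B ≤ Λ * CS := by
      rw [div_le_iff₀ h5]
      exact (mul_le_mul_of_nonneg_right hLM (add_nonneg hσ0 hδ0)).trans hMw
    have a2 : (σ + δ) / B ≤ 1 / 2 := by
      rw [div_le_iff₀ h5]; linarith
    have a3 : 2 * L * ((σ + δ) / B) ^ 2 ≤ Λ * CS := by
      have a4 : 0 ≤ L * (σ + δ) / B := by positivity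
      calc _ = 2 * (L * (σ + δ) / B) * ((σ + δ) / B) := by ring
        _ ≤ 2 * (L * (σ + δ) / B) * (1 / 2) := mul_le_mul_of_nonneg_left a2 (by positivity)
        _ ≤ _ := by linarith
    have a5 : Real.exp (-(2 * Λ * CS)) ≤
        Real.exp (-(L * (σ + δ) / B) - 2 * L * ((σ + δ) / B) ^ 2) :=
      Real.exp_le_exp.2 (by linarith)
    rw [hm₀, le_div_iff₀ hgP]
    refine le_trans ?_ e
    have e2 : Real.exp (-(2 * Λ * CS)) * GG L B * gP L =
        B ^ L / L.factorial * Real.exp (-(2 * Λ * CS)) := by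
      unfold GG
      field_simp
    rw [e2]
    exact mul_le_mul_of_nonneg_left a5 (by positivity)
  obtain ⟨S₀, hS₀, hmass⟩ := vol_g_lo L β B fun i _ => hβ0 i
  have hbad : ∀ i ∈ range L, Bd (fun h => (Head 1 L h ∧ Cons L aA β B h) ∧
      lev B h i ≤ th (h (i + 1)) + sl ρ M i) (wt 1 L)
      (m₀ * (Real.exp (2 * (1 + C₁) * CS) * Real.exp (-(cg / 5 * Λ / xi ρ 1 ^ (L - 1 - i))) /
        κ ^ (L - 1 - i))) := by
    intro i hi
    have hi' := mem_range.1 hi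
    obtain ⟨γ, hγ, hb⟩ := hgap L i hi'
    refine (hb β B (sl ρ M i)).mono (fun h hh => ⟨hh.1.1, hh.1.2, hh.2⟩) (fun _ _ => le_rfl) ?_
    have a1 := pw_mono L (HLow_arg (B := B) hi' hγ hβ0 (hβa i) (hβ4 i))
    rw [← hσ, ← hδ, ← hY] at a1
    have a2 := a1.trans (pw_add_le L hY0 _)
    rw [← hpwY] at a2
    set n := L - 1 - i with hn
    have hn' : L - i - 1 = n := by omega
    have hj : M - (i + 1) = K + n := by omega
    set Δ := gSeq (i + 1) * β (i + 1) / 5 with hΔ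
    have hΔ0 : 0 ≤ Δ := by
      have := gSeq_pos (i + 1)
      have := hβ0 (i + 1)
      positivity
    have a3 : L * ((1 + C₁) * δ) / Y ≤ 2 * (1 + C₁) * CS := by
      rw [div_le_iff₀ hY0]
      have b1 : L * δ ≤ CS * (2 * Y) :=
        ((mul_le_mul_of_nonneg_right hLM hδ0).trans hMδ).trans
          (mul_le_mul_of_nonneg_left (by linarith) hCS.le)
      have := mul_le_mul_of_nonneg_left b1 (show 0 ≤ 1 + C₁ by linarith)
      linarith
    have a4 : cg / 5 * Λ / xi ρ 1 ^ n ≤ L * Δ / Y := by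
      refine le_trans ?_ (div_le_div_of_nonneg_left (mul_nonneg hL0 hΔ0) hY0 hY2)
      rw [le_div_iff₀ h5, ← HLow_xi_pow]
      have b1 := h2 L (i + 1) (by omega) (by omega)
      rw [hj] at b1
      have b2 := xi_pow_eight hρ (K + n)
      have b3 : β (i + 1) = Λ * xi ρ K * xi ρ (K + n) ^ 7 := by
        simp only [hβ, sl, hj]
      have hξn : 0 < xi ρ n := zero_lt_one.trans_le (one_le_xi hρ n)
      have b4 : ρ ^ (K + n) * β (i + 1) = Λ / xi ρ n := by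
        rw [b3, eq_div_iff hξn.ne']
        calc _ = Λ * ((xi ρ K * xi ρ n) * xi ρ (K + n) ^ 7 * ρ ^ (K + n)) := by ring
          _ = Λ * (xi ρ (K + n) ^ 8 * ρ ^ (K + n)) := by rw [← xi_add]; ring
          _ = Λ := by rw [b2, mul_one]
      calc cg / 5 * Λ / xi ρ n * B = cg * B * (Λ / xi ρ n) / 5 := by ring
        _ = (cg * ρ ^ (K + n) * B) * β (i + 1) / 5 := by rw [← b4]; ring
        _ ≤ (L * gSeq (i + 1)) * β (i + 1) / 5 :=
            div_le_div_of_nonneg_right (mul_le_mul_of_nonneg_right b1 (hβ0 _)) (by norm_num)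
        _ = _ := by rw [hΔ]; ring
    have a5 : Real.exp (L * ((1 + C₁) * δ - Δ) / Y) ≤
        Real.exp (2 * (1 + C₁) * CS) * Real.exp (-(cg / 5 * Λ / xi ρ 1 ^ n)) := by
      rw [← Real.exp_add]
      refine Real.exp_le_exp.2 ?_
      rw [mul_sub, sub_div]
      linarith
    have hκn : 0 < κ ^ n := pow_pos (by linarith) n
    rw [hn']
    calc _ ≤ pw L Y * (Real.exp (2 * (1 + C₁) * CS) * Real.exp (-(cg / 5 * Λ / xi ρ 1 ^ n))) /
          (gP L * κ ^ n) :=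
          div_le_div_of_nonneg_right (a2.trans (mul_le_mul_of_nonneg_left a5 (pw_nonneg _ _)))
            (by positivity)
      _ = _ := by rw [hm₀]; field_simp
  obtain ⟨T, hT, hrem⟩ := HLow_remove S₀ L hS₀ hbad
  rw [← mul_sum, sum_range_reflect (fun n => Real.exp (2 * (1 + C₁) * CS) *
    Real.exp (-(cg / 5 * Λ / xi ρ 1 ^ n)) / κ ^ n) L] at hrem
  have hhalf := mul_le_mul_of_nonneg_left (hsum L) hm0
  have hmass' : m₀ ≤ ∑ h ∈ S₀, wt 1 L h := hmass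
  refine ⟨T, ?_, by linarith⟩
  intro h hh
  obtain ⟨a1, a2⟩ := hT h hh
  refine ⟨(hS₀ h a1).1, fun i hi => le_trans ?_ ((hS₀ h a1).2 i hi), fun i hi => not_le.1 (a2 i hi)⟩
  linarith [hβ4 i, hsl i]

end Crest.Agent.R20
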