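import Crest.Agent.R20.Scale

/-!
# R20/Scale2: ratios of the volumes `G_l`, limits
-/

set_option autoImplicit false

open Finset Filter Topology Crest.NumberTheoryR.TotientScale

namespace Crest.Agent.R20

variable {ρ : ℝ}

theorem scale2_B (ρ : ℝ) : Tendsto (fun z : ℝ × ℕ => bigB z.1) (FA ρ) atTop :=
  tendsto_bigB.comp (tendsto_fst_FA ρ)

theorem scale2_B_pos (ρ : ℝ) : ∀ᶠ z : ℝ × ℕ in FA ρ, 0 < bigB z.1 :=
  (scale2_B ρ).eventually_gt_atTop 0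

theorem scale2_step (hρ : IsRho ρ) : ∀ᶠ z : ℝ × ℕ in FA ρ, ∀ l : ℕ, l + 1 ≤ z.2 →
    GG l (bigB z.1) ≤ ρ ^ (z.2 - (l + 1)) / lam ρ * GG (l + 1) (bigB z.1) := by
  filter_upwards [sc_lg_le hρ, scale2_B_pos ρ] with z h1 hB l hl
  rw [GG_succ l hB, mul_comm]
  refine mul_le_mul_of_nonneg_right ?_ (GG_pos _ hB).le
  rw [div_le_iff₀ hB]
  refine le_trans (mul_le_mul_of_nonneg_right ?_ (gSeq_pos _).le) (h1 _ hl)
  exact_mod_cast hl

theorem scale2_small (hρ : IsRho ρ) {r : ℝ} (hr : 0 < r) :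
    ∃ K₀ : ℕ, ∀ j, K₀ ≤ j → ρ ^ j / lam ρ ≤ r := by
  have hl := lam_pos hρ
  obtain ⟨K₀, hK⟩ := exists_pow_lt_of_lt_one (mul_pos hr hl) hρ.2.1
  refine ⟨K₀, fun j hj => ?_⟩
  rw [div_le_iff₀ hl]
  exact (pow_le_pow_of_le_one hρ.1.le hρ.2.1.le hj).trans hK.le

theorem scale2_zero_mul {α : Type*} {l : Filter α} {u v : α → ℝ} {C : ℝ}
    (hu : Tendsto u l (𝓝 0)) (hv : ∀ᶠ z in l, |v z| ≤ C) : Tendsto (fun z => u z * v z) l (𝓝 0) := by
  have h1 : Tendsto (fun z => |u z| * C) l (𝓝 0) := by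
    simpa using hu.abs.mul_const C
  refine squeeze_zero_norm' ?_ h1
  filter_upwards [hv] with z hz
  rw [Real.norm_eq_abs, abs_mul]
  exact mul_le_mul_of_nonneg_left hz (abs_nonneg _)

theorem scale2_ratio (hρ : IsRho ρ) (K : ℕ) :
    Tendsto (fun z : ℝ × ℕ => ((z.2 - K : ℕ) : ℝ) / Real.log (bigB z.1)) (FA ρ) (𝓝 (1 / lam ρ)) := by
  have hl := lam_pos hρ
  have hL : Tendsto (fun z : ℝ × ℕ => Real.log (bigB z.1)) (FA ρ) atTop :=
    Real.tendsto_log_atTop.comp (scale2_B ρ)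
  have h1 : Tendsto (fun z : ℝ × ℕ => Real.log (Real.log (bigB z.1)) / Real.log (bigB z.1)) (FA ρ)
      (𝓝 0) := Real.isLittleO_log_id_atTop.tendsto_div_nhds_zero.comp hL
  have h2 : Tendsto (fun z : ℝ × ℕ => ((K : ℝ) + 3) / Real.log (bigB z.1)) (FA ρ) (𝓝 0) :=
    hL.const_div_atTop _
  have h3 : Tendsto (fun z : ℝ × ℕ =>
      (1 - Real.log (Real.log (bigB z.1)) / Real.log (bigB z.1)) / lam ρ) (FA ρ) (𝓝 (1 / lam ρ)) := by
    simpa using (h1.const_sub 1).div_const (lam ρ)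
  have h4 : Tendsto (fun z : ℝ × ℕ =>
      (1 - Real.log (Real.log (bigB z.1)) / Real.log (bigB z.1)) / lam ρ -
        ((K : ℝ) + 3) / Real.log (bigB z.1)) (FA ρ) (𝓝 (1 / lam ρ)) := by
    simpa using h3.sub h2
  have key : ∀ᶠ z : ℝ × ℕ in FA ρ, 0 < Real.log (bigB z.1) ∧
      (1 - Real.log (Real.log (bigB z.1)) / Real.log (bigB z.1)) / lam ρ =
        phaseArg ρ z.1 / Real.log (bigB z.1) ∧
      ((z.2 - K : ℕ) : ℝ) = z.2 - K := by
    filter_upwards [hL.eventually_gt_atTop 0, (tendsto_M hρ).eventually_ge_atTop K] with z h5 h6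
    refine ⟨h5, ?_, Nat.cast_sub h6⟩
    unfold phaseArg
    field_simp
  refine tendsto_of_tendsto_of_tendsto_of_le_of_le' h4 h3 ?_ ?_
  · filter_upwards [key, adm_FA ρ] with z ⟨h5, h6, h7⟩ ha
    rw [h6, h7, ← sub_div]
    exact div_le_div_of_nonneg_right (by linarith [ha.2]) h5.le
  · filter_upwards [key, adm_FA ρ] with z ⟨h5, h6, h7⟩ ha
    rw [h6, h7]
    exact div_le_div_of_nonneg_right (by linarith [ha.1, (Nat.cast_nonneg K : (0 : ℝ) ≤ K)]) h5.le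

/-- `GG_succ`, `sc_lg_le`: `G_l ≤ r G_{l+1}` with `r = ρ^{K₀}/λ ≤ min (1/2) (ε/2)` for `l + 1 ≤ L` -/
theorem sc_GG_sum (hρ : IsRho ρ) {ε : ℝ} (hε : 0 < ε) : ∃ K₀ : ℕ, ∀ᶠ z : ℝ × ℕ in FA ρ, ∀ L : ℕ,
    L + K₀ ≤ z.2 → ∑ l ∈ range L, GG l (bigB z.1) ≤ ε * GG L (bigB z.1) := by
  obtain ⟨r, hr0, hr1, hr2⟩ : ∃ r : ℝ, 0 < r ∧ r ≤ 1 / 2 ∧ r ≤ ε / 2 :=
    ⟨min (1 / 2) (ε / 2), lt_min (by norm_num) (by linarith), min_le_left _ _, min_le_right _ _⟩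
  obtain ⟨K₀, hK⟩ := scale2_small hρ hr0
  refine ⟨K₀, ?_⟩
  filter_upwards [scale2_step hρ, scale2_B_pos ρ] with z h1 hB
  have key : ∀ L : ℕ, L + K₀ ≤ z.2 → ∑ l ∈ range L, GG l (bigB z.1) ≤ 2 * r * GG L (bigB z.1) := by
    intro L
    induction L with
    | zero => intro _; simp only [range_zero, sum_empty]; exact mul_nonneg (by linarith) (GG_pos _ hB).le
    | succ L ih =>
      intro hL
      have a1 := ih (by omega)
      have a2 := h1 L (by omega)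
      have a3 := mul_le_mul_of_nonneg_right (hK (z.2 - (L + 1)) (by omega)) (GG_pos (L + 1) hB).le
      have a4 := GG_pos L hB
      rw [sum_range_succ]
      nlinarith
  intro L hL
  exact (key L hL).trans (mul_le_mul_of_nonneg_right (by linarith) (GG_pos _ hB).le)

theorem sc_GG_le (hρ : IsRho ρ) : ∃ C : ℝ, 0 < C ∧ ∀ᶠ z : ℝ × ℕ in FA ρ, ∀ l ≤ z.2,
    GG l (bigB z.1) ≤ C * GG z.2 (bigB z.1) := by
  have hl := lam_pos hρ
  obtain ⟨K₀, hK⟩ := scale2_small hρ one_pos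
  obtain ⟨A, hA1, hA2⟩ : ∃ A : ℝ, 1 ≤ A ∧ 1 / lam ρ ≤ A := ⟨_, le_max_left _ _, le_max_right _ _⟩
  refine ⟨A ^ K₀, by positivity, ?_⟩
  filter_upwards [scale2_step hρ, scale2_B_pos ρ] with z h1 hB
  have key : ∀ j : ℕ, j ≤ z.2 → GG (z.2 - j) (bigB z.1) ≤ A ^ min j K₀ * GG z.2 (bigB z.1) := by
    intro j
    induction j with
    | zero => intro _; simp
    | succ j ih =>
      intro hj
      have a1 := ih (by omega)
      have a2 := h1 (z.2 - (j + 1)) (by omega)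
      have e1 : z.2 - (j + 1) + 1 = z.2 - j := by omega
      have e2 : z.2 - (z.2 - j) = j := by omega
      rw [e1, e2] at a2
      have a3 := GG_pos (z.2 - j) hB
      by_cases hc : K₀ ≤ j
      · rw [min_eq_right hc] at a1
        rw [min_eq_right (by omega)]
        have a4 := mul_le_mul_of_nonneg_right (hK j hc) a3.le
        linarith
      · rw [min_eq_left (by omega)] at a1
        rw [min_eq_left (by omega), pow_succ', mul_assoc]
        have a4 : ρ ^ j / lam ρ ≤ A :=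
          (div_le_div_of_nonneg_right (pow_le_one₀ hρ.1.le hρ.2.1.le) hl.le).trans hA2
        exact a2.trans (mul_le_mul a4 a1 a3.le (by linarith))
  intro l hl
  have a1 := key (z.2 - l) (by omega)
  rw [Nat.sub_sub_self hl] at a1
  exact a1.trans (mul_le_mul_of_nonneg_right (pow_le_pow_right₀ hA1 (min_le_right _ _))
    (GG_pos _ hB).le)

/-- the product of `(M-K)/log B → 1/λ`, `g_n ρ^n → γ` (`n = M-K+e → ∞`) and the bounded factor
`ρ^{-n} log B / B = ρ^{φ - M} ρ^K / ρ^e` -/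
theorem sc_lim (hρ : IsRho ρ) {γ : ℝ} (hγ : Tendsto (fun n => gSeq n * ρ ^ n) atTop (𝓝 γ)) (K e : ℕ) :
    Tendsto (fun z : ℝ × ℕ => ((z.2 - K : ℕ) : ℝ) * gSeq (z.2 - K + e) / bigB z.1 -
      γ / lam ρ * ρ ^ (phaseArg ρ z.1 - z.2) * ρ ^ K / ρ ^ e) (FA ρ) (𝓝 0) := by
  have h0 := hρ.1
  have hn : Tendsto (fun z : ℝ × ℕ => z.2 - K + e) (FA ρ) atTop :=
    (tendsto_add_atTop_nat e).comp ((tendsto_sub_atTop_nat K).comp (tendsto_M hρ))
  have h1 : Tendsto (fun z : ℝ × ℕ => ((z.2 - K : ℕ) : ℝ) / Real.log (bigB z.1) *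
      (gSeq (z.2 - K + e) * ρ ^ (z.2 - K + e)) - γ / lam ρ) (FA ρ) (𝓝 0) := by
    have := ((scale2_ratio hρ K).mul (hγ.comp hn)).sub_const (γ / lam ρ)
    have e : 1 / lam ρ * γ - γ / lam ρ = 0 := by ring
    rwa [e] at this
  have h2 : ∀ᶠ z : ℝ × ℕ in FA ρ, |ρ ^ (phaseArg ρ z.1 - z.2) * ρ ^ K / ρ ^ e| ≤ ρ ^ K / ρ ^ e := by
    filter_upwards [adm_FA ρ] with z ha
    rw [abs_of_nonneg (by positivity), mul_div_assoc]
    exact mul_le_of_le_one_left (by positivity)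
      (Real.rpow_le_one h0.le hρ.2.1.le (by linarith [ha.1]))
  refine (scale2_zero_mul h1 h2).congr' ?_
  filter_upwards [(tendsto_fst_FA ρ).eventually (rho_rpow_phase hρ), scale2_B_pos ρ,
    (Real.tendsto_log_atTop.comp (scale2_B ρ)).eventually_gt_atTop 0,
    (tendsto_M hρ).eventually_ge_atTop K] with z h3 hB hL hK
  have hL' : 0 < Real.log (bigB z.1) := hL
  obtain ⟨m, hm⟩ : ∃ m, z.2 = K + m := Nat.exists_eq_add_of_le hK
  rw [Real.rpow_sub h0, h3, Real.rpow_natCast, hm, Nat.add_sub_cancel_left, pow_add, pow_add]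
  field_simp

/-- bounded asymptotically equal families can be multiplied -/
theorem tendsto_mul_sub {α : Type*} {l : Filter α} {f f' g g' : α → ℝ} {C : ℝ}
    (hf : Tendsto (fun z => f z - f' z) l (𝓝 0)) (hg : Tendsto (fun z => g z - g' z) l (𝓝 0))
    (hf' : ∀ᶠ z in l, |f' z| ≤ C) (hg' : ∀ᶠ z in l, |g' z| ≤ C) :
    Tendsto (fun z => f z * g z - f' z * g' z) l (𝓝 0) := by
  have h := ((hf.mul hg).add (scale2_zero_mul hf hg')).add (scale2_zero_mul hg hf')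
  simp only [mul_zero, add_zero] at h
  exact h.congr fun z => by ring

/-- a continuous function of `φ - M ∈ [0, 3]` is bounded -/
theorem bdd_phase (ρ : ℝ) {A : ℝ → ℝ} (hA : Continuous A) :
    ∃ C : ℝ, 0 < C ∧ ∀ᶠ z : ℝ × ℕ in FA ρ, |A (phaseArg ρ z.1 - z.2)| ≤ C := by
  obtain ⟨C, hC⟩ := (isCompact_Icc (a := (0 : ℝ)) (b := 3)).exists_bound_of_continuousOn hA.continuousOn
  refine ⟨max C 1, lt_max_of_lt_right one_pos, ?_⟩
  filter_upwards [adm_FA ρ] with z ha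
  exact (hC _ ⟨by linarith [ha.1], by linarith [ha.2]⟩).trans (le_max_left _ _)

/-- induction on `K`: `G_{M-(K+1)} / G_M = (G_{M-K} / G_M) ((M-K) g_{M-K} / B)` -/
theorem sc_Gamma (hρ : IsRho ρ) (K : ℕ) : ∃ Γ : ℝ → ℝ, Continuous Γ ∧ (∀ v, 0 < Γ v) ∧
    Tendsto (fun z : ℝ × ℕ => GG (z.2 - K) (bigB z.1) / GG z.2 (bigB z.1) -
      Γ (phaseArg ρ z.1 - z.2)) (FA ρ) (𝓝 0) := by
  have h0 := hρ.1
  have hl := lam_pos hρ
  obtain ⟨c, γ, -, -, hγ0, -, hγ⟩ := renewal hρ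
  induction K with
  | zero =>
    refine ⟨fun _ => 1, continuous_const, fun _ => one_pos, tendsto_const_nhds.congr' ?_⟩
    filter_upwards [scale2_B_pos ρ] with z hB
    rw [Nat.sub_zero, div_self (GG_pos _ hB).ne', sub_self]
  | succ K ih =>
    obtain ⟨Γ, hc, hp, hlim⟩ := ih
    have hc' : Continuous fun v : ℝ => γ / lam ρ * ρ ^ v * ρ ^ K / ρ ^ 0 :=
      ((continuous_const.mul (Real.continuous_const_rpow h0.ne')).mul continuous_const).div_const _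
    obtain ⟨C1, -, hC1⟩ := bdd_phase ρ hc
    obtain ⟨C2, -, hC2⟩ := bdd_phase ρ hc'
    refine ⟨fun v => Γ v * (γ / lam ρ * ρ ^ v * ρ ^ K / ρ ^ 0), hc.mul hc',
      fun v => mul_pos (hp v) (by positivity), ?_⟩
    refine (tendsto_mul_sub (C := max C1 C2) hlim (sc_lim hρ hγ K 0)
      (hC1.mono fun z h => h.trans (le_max_left _ _))
      (hC2.mono fun z h => h.trans (le_max_right _ _))).congr' ?_
    filter_upwards [scale2_B_pos ρ, (tendsto_M hρ).eventually_ge_atTop (K + 1)] with z hB hK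
    have e1 : z.2 - K = z.2 - (K + 1) + 1 := by omega
    rw [GG_succ (z.2 - (K + 1)) hB, e1, Nat.add_zero, Nat.cast_add, Nat.cast_one]
    ring

theorem sc_GG_ge (hρ : IsRho ρ) (K : ℕ) : ∃ c : ℝ, 0 < c ∧ ∀ᶠ z : ℝ × ℕ in FA ρ,
    c * GG z.2 (bigB z.1) ≤ GG (z.2 - K) (bigB z.1) := by
  obtain ⟨Γ, hc, hp, hlim⟩ := sc_Gamma hρ K
  obtain ⟨C, hC0, hC⟩ := bdd_phase ρ (A := fun v => (Γ v)⁻¹) (hc.inv₀ fun v => (hp v).ne')
  have hε : -(C⁻¹ / 2) < 0 := by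
    have := inv_pos.mpr hC0
    linarith
  refine ⟨C⁻¹ / 2, by positivity, ?_⟩
  filter_upwards [hC, hlim.eventually (lt_mem_nhds hε), scale2_B_pos ρ] with z h1 h2 hB
  have h3 : C⁻¹ ≤ Γ (phaseArg ρ z.1 - z.2) :=
    inv_le_of_inv_le₀ (hp _) ((le_abs_self _).trans h1)
  rw [← le_div_iff₀ (GG_pos _ hB)]
  linarith

/-- `gSeq_rec` at `k = L + 1 + e` -/
theorem TT_eq (L D r : ℕ) : TT L D r = ∑ e ∈ range D, (yy r e : ℝ) *
    (gSeq (L + (e + 1)) - ∑ f ∈ range e, gSeq (L + (f + 1)) * aCoef (e - f)) := by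
  unfold TT tb
  simp only [Finset.mul_sum]
  rw [Finset.sum_comm]
  refine Finset.sum_congr rfl fun e _ => ?_
  have h1 := gSeq_rec (k := L + 1 + e) (by omega)
  rw [Finset.sum_range_add] at h1
  have h2 : ∑ f ∈ range e, gSeq (L + 1 + f) * aCoef (L + 1 + e - (L + 1 + f)) =
      ∑ f ∈ range e, gSeq (L + (f + 1)) * aCoef (e - f) := by
    refine Finset.sum_congr rfl fun f _ => ?_
    have e1 : L + 1 + f = L + (f + 1) := by omega
    have e2 : L + 1 + e - (L + 1 + f) = e - f := by omega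
    rw [e2, e1]
  have e3 : L + (e + 1) = L + 1 + e := by omega
  rw [e3, h1, h2, add_sub_cancel_right, Finset.mul_sum]
  exact Finset.sum_congr rfl fun i _ => by ring

theorem TT_nonneg (L D r : ℕ) : 0 ≤ TT L D r := by
  refine Finset.sum_nonneg fun i hi => mul_nonneg (gSeq_pos i).le (Finset.sum_nonneg fun e _ => ?_)
  have := Finset.mem_range.mp hi
  exact mul_nonneg (aCoef_pos (by omega)).le (Nat.cast_nonneg _)

theorem tb_nonneg {L i : ℕ} (D r : ℕ) (hi : i ≤ L) : 0 ≤ tb L D r i :=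
  Finset.sum_nonneg fun _ _ => mul_nonneg (aCoef_pos (by omega)).le (Nat.cast_nonneg _)

theorem sc_TT (hρ : IsRho ρ) (K D r : ℕ) : ∃ τ : ℝ,
    Tendsto (fun z : ℝ × ℕ => ((z.2 - K : ℕ) : ℝ) * TT (z.2 - K) D r / bigB z.1 -
      ρ ^ (phaseArg ρ z.1 - z.2) * τ) (FA ρ) (𝓝 0) := by
  obtain ⟨c, γ, -, -, -, -, hγ⟩ := renewal hρ
  refine ⟨∑ e ∈ range D, (yy r e : ℝ) * (γ / lam ρ * ρ ^ K / ρ ^ (e + 1) -
    ∑ f ∈ range e, γ / lam ρ * ρ ^ K / ρ ^ (f + 1) * aCoef (e - f)), ?_⟩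
  have h := tendsto_finsetSum (range D) fun e _ =>
    ((sc_lim hρ hγ K (e + 1)).sub (tendsto_finsetSum (range e) fun f _ =>
      (sc_lim hρ hγ K (f + 1)).mul_const (aCoef (e - f)))).const_mul (yy r e : ℝ)
  simp only [zero_mul, Finset.sum_const_zero, sub_zero, mul_zero] at h
  refine h.congr fun z => ?_
  rw [TT_eq, Finset.mul_sum, Finset.sum_div, Finset.mul_sum, ← Finset.sum_sub_distrib]
  refine Finset.sum_congr rfl fun e _ => ?_
  have e1 : ∑ f ∈ range e, (((z.2 - K : ℕ) : ℝ) * gSeq (z.2 - K + (f + 1)) / bigB z.1 -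
      γ / lam ρ * ρ ^ (phaseArg ρ z.1 - z.2) * ρ ^ K / ρ ^ (f + 1)) * aCoef (e - f) =
      ((z.2 - K : ℕ) : ℝ) / bigB z.1 * ∑ f ∈ range e, gSeq (z.2 - K + (f + 1)) * aCoef (e - f) -
      ρ ^ (phaseArg ρ z.1 - z.2) * ∑ f ∈ range e, γ / lam ρ * ρ ^ K / ρ ^ (f + 1) * aCoef (e - f) := by
    rw [Finset.mul_sum, Finset.mul_sum, ← Finset.sum_sub_distrib]
    exact Finset.sum_congr rfl fun f _ => by ring
  rw [e1]
  ring

end Crest.Agent.R20
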