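import Crest.Agent.R20.Vol
import Crest.Agent.R20.Scale2

/-!
# R20/HVol: volumes of heads
-/

set_option autoImplicit false

open Finset Filter Topology Crest.NumberTheoryR.TotientScale

namespace Crest.Agent.R20

variable {ρ : ℝ}

/-- `vol_up` with `γ = gSeq`, `gSeq_rec` -/
theorem vol_g_up (l : ℕ) (β : ℕ → ℝ) (B : ℝ) :
    Bd (fun h => Head 1 l h ∧ Cons l aA β B h) (wt 1 l)
      (pw l (B - ∑ i ∈ range (l + 1), gSeq i * β i + 2 * ∑ i ∈ range (l + 1), gSeq i) / gP l) := by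
  exact vol_up l aA β gSeq B gSeq_zero fun k hk =>
    ⟨gSeq_pos k, (gSeq_rec (mem_Icc.1 hk).1).le⟩

theorem vol_g_lo (l : ℕ) (β : ℕ → ℝ) (B : ℝ) (hβ : ∀ i ≤ l, 0 ≤ β i) :
    ∃ S : Finset (ℕ → ℕ), (∀ h ∈ S, Head 1 l h ∧ Cons l aA β B h) ∧
      pw l (B - ∑ i ∈ range (l + 1), gSeq i * β i - 2 * ∑ i ∈ range (l + 1), gSeq i) / gP l ≤
        ∑ h ∈ S, wt 1 l h := by
  exact vol_lo l aA β gSeq B gSeq_zero
    (fun k hk => ⟨gSeq_pos k, (gSeq_rec (mem_Icc.1 hk).1).ge⟩)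
    (fun i k hik _ => (aCoef_pos (show 1 ≤ k - i by omega)).le) hβ

theorem HVol_Sig_eq (ρ : ℝ) (M l : ℕ) : Sig ρ M l =
    ∑ k ∈ range (l + 1), gSeq k * sl ρ M k + 2 * ∑ k ∈ range (l + 1), gSeq k := by
  unfold Sig
  rw [mul_sum, ← sum_add_distrib]
  exact sum_congr rfl fun k _ => by ring

theorem HVol_Sig (hρ : IsRho ρ) : ∃ C : ℝ, 0 < C ∧ ∀ᶠ z : ℝ × ℕ in FA ρ, 0 < bigB z.1 ∧
    ∀ l ≤ z.2, l * Sig ρ z.2 l / bigB z.1 ≤ C := by
  obtain ⟨C, hC, h⟩ := sc_Sig hρ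
  refine ⟨C, hC, ?_⟩
  filter_upwards [h, (tendsto_bigB.comp (tendsto_fst_FA ρ)).eventually_gt_atTop 0] with z hz hB
  have hB : 0 < bigB z.1 := hB
  refine ⟨hB, fun l hl => ?_⟩
  rw [div_le_iff₀ hB]
  have h1 : (l : ℝ) * Sig ρ z.2 l ≤ z.2 * Sig ρ z.2 l :=
    mul_le_mul_of_nonneg_right (by exact_mod_cast hl) (Sig_nonneg hρ _ _)
  have h2 : C / xi ρ (z.2 - l) ≤ C := div_le_self hC.le (one_le_xi hρ _)
  exact h1.trans ((hz l hl).trans (mul_le_mul_of_nonneg_right h2 hB.le))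

theorem HVol_pw {l : ℕ} {B X w C : ℝ} (hB : 0 < B) (hX : X ≤ B + w) (h : l * w / B ≤ C) :
    pw l X / gP l ≤ Real.exp C * GG l B := by
  have h1 := (pw_mono l hX).trans (pw_add_le l hB w)
  have h2 : B ^ l / l.factorial * Real.exp (l * w / B) ≤ B ^ l / l.factorial * Real.exp C :=
    mul_le_mul_of_nonneg_left (Real.exp_le_exp.2 h) (by positivity)
  refine (div_le_div_of_nonneg_right (h1.trans h2) (gP_pos l).le).trans_eq ?_
  unfold GG
  rw [← div_div]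
  ring

theorem HVol_pow (κ : ℝ) (i l : ℕ) : ∏ j ∈ range l, (if i < j then κ else 1) = κ ^ (l - i - 1) := by
  induction l with
  | zero => simp
  | succ l ih =>
    rw [prod_range_succ, ih]
    split_ifs with h
    · rw [show l + 1 - i - 1 = l - i - 1 + 1 by omega, pow_succ]
    · rw [show l + 1 - i - 1 = l - i - 1 by omega, mul_one]

theorem HVol_prod (hρ : IsRho ρ) {c : ℝ} (hc : 0 < c) (hlo : ∀ n, c ≤ gSeq n * ρ ^ n) {j k : ℕ}
    (hjk : j ≤ k) :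
    c ^ 2 * gSeq k ≤ gSeq j * gSeq (k - j) ∧ gSeq j * gSeq (k - j) ≤ gSeq k / c := by
  have hp : 0 < ρ ^ k := pow_pos hρ.1 k
  have e : gSeq j * gSeq (k - j) * ρ ^ k = (gSeq j * ρ ^ j) * (gSeq (k - j) * ρ ^ (k - j)) := by
    conv_lhs => rw [← Nat.add_sub_cancel' hjk, pow_add, Nat.add_sub_cancel_left]
    ring
  constructor
  · refine le_of_mul_le_mul_right ?_ hp
    rw [e]
    calc c ^ 2 * gSeq k * ρ ^ k = c ^ 2 * (gSeq k * ρ ^ k) := by ring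
      _ ≤ c ^ 2 * 1 := mul_le_mul_of_nonneg_left (gSeq_le hρ k) (by positivity)
      _ = c * c := by ring
      _ ≤ _ := mul_le_mul (hlo j) (hlo _) hc.le (hc.le.trans (hlo j))
  · rw [le_div_iff₀ hc]
    refine le_of_mul_le_mul_right ?_ hp
    have h1 : (gSeq j * ρ ^ j) * (gSeq (k - j) * ρ ^ (k - j)) ≤ 1 * 1 :=
      mul_le_mul (gSeq_le hρ j) (gSeq_le hρ _) (hc.le.trans (hlo _)) zero_le_one
    calc gSeq j * gSeq (k - j) * c * ρ ^ k = (gSeq j * gSeq (k - j) * ρ ^ k) * c := by ring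
      _ ≤ 1 * 1 * c := by rw [e]; exact mul_le_mul_of_nonneg_right h1 hc.le
      _ = c := by ring
      _ ≤ _ := hlo k

/-- `pw_add_le`, `sc_Sig` -/
theorem H1 (hρ : IsRho ρ) : ∃ C : ℝ, 0 < C ∧ ∀ᶠ z : ℝ × ℕ in FA ρ, ∀ l ≤ z.2,
    Bd (fun h => Head 1 l h ∧ Cons l aA (fun i => -sl ρ z.2 i) (bigB z.1) h) (wt 1 l)
      (C * GG l (bigB z.1)) := by
  obtain ⟨C, hC, h⟩ := HVol_Sig hρ
  refine ⟨Real.exp C, Real.exp_pos C, ?_⟩
  filter_upwards [h] with z ⟨hB, hz⟩ l hl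
  refine (vol_g_up l _ _).mono (fun _ h => h) (fun _ _ => le_rfl) ?_
  have e : bigB z.1 - ∑ i ∈ range (l + 1), gSeq i * -sl ρ z.2 i + 2 * ∑ i ∈ range (l + 1), gSeq i =
      bigB z.1 + Sig ρ z.2 l := by
    rw [HVol_Sig_eq]
    simp only [mul_neg, sum_neg_distrib]
    ring
  rw [e]
  exact HVol_pw hB le_rfl (hz l hl)

/-- `∑_{i ≤ l} g_i a_{l+1-i} = g_{l+1}`; `sc_lg_ge` with `k = l + 1`, `xi_pow_eight` -/
theorem H2 (hρ : IsRho ρ) : ∃ C c : ℝ, 0 < C ∧ 0 < c ∧ ∀ᶠ z : ℝ × ℕ in FA ρ, ∀ l : ℕ, l < z.2 →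
    z.2 ≤ 20 * l → ∀ t : ℝ, 0 ≤ t →
    Bd (fun h => Head 1 l h ∧ Cons l aA (fun i => aCoef (l + 1 - i) * t - sl ρ z.2 i) (bigB z.1) h)
      (wt 1 l) (C * GG l (bigB z.1) * Real.exp (-(c * t / xi ρ (z.2 - (l + 1)) ^ 8))) := by
  obtain ⟨C, hC, h⟩ := HVol_Sig hρ
  obtain ⟨c, hc, h'⟩ := sc_lg_ge hρ
  refine ⟨Real.exp C, c, Real.exp_pos C, hc, ?_⟩
  filter_upwards [h, h'] with z ⟨hB, hz⟩ hz' l hl hl' t ht
  refine (vol_g_up l _ _).mono (fun _ h => h) (fun _ _ => le_rfl) ?_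
  have e : bigB z.1 - ∑ i ∈ range (l + 1), gSeq i * (aCoef (l + 1 - i) * t - sl ρ z.2 i) +
      2 * ∑ i ∈ range (l + 1), gSeq i = bigB z.1 + (Sig ρ z.2 l - gSeq (l + 1) * t) := by
    rw [HVol_Sig_eq, gSeq_rec (k := l + 1) (by omega), sum_mul]
    simp only [mul_sub, sum_sub_distrib, mul_assoc]
    ring
  rw [e]
  have h1 := hz' l (l + 1) hl' hl
  have h2 := xi_pow_eight hρ (z.2 - (l + 1))
  have h3 : 0 < xi ρ (z.2 - (l + 1)) ^ 8 := pow_pos (zero_lt_one.trans_le (one_le_xi hρ _)) _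
  have h4 : c * t / xi ρ (z.2 - (l + 1)) ^ 8 = c * ρ ^ (z.2 - (l + 1)) * t := by
    rw [div_eq_iff h3.ne']
    linear_combination (-(c * t)) * h2
  have h5 : c * ρ ^ (z.2 - (l + 1)) * t ≤ l * (gSeq (l + 1) * t) / bigB z.1 := by
    rw [le_div_iff₀ hB]
    nlinarith [mul_le_mul_of_nonneg_right h1 ht]
  have h6 : l * (Sig ρ z.2 l - gSeq (l + 1) * t) / bigB z.1 ≤
      C + -(c * t / xi ρ (z.2 - (l + 1)) ^ 8) := by
    rw [h4, mul_sub, sub_div]
    linarith [hz l hl.le]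
  refine (HVol_pw hB le_rfl h6).trans_eq ?_
  rw [Real.exp_add]
  ring

/-- A small gap at level `i` strengthens row `i+1`: from row `i` and the gap,
`(1 - a_1) y_{i+1} ≥ β i - μ + ∑_{k > i+1} a_{k-i-1} y_k` (`aCoef_mono`).  `vol_up` with row `i+1` of `A` multiplied by
`1/(1 - a_1) = 1 + κ₀`, `β (i+1)` replaced by `(β i - μ)/(1 - a_1)` and
`γ k = g_k + (if i+1 < k then κ₀ g_{i+1} g_{k-i-1} else 0)` (equality in the recursion, by `gSeq_rec` twice).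
With `c` from `renewal` and `gSeq_le`: `c² g_k ≤ g_{i+1} g_{k-i-1} ≤ g_k / c`; `κ = 1 + κ₀ c²`, `C₁ = 1 + κ₀/c`. -/
theorem vol_gap (hρ : IsRho ρ) : ∃ κ C₁ : ℝ, 1 < κ ∧ 1 ≤ C₁ ∧ ∀ l i : ℕ, i < l → ∃ γ : ℕ → ℝ,
    (∀ k, gSeq k ≤ γ k ∧ γ k ≤ C₁ * gSeq k) ∧ ∀ (β : ℕ → ℝ) (B μ : ℝ),
    Bd (fun h => Head 1 l h ∧ Cons l aA β B h ∧ lev B h i ≤ th (h (i + 1)) + μ) (wt 1 l)
      (pw l (B - ∑ k ∈ (range (l + 1)).erase (i + 1), γ k * β k -
          gSeq (i + 1) * ((β i - μ) / (1 - aCoef 1)) + 2 * ∑ k ∈ range (l + 1), γ k) /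
        (gP l * κ ^ (l - i - 1))) := by
  obtain ⟨c, γ₀, hc, hc1, -, hlo, -⟩ := renewal hρ
  have ha := aCoef_one
  have ha1 : 0 < 1 - aCoef 1 := by linarith [ha.2]
  obtain ⟨κ₀, hκ₀, hκ⟩ : ∃ κ₀ : ℝ, 0 < κ₀ ∧ (1 + κ₀) * (1 - aCoef 1) = 1 :=
    ⟨aCoef 1 / (1 - aCoef 1), div_pos (by linarith [ha.1]) ha1, by field_simp; ring⟩
  have hdiv : ∀ x : ℝ, x / (1 - aCoef 1) = (1 + κ₀) * x := fun x => by
    rw [div_eq_iff ha1.ne']
    linear_combination (-x) * hκ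
  refine ⟨1 + κ₀ * c ^ 2, 1 + κ₀ / c, by nlinarith [mul_pos hκ₀ (pow_pos hc 2)],
    by linarith [div_pos hκ₀ hc], fun l i hil => ?_⟩
  set γ : ℕ → ℝ := fun k => gSeq k + if i + 1 < k then κ₀ * (gSeq (i + 1) * gSeq (k - (i + 1))) else 0
    with hγ
  have hγ1 : ∀ k, gSeq k * (if i + 1 < k then 1 + κ₀ * c ^ 2 else 1) ≤ γ k := by
    intro k
    simp only [hγ]
    split_ifs with hk
    · have := (HVol_prod hρ hc hlo hk.le).1
      nlinarith [mul_le_mul_of_nonneg_left this hκ₀.le]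
    · simp
  have hγ2 : ∀ k, gSeq k ≤ γ k := by
    intro k
    simp only [hγ]
    split_ifs with hk
    · have := mul_pos hκ₀ (mul_pos (gSeq_pos (i + 1)) (gSeq_pos (k - (i + 1))))
      linarith
    · simp
  have hγ3 : ∀ k, γ k ≤ (1 + κ₀ / c) * gSeq k := by
    intro k
    simp only [hγ]
    split_ifs with hk
    · have h1 := mul_le_mul_of_nonneg_left (HVol_prod hρ hc hlo hk.le).2 hκ₀.le
      have e : κ₀ * (gSeq k / c) = κ₀ / c * gSeq k := by ring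
      linarith
    · have := mul_pos (div_pos hκ₀ hc) (gSeq_pos k)
      linarith
  refine ⟨γ, fun k => ⟨hγ2 k, hγ3 k⟩, fun β B μ => ?_⟩
  set A : ℕ → ℕ → ℝ := fun j k => if j = i + 1 then (1 + κ₀) * aA j k else aA j k with hA
  set β' : ℕ → ℝ := fun j => if j = i + 1 then (β i - μ) / (1 - aCoef 1) else β j with hβ'
  have hrec : ∀ k ∈ Icc 1 l, 0 < γ k ∧ γ k ≤ ∑ j ∈ range k, γ j * A j k := by
    intro k hk
    refine ⟨(gSeq_pos k).trans_le (hγ2 k), le_of_eq ?_⟩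
    have e : ∀ j, γ j * A j k = gSeq j * aCoef (k - j) +
        if i + 1 ≤ j then κ₀ * gSeq (i + 1) * (gSeq (j - (i + 1)) * aCoef (k - j)) else 0 := by
      intro j
      simp only [hγ, hA, aA]
      rcases lt_trichotomy j (i + 1) with hj | rfl | hj
      · rw [if_neg (by omega), if_neg (by omega), if_neg (by omega)]
        ring
      · rw [if_neg (lt_irrefl _), if_pos rfl, if_pos le_rfl, Nat.sub_self, gSeq_zero]
        ring
      · rw [if_pos hj, if_neg (by omega), if_pos hj.le]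
        ring
    rw [sum_congr rfl fun j _ => e j, sum_add_distrib, ← gSeq_rec (mem_Icc.1 hk).1, ← sum_filter]
    have e2 : (range k).filter (fun j => i + 1 ≤ j) = Ico (i + 1) k := by
      ext j
      simp only [mem_filter, mem_range, mem_Ico]
      omega
    rw [e2, sum_Ico_eq_sum_range, ← mul_sum]
    simp only [hγ]
    split_ifs with hk'
    · rw [gSeq_rec (k := k - (i + 1)) (by omega), mul_assoc]
      congr 3
      refine sum_congr rfl fun m _ => ?_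
      rw [Nat.add_sub_cancel_left, Nat.sub_sub]
    · rw [show k - (i + 1) = 0 by omega]
      simp
  have hup := vol_up l A β' γ B (by simp [hγ, gSeq_zero]) hrec
  refine hup.mono (fun h hh => ⟨hh.1, fun j hj => ?_⟩) (fun _ _ => le_rfl) ?_
  · obtain ⟨-, h2, h3⟩ := hh
    by_cases hji : j = i + 1
    · subst hji
      have r := h2 i hil.le
      have e : Ioc i l = insert (i + 1) (Ioc (i + 1) l) := by
        ext k
        simp only [mem_insert, mem_Ioc]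
        omega
      rw [e, sum_insert (by simp)] at r
      have s : ∑ k ∈ Ioc (i + 1) l, aA (i + 1) k * (th (h k) : ℝ) ≤
          ∑ k ∈ Ioc (i + 1) l, aA i k * (th (h k) : ℝ) :=
        sum_le_sum fun k _ => mul_le_mul_of_nonneg_right (aCoef_mono (by omega)) (Nat.cast_nonneg _)
      have e1 : aA i (i + 1) = aCoef 1 := by simp [aA]
      have e2 : lev B h (i + 1) = th (h (i + 1)) := by simp [lev]
      simp only [hβ', hA, if_true, e2, mul_assoc, ← mul_sum, hdiv]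
      rw [e1] at r
      have t : β i - μ + ∑ k ∈ Ioc (i + 1) l, aA (i + 1) k * (th (h k) : ℝ) ≤
          (1 - aCoef 1) * (th (h (i + 1)) : ℝ) := by linarith
      have t2 := mul_le_mul_of_nonneg_left t (show 0 ≤ 1 + κ₀ by linarith)
      rw [← mul_assoc, hκ, one_mul, mul_add] at t2
      exact t2
    · simp only [hβ', hA, if_neg hji]
      exact h2 j hj
  · have e : ∑ k ∈ range (l + 1), γ k * β' k = ∑ k ∈ (range (l + 1)).erase (i + 1), γ k * β k +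
        gSeq (i + 1) * ((β i - μ) / (1 - aCoef 1)) := by
      rw [← sum_erase_add (range (l + 1)) _ (a := i + 1) (mem_range.2 (by omega))]
      congr 1
      · refine sum_congr rfl fun k hk => ?_
        simp only [hβ', if_neg (ne_of_mem_erase hk)]
      · simp [hγ, hβ']
    rw [e, ← sub_sub]
    have hκ1 : 0 < 1 + κ₀ * c ^ 2 := by positivity
    refine div_le_div_of_nonneg_left (pw_nonneg _ _) (mul_pos (gP_pos l) (pow_pos hκ1 _)) ?_
    rw [← HVol_pow, gP, ← prod_mul_distrib]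
    refine prod_le_prod (fun j _ => mul_nonneg (gSeq_pos _).le ?_) fun j _ => ?_
    · split_ifs
      · exact hκ1.le
      · exact zero_le_one
    · have := hγ1 (j + 1)
      simpa only [Nat.add_lt_add_iff_right] using this

/-- `vol_gap`; `sl ρ M i = xi ρ 1 ^ 7 * sl ρ M (i+1)`; the argument of `pw` is `≤ B + C' Sig` -/
theorem H3 (hρ : IsRho ρ) : ∃ C κ : ℝ, 0 < C ∧ 1 < κ ∧ ∀ᶠ z : ℝ × ℕ in FA ρ, ∀ l ≤ z.2, ∀ i < l,
    Bd (fun h => Head 1 l h ∧ Cons l aA (fun i => -sl ρ z.2 i) (bigB z.1) h ∧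
        lev (bigB z.1) h i ≤ th (h (i + 1)) + sl ρ z.2 i) (wt 1 l)
      (C * GG l (bigB z.1) / κ ^ (l - i - 1)) := by
  obtain ⟨C, hC, h⟩ := HVol_Sig hρ
  obtain ⟨κ, C₁, hκ, hC₁, hv⟩ := vol_gap hρ
  have hx : 0 ≤ xi ρ 1 ^ 7 := pow_nonneg (zero_le_one.trans (one_le_xi hρ 1)) _
  refine ⟨Real.exp ((C₁ + 4 * xi ρ 1 ^ 7) * C), κ, Real.exp_pos _, hκ, ?_⟩
  filter_upwards [h] with z ⟨hB, hz⟩ l hl i hi
  obtain ⟨γ, hγ, hv⟩ := hv l i hi
  refine (hv _ _ _).mono (fun _ h => h) (fun _ _ => le_rfl) ?_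
  rw [← div_div]
  refine div_le_div_of_nonneg_right ?_ (pow_nonneg (by linarith) _)
  have hs := sl_nonneg hρ z.2
  refine HVol_pw (w := (C₁ + 4 * xi ρ 1 ^ 7) * Sig ρ z.2 l) hB ?_ ?_
  · have s1 : ∑ k ∈ (range (l + 1)).erase (i + 1), γ k * sl ρ z.2 k ≤
        C₁ * ∑ k ∈ range (l + 1), gSeq k * sl ρ z.2 k := by
      rw [mul_sum]
      refine (sum_le_sum fun k _ => ?_).trans (sum_le_sum_of_subset_of_nonneg (erase_subset _ _)
        fun k _ _ => mul_nonneg (by linarith) (mul_nonneg (gSeq_pos k).le (hs k)))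
      rw [← mul_assoc]
      exact mul_le_mul_of_nonneg_right (hγ k).2 (hs k)
    have s2 : ∑ k ∈ range (l + 1), γ k ≤ C₁ * ∑ k ∈ range (l + 1), gSeq k := by
      rw [mul_sum]
      exact sum_le_sum fun k _ => (hγ k).2
    have s3 : gSeq (i + 1) * sl ρ z.2 (i + 1) ≤ Sig ρ z.2 l := by
      have := single_le_sum (s := range (l + 1)) (f := fun k => gSeq k * (sl ρ z.2 k + 2))
        (fun k _ => mul_nonneg (gSeq_pos k).le (by linarith [hs k])) (a := i + 1)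
        (mem_range.2 (by omega))
      refine le_trans ?_ this
      exact mul_le_mul_of_nonneg_left (by linarith) (gSeq_pos _).le
    have s4 : sl ρ z.2 i = xi ρ 1 ^ 7 * sl ρ z.2 (i + 1) := by
      unfold sl
      rw [show z.2 - i = 1 + (z.2 - (i + 1)) by omega, xi_add, mul_pow]
    have s5 : -(4 * sl ρ z.2 i) ≤ (-sl ρ z.2 i - sl ρ z.2 i) / (1 - aCoef 1) := by
      rw [le_div_iff₀ (by linarith [aCoef_one.2])]
      nlinarith [aCoef_one.2, hs i]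
    have s6 := mul_le_mul_of_nonneg_left s5 (gSeq_pos (i + 1)).le
    have s7 : gSeq (i + 1) * (4 * sl ρ z.2 i) ≤ 4 * xi ρ 1 ^ 7 * Sig ρ z.2 l := by
      rw [s4]
      nlinarith [mul_le_mul_of_nonneg_left s3 hx]
    have s8 : C₁ * Sig ρ z.2 l = C₁ * ∑ k ∈ range (l + 1), gSeq k * sl ρ z.2 k +
        2 * (C₁ * ∑ k ∈ range (l + 1), gSeq k) := by
      rw [HVol_Sig_eq]
      ring
    simp only [mul_neg, sum_neg_distrib] at s6 ⊢
    linarith
  · have := mul_le_mul_of_nonneg_left (hz l hl) (show 0 ≤ C₁ + 4 * xi ρ 1 ^ 7 by linarith)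
    refine le_trans (le_of_eq ?_) this
    ring

end Crest.Agent.R20
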