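import Crest.Agent.R20.Renew

/-!
# R20/Scale: elementary asymptotics along `FA ρ`
-/

set_option autoImplicit false

open Finset Filter Topology Crest.NumberTheoryR.TotientScale

namespace Crest.Agent.R20

variable {ρ : ℝ}

theorem Scale_xi_eq (ρ : ℝ) (j : ℕ) : xi ρ j = xi ρ 1 ^ j := by
  unfold xi
  rw [pow_one]

theorem Scale_log_le : ∀ᶠ L : ℝ in atTop, Real.log L ≤ L / 4 ∧ 0 ≤ L := by
  filter_upwards [Real.isLittleO_log_id_atTop.bound (show (0 : ℝ) < 1 / 4 by norm_num),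
    eventually_ge_atTop 0] with L h h0
  rw [Real.norm_eq_abs, id, Real.norm_of_nonneg h0] at h
  exact ⟨by linarith [le_abs_self (Real.log L)], h0⟩

theorem lam_pos (hρ : IsRho ρ) : 0 < lam ρ := by
  exact Real.log_pos (one_lt_one_div hρ.1 hρ.2.1)

theorem one_lt_xi_one (hρ : IsRho ρ) : 1 < xi ρ 1 := by
  unfold xi
  rw [pow_one]
  exact Real.one_lt_rpow_of_pos_of_lt_one_of_neg hρ.1 hρ.2.1 (by norm_num)

theorem xi_add (i j : ℕ) : xi ρ (i + j) = xi ρ i * xi ρ j := by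
  exact pow_add _ _ _

theorem one_le_xi (hρ : IsRho ρ) (j : ℕ) : 1 ≤ xi ρ j := by
  rw [Scale_xi_eq]
  exact one_le_pow₀ (one_lt_xi_one hρ).le

theorem xi_mono (hρ : IsRho ρ) : Monotone (xi ρ) := by
  intro i j hij
  rw [Scale_xi_eq, Scale_xi_eq ρ j]
  exact pow_le_pow_right₀ (one_lt_xi_one hρ).le hij

theorem xi_pow_eight (hρ : IsRho ρ) (j : ℕ) : xi ρ j ^ 8 * ρ ^ j = 1 := by
  have h : (ρ ^ (-(1 / 8) : ℝ)) ^ 8 * ρ = 1 := by
    rw [← Real.rpow_natCast, ← Real.rpow_mul hρ.1.le]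
    norm_num
    rw [Real.rpow_neg_one]
    exact inv_mul_cancel₀ hρ.1.ne'
  unfold xi
  rw [← pow_mul, mul_comm j 8, pow_mul, ← mul_pow, h, one_pow]

theorem tendsto_xi (hρ : IsRho ρ) : Tendsto (xi ρ) atTop atTop := by
  exact (tendsto_pow_atTop_atTop_of_one_lt (one_lt_xi_one hρ)).congr fun j => (Scale_xi_eq ρ j).symm

theorem xi_big (hρ : IsRho ρ) : ∀ᶠ j : ℕ in atTop, ((j : ℝ) + 2) ^ 4 ≤ xi ρ j := by
  have hq := one_lt_xi_one hρ
  have h := (tendsto_pow_const_div_const_pow_of_one_lt 4 hq).comp (tendsto_add_atTop_nat 2)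
  have hp : 0 < 1 / xi ρ 1 ^ 2 := by positivity
  filter_upwards [h.eventually (gt_mem_nhds hp)] with j hj
  simp only [Function.comp] at hj
  rw [div_lt_div_iff₀ (by positivity) (by positivity), pow_add, one_mul] at hj
  push_cast at hj
  rw [Scale_xi_eq]
  exact (lt_of_mul_lt_mul_right hj (by positivity)).le

theorem sl_nonneg (hρ : IsRho ρ) (M i : ℕ) : 0 ≤ sl ρ M i := by
  exact pow_nonneg (zero_le_one.trans (one_le_xi hρ _)) _

theorem tendsto_bigB : Tendsto bigB atTop atTop := by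
  exact Real.tendsto_log_atTop.comp Real.tendsto_log_atTop

theorem exp_neg_bigB : ∀ᶠ x : ℝ in atTop, Real.exp (-bigB x) = 1 / Real.log x := by
  filter_upwards [eventually_gt_atTop 1] with x hx
  rw [bigB, Real.exp_neg, Real.exp_log (Real.log_pos hx), one_div]

theorem tendsto_phaseArg (hρ : IsRho ρ) : Tendsto (phaseArg ρ) atTop atTop := by
  have hL := Real.tendsto_log_atTop.comp tendsto_bigB
  refine Tendsto.atTop_div_const (lam_pos hρ) ?_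
  refine tendsto_atTop_mono' _ ?_ (hL.atTop_div_const two_pos)
  filter_upwards [hL.eventually Scale_log_le] with x hx
  simp only [Function.comp] at hx ⊢
  linarith [hx.1, hx.2]

theorem tendsto_M (hρ : IsRho ρ) : Tendsto (fun z : ℝ × ℕ => z.2) (FA ρ) atTop := by
  refine tendsto_natCast_atTop_iff (R := ℝ) |>.1 ?_
  refine tendsto_atTop_mono' _ ?_
    (tendsto_atTop_add_const_right _ (-3) ((tendsto_phaseArg hρ).comp (tendsto_fst_FA ρ)))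
  filter_upwards [adm_FA ρ] with z hz
  simp only [Function.comp]
  linarith [hz.2]

theorem tendsto_xiM (hρ : IsRho ρ) : Tendsto (fun z : ℝ × ℕ => xi ρ z.2) (FA ρ) atTop := by
  exact (tendsto_xi hρ).comp (tendsto_M hρ)

theorem rho_rpow_phase (hρ : IsRho ρ) :
    ∀ᶠ x : ℝ in atTop, ρ ^ phaseArg ρ x = Real.log (bigB x) / bigB x := by
  filter_upwards [tendsto_bigB.eventually (eventually_gt_atTop 1)] with x hx
  have hl := lam_pos hρ
  have e : Real.log ρ = -lam ρ := by rw [lam, one_div, Real.log_inv, neg_neg]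
  rw [Real.rpow_def_of_pos hρ.1, e, phaseArg, neg_mul, mul_div_cancel₀ _ hl.ne', neg_sub,
    Real.exp_sub, Real.exp_log (Real.log_pos hx), Real.exp_log (by linarith)]

theorem xiM_bounds (hρ : IsRho ρ) : ∀ᶠ z : ℝ × ℕ in FA ρ,
    ρ ^ 3 * (bigB z.1 / Real.log (bigB z.1)) ≤ xi ρ z.2 ^ 8 ∧
      xi ρ z.2 ^ 8 ≤ bigB z.1 / Real.log (bigB z.1) := by
  filter_upwards [adm_FA ρ, (tendsto_fst_FA ρ).eventually (rho_rpow_phase hρ),
    (tendsto_bigB.comp (tendsto_fst_FA ρ)).eventually (eventually_gt_atTop 1)] with z hz h hB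
  simp only [Function.comp] at hB
  have hL := Real.log_pos hB
  have h8 := xi_pow_eight hρ z.2
  have hx : 0 < xi ρ z.2 ^ 8 := pow_pos (zero_lt_one.trans_le (one_le_xi hρ _)) _
  have h1 := Real.rpow_le_rpow_of_exponent_ge hρ.1 hρ.2.1.le hz.1
  have h2 := Real.rpow_le_rpow_of_exponent_ge hρ.1 hρ.2.1.le hz.2
  rw [h, Real.rpow_natCast, div_le_iff₀ (by linarith)] at h1
  rw [h, show (z.2 : ℝ) + 3 = ((z.2 + 3 : ℕ) : ℝ) by push_cast; ring, Real.rpow_natCast,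
    le_div_iff₀ (by linarith), pow_add] at h2
  constructor
  · rw [← mul_div_assoc, div_le_iff₀ hL]
    have := mul_le_mul_of_nonneg_left h2 hx.le
    calc ρ ^ 3 * bigB z.1 = xi ρ z.2 ^ 8 * ρ ^ z.2 * (ρ ^ 3 * bigB z.1) := by rw [h8, one_mul]
      _ ≤ _ := by linarith
  · rw [le_div_iff₀ hL]
    have := mul_le_mul_of_nonneg_left h1 hx.le
    calc xi ρ z.2 ^ 8 * Real.log (bigB z.1) ≤ xi ρ z.2 ^ 8 * ρ ^ z.2 * bigB z.1 := by linarith
      _ = _ := by rw [h8, one_mul]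

theorem M_le (hρ : IsRho ρ) : ∀ᶠ z : ℝ × ℕ in FA ρ,
    lam ρ * z.2 ≤ Real.log (bigB z.1) ∧ Real.log (bigB z.1) ≤ 2 * lam ρ * z.2 := by
  have hL := (Real.tendsto_log_atTop.comp tendsto_bigB).comp (tendsto_fst_FA ρ)
  have hl := lam_pos hρ
  filter_upwards [adm_FA ρ, hL.eventually Scale_log_le,
    hL.eventually (eventually_ge_atTop (12 * lam ρ)), hL.eventually (eventually_ge_atTop 1)]
    with z hz h1 h2 h3
  simp only [Function.comp] at h1 h2 h3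
  obtain ⟨ha, hb⟩ := hz
  rw [phaseArg, le_div_iff₀ hl] at ha
  rw [phaseArg, div_le_iff₀ hl] at hb
  have := Real.log_nonneg h3
  constructor <;> linarith [h1.1, h1.2]

/-- `ξ_M^7 ≤ B^{7/8}` and `ξ_M^8 ≥ ρ³ B / log B ≥ √B` -/
theorem sc_small (hρ : IsRho ρ) (C : ℝ) : ∀ᶠ z : ℝ × ℕ in FA ρ,
    xi ρ z.2 ^ 7 + C ≤ bigB z.1 / 100 ∧ 3 * Real.log (bigB z.1) + C ≤ xi ρ z.2 := by
  have hB := tendsto_bigB.comp (tendsto_fst_FA ρ)
  have hM := tendsto_natCast_atTop_atTop (R := ℝ) |>.comp (tendsto_M hρ)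
  have hl := lam_pos hρ
  filter_upwards [xiM_bounds hρ, M_le hρ, (tendsto_M hρ).eventually (xi_big hρ),
    (tendsto_xiM hρ).eventually (eventually_ge_atTop 200),
    hB.eventually (eventually_ge_atTop (200 * C)), hB.eventually (eventually_ge_atTop 1),
    (Real.tendsto_log_atTop.comp hB).eventually (eventually_ge_atTop 1),
    hM.eventually (eventually_ge_atTop (6 * lam ρ + |C|))] with z h1 h2 h3 h4 h5 h6 h7 h8
  simp only [Function.comp] at h5 h6 h7 h8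
  constructor
  · have e1 : xi ρ z.2 ^ 8 ≤ bigB z.1 := h1.2.trans (div_le_self (by linarith) h7)
    have e2 : xi ρ z.2 ^ 7 * 200 ≤ xi ρ z.2 ^ 7 * xi ρ z.2 :=
      mul_le_mul_of_nonneg_left h4 (by positivity)
    have e3 : xi ρ z.2 ^ 7 * xi ρ z.2 = xi ρ z.2 ^ 8 := by ring
    linarith
  · have hM0 : (0 : ℝ) ≤ z.2 := Nat.cast_nonneg _
    have e1 : ((z.2 : ℝ) + 2) ^ 2 ≤ ((z.2 : ℝ) + 2) ^ 4 :=
      pow_le_pow_right₀ (by linarith) (by norm_num)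
    have e2 := mul_le_mul_of_nonneg_right h8 hM0
    have e3 := le_abs_self C
    have e4 := abs_nonneg C
    nlinarith [h2.2, mul_nonneg e4 hM0]

/-- `(ξ_j^9)^80 = ξ_1^(720 j) ≥ ξ_1^(648 M) = (ξ_M^8)^81 ≥ (ρ³ B/log B)^81 ≥ (B + C)^80` -/
theorem sc_auto (hρ : IsRho ρ) (C : ℝ) : ∀ᶠ z : ℝ × ℕ in FA ρ, ∀ j : ℕ, 9 * z.2 ≤ 10 * j →
    bigB z.1 + C ≤ xi ρ j ^ 9 := by
  have hB := tendsto_bigB.comp (tendsto_fst_FA ρ)
  have hi : Tendsto (fun z : ℝ × ℕ => z.2 / 10) (FA ρ) atTop :=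
    (Nat.tendsto_div_const_atTop (by norm_num)).comp (tendsto_M hρ)
  have hl := lam_pos hρ
  have hρ3 : 0 < ρ ^ 3 := pow_pos hρ.1 3
  filter_upwards [xiM_bounds hρ, M_le hρ, hi.eventually (xi_big hρ),
    hB.eventually (eventually_ge_atTop C), hB.eventually (eventually_gt_atTop 1),
    (tendsto_natCast_atTop_atTop (R := ℝ) |>.comp hi).eventually
      (eventually_ge_atTop (40 * lam ρ / ρ ^ 3))] with z h1 h2 h3 h4 h5 h6 j hj
  simp only [Function.comp] at h4 h5 h6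
  set i := z.2 / 10 with hi'
  have hL := Real.log_pos h5
  have e1 : xi ρ z.2 ^ 8 * xi ρ i ≤ xi ρ j ^ 9 := by
    rw [Scale_xi_eq ρ z.2, Scale_xi_eq ρ i, Scale_xi_eq ρ j, ← pow_mul, ← pow_mul, ← pow_add]
    exact pow_le_pow_right₀ (one_lt_xi_one hρ).le (by omega)
  have hi0 : (0 : ℝ) ≤ i := Nat.cast_nonneg _
  have e2 : (z.2 : ℝ) ≤ 10 * (i + 2) := by
    have : z.2 ≤ 10 * (i + 2) := by omega
    exact_mod_cast this
  have e3 : ((i : ℝ) + 2) ^ 2 ≤ ((i : ℝ) + 2) ^ 4 := pow_le_pow_right₀ (by linarith) (by norm_num)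
  rw [div_le_iff₀ hρ3] at h6
  have e4 : 2 * Real.log (bigB z.1) ≤ ρ ^ 3 * xi ρ i := by
    have a1 : 2 * lam ρ * z.2 ≤ 2 * lam ρ * (10 * (i + 2)) :=
      mul_le_mul_of_nonneg_left e2 (by positivity)
    have a2 : 40 * lam ρ * (i + 2) ≤ (i + 2) * ρ ^ 3 * (i + 2) :=
      mul_le_mul_of_nonneg_right (by nlinarith) (by linarith)
    have a3 : ρ ^ 3 * ((i : ℝ) + 2) ^ 2 ≤ ρ ^ 3 * xi ρ i :=
      mul_le_mul_of_nonneg_left (e3.trans h3) hρ3.le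
    nlinarith [h2.2]
  have e5 : 2 * bigB z.1 ≤ ρ ^ 3 * (bigB z.1 / Real.log (bigB z.1)) * xi ρ i := by
    have a1 := mul_le_mul_of_nonneg_left e4 (show 0 ≤ bigB z.1 / Real.log (bigB z.1) by positivity)
    have a2 : bigB z.1 / Real.log (bigB z.1) * (2 * Real.log (bigB z.1)) = 2 * bigB z.1 := by
      field_simp
    linarith
  have e6 := mul_le_mul_of_nonneg_right h1.1 (zero_le_one.trans (one_le_xi hρ i))
  linarith

theorem Scale_L_bounds (hρ : IsRho ρ) : ∀ᶠ z : ℝ × ℕ in FA ρ,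
    ρ ^ 3 * (ρ ^ z.2 * bigB z.1) ≤ Real.log (bigB z.1) ∧
      Real.log (bigB z.1) ≤ ρ ^ z.2 * bigB z.1 := by
  filter_upwards [xiM_bounds hρ,
    (tendsto_bigB.comp (tendsto_fst_FA ρ)).eventually (eventually_gt_atTop 1)] with z h hB
  simp only [Function.comp] at hB
  have hL := Real.log_pos hB
  have h8 := xi_pow_eight hρ z.2
  have hp : 0 < ρ ^ z.2 := pow_pos hρ.1 _
  obtain ⟨h1, h2⟩ := h
  rw [← mul_div_assoc, div_le_iff₀ hL] at h1
  rw [le_div_iff₀ hL] at h2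
  have a1 := mul_le_mul_of_nonneg_left h1 hp.le
  have a2 := mul_le_mul_of_nonneg_left h2 hp.le
  have e : ρ ^ z.2 * (xi ρ z.2 ^ 8 * Real.log (bigB z.1)) = Real.log (bigB z.1) := by
    rw [← mul_assoc, mul_comm (ρ ^ z.2), h8, one_mul]
  constructor <;> linarith

/-- `g_k ≤ ρ^{-k}`, `M ≤ log B/λ`, `log B / B = ρ^φ ≤ ρ^M` -/
theorem sc_lg_le (hρ : IsRho ρ) : ∀ᶠ z : ℝ × ℕ in FA ρ, ∀ k ≤ z.2,
    z.2 * gSeq k ≤ ρ ^ (z.2 - k) / lam ρ * bigB z.1 := by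
  have hl := lam_pos hρ
  filter_upwards [Scale_L_bounds hρ, M_le hρ] with z h1 h2 k hk
  have hk' : ρ ^ z.2 = ρ ^ (z.2 - k) * ρ ^ k := by rw [← pow_add, Nat.sub_add_cancel hk]
  have hρk : 0 < ρ ^ k := pow_pos hρ.1 k
  have hg := gSeq_le hρ k
  have hM : (0 : ℝ) ≤ lam ρ * z.2 := by positivity
  rw [div_mul_eq_mul_div, le_div_iff₀ hl]
  refine le_of_mul_le_mul_right ?_ hρk
  calc (z.2 : ℝ) * gSeq k * lam ρ * ρ ^ k = lam ρ * z.2 * (gSeq k * ρ ^ k) := by ring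
    _ ≤ lam ρ * z.2 := mul_le_of_le_one_right hM hg
    _ ≤ ρ ^ z.2 * bigB z.1 := h2.1.trans h1.2
    _ = _ := by rw [hk']; ring

theorem sc_lg_ge (hρ : IsRho ρ) : ∃ c : ℝ, 0 < c ∧ ∀ᶠ z : ℝ × ℕ in FA ρ, ∀ l k : ℕ, z.2 ≤ 20 * l →
    k ≤ z.2 → c * ρ ^ (z.2 - k) * bigB z.1 ≤ l * gSeq k := by
  have hl := lam_pos hρ
  obtain ⟨c, γ, hc, -, -, hg, -⟩ := renewal hρ
  have hρ3 : 0 < ρ ^ 3 := pow_pos hρ.1 3
  refine ⟨c * ρ ^ 3 / (40 * lam ρ), by positivity, ?_⟩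
  filter_upwards [Scale_L_bounds hρ, M_le hρ] with z h1 h2 l k hl' hk
  have hk' : ρ ^ z.2 = ρ ^ (z.2 - k) * ρ ^ k := by rw [← pow_add, Nat.sub_add_cancel hk]
  have hρk : 0 < ρ ^ k := pow_pos hρ.1 k
  have hl2 : (z.2 : ℝ) ≤ 20 * l := by exact_mod_cast hl'
  have e1 : ρ ^ 3 * (ρ ^ z.2 * bigB z.1) ≤ 40 * lam ρ * l := by
    have := mul_le_mul_of_nonneg_left hl2 (show 0 ≤ 2 * lam ρ by positivity)
    linarith [h1.1, h2.2]
  rw [div_mul_eq_mul_div, div_mul_eq_mul_div, div_le_iff₀ (by positivity)]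
  refine le_of_mul_le_mul_right ?_ hρk
  calc c * ρ ^ 3 * ρ ^ (z.2 - k) * bigB z.1 * ρ ^ k = c * (ρ ^ 3 * (ρ ^ z.2 * bigB z.1)) := by
        rw [hk']; ring
    _ ≤ c * (40 * lam ρ * l) := mul_le_mul_of_nonneg_left e1 hc.le
    _ ≤ gSeq k * ρ ^ k * (40 * lam ρ * l) := mul_le_mul_of_nonneg_right (hg k) (by positivity)
    _ = _ := by ring

/-- `ρ^j (ξ_j^7 + 2) ≤ 3/ξ_j`, and `∑_{j ≥ j₀} 1/ξ_j ≤ C/ξ_{j₀}` (geometric) -/
theorem sc_Sig (hρ : IsRho ρ) : ∃ C : ℝ, 0 < C ∧ ∀ᶠ z : ℝ × ℕ in FA ρ, ∀ l ≤ z.2,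
    z.2 * Sig ρ z.2 l ≤ C / xi ρ (z.2 - l) * bigB z.1 := by
  have hl := lam_pos hρ
  have hq := one_lt_xi_one hρ
  have hq0 : 0 ≤ (xi ρ 1)⁻¹ := by positivity
  have hq1 : (xi ρ 1)⁻¹ < 1 := inv_lt_one_of_one_lt₀ hq
  have hq2 : 0 < 1 - (xi ρ 1)⁻¹ := by linarith
  refine ⟨3 / lam ρ * (1 - (xi ρ 1)⁻¹)⁻¹, by positivity, ?_⟩
  filter_upwards [sc_lg_le hρ,
    (tendsto_bigB.comp (tendsto_fst_FA ρ)).eventually (eventually_ge_atTop 0)] with z h1 hB l hlM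
  simp only [Function.comp] at hB
  have hx : ∀ j, 0 < xi ρ j := fun j => zero_lt_one.trans_le (one_le_xi hρ j)
  have key : ∀ j, ρ ^ j * (xi ρ j ^ 7 + 2) ≤ 3 / xi ρ j := by
    intro j
    have a1 : 1 ≤ xi ρ j ^ 7 := one_le_pow₀ (one_le_xi hρ j)
    have a2 := xi_pow_eight hρ j
    have a3 : 0 < ρ ^ j * xi ρ j := mul_pos (pow_pos hρ.1 j) (hx j)
    rw [le_div_iff₀ (hx j)]
    have a4 := mul_le_mul_of_nonneg_left a1 a3.le
    nlinarith
  have e1 : z.2 * Sig ρ z.2 l ≤ ∑ k ∈ range (l + 1),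
      3 / lam ρ / xi ρ (z.2 - l) * bigB z.1 * (xi ρ 1)⁻¹ ^ (l - k) := by
    rw [Sig, mul_sum]
    refine sum_le_sum fun k hk => ?_
    have hk' : k ≤ l := Nat.lt_succ_iff.1 (mem_range.1 hk)
    have a1 := h1 k (hk'.trans hlM)
    have a2 : xi ρ (z.2 - k) = xi ρ (z.2 - l) * xi ρ 1 ^ (l - k) := by
      rw [← Scale_xi_eq, ← xi_add]; congr 1; omega
    have a3 := sl_nonneg hρ z.2 k
    calc (z.2 : ℝ) * (gSeq k * (sl ρ z.2 k + 2)) = z.2 * gSeq k * (sl ρ z.2 k + 2) := by ring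
      _ ≤ ρ ^ (z.2 - k) / lam ρ * bigB z.1 * (sl ρ z.2 k + 2) :=
        mul_le_mul_of_nonneg_right a1 (by linarith)
      _ = bigB z.1 / lam ρ * (ρ ^ (z.2 - k) * (xi ρ (z.2 - k) ^ 7 + 2)) := by rw [sl]; ring
      _ ≤ bigB z.1 / lam ρ * (3 / xi ρ (z.2 - k)) :=
        mul_le_mul_of_nonneg_left (key _) (by positivity)
      _ = _ := by rw [a2, inv_pow]; ring
  have e2 : ∑ k ∈ range (l + 1), (xi ρ 1)⁻¹ ^ (l - k) ≤ (1 - (xi ρ 1)⁻¹)⁻¹ := by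
    have := sum_range_reflect (fun k => (xi ρ 1)⁻¹ ^ k) (l + 1)
    simp only [Nat.add_sub_cancel] at this
    rw [this]
    exact sum_le_hasSum _ (fun _ _ => by positivity) (hasSum_geometric_of_lt_one hq0 hq1)
  rw [← mul_sum] at e1
  have hx' := hx (z.2 - l)
  refine e1.trans ((mul_le_mul_of_nonneg_left e2 (by positivity)).trans (le_of_eq ?_))
  ring

theorem Sig_nonneg (hρ : IsRho ρ) (M l : ℕ) : 0 ≤ Sig ρ M l := by
  exact sum_nonneg fun k _ => mul_nonneg (gSeq_pos k).le (by linarith [sl_nonneg hρ M k])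

end Crest.Agent.R20
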