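import Crest.Agent.R20.Theta
import Crest.Agent.R20.Scale
import Crest.Agent.Lib.PNT.Main

/-!
# R20/PCount: counting the largest prime
-/

set_option autoImplicit false

open Finset Filter Topology Crest.NumberTheoryR.TotientScale

namespace Crest.Agent.R20

theorem PCount_card (y : ℝ) :
    ((range (⌊y⌋₊ + 1)).filter Nat.Prime).card = Nat.primeCounting ⌊y⌋₊ := by
  rw [Nat.primeCounting, Nat.primeCounting', Nat.count_eq_card_filter_range]

theorem PCount_quot {x a : ℝ} (hx : 1 ≤ x) {w : ℕ} (hw : 0 < w) (hwx : (w : ℝ) ≤ x ^ a) :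
    x ^ (1 - a) ≤ x / w := by
  have h0 : (0 : ℝ) < w := by exact_mod_cast hw
  rw [Real.rpow_sub (by linarith), Real.rpow_one]
  exact div_le_div_of_nonneg_left (by linarith) h0 hwx

theorem PCount_gen {δ : ℝ} (hδ : 0 < δ) : ∀ᶠ x : ℝ in atTop, ∀ a : ℝ, a ≤ 3 / 5 → ∀ w : ℕ, 0 < w →
    (w : ℝ) ≤ x ^ a →
    Bd (fun p : ℕ => p.Prime ∧ ((p : ℝ) - 1) * w ≤ x) (fun _ => 1)
      ((1 + δ) ^ 2 / (1 - a) * (x / Real.log x) / w) := by
  obtain ⟨Y, hY⟩ := eventually_atTop.1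
    (Crest.Agent.Lib.PNT.pnt.eventually (gt_mem_nhds (show (1 : ℝ) < 1 + δ by linarith)))
  filter_upwards [eventually_gt_atTop 1,
    (tendsto_rpow_atTop (show (0 : ℝ) < 2 / 5 by norm_num)).eventually_ge_atTop (max Y (1 / δ))]
    with x hx hxY a ha w hw hwx S hS
  have h0 : (0 : ℝ) < w := by exact_mod_cast hw
  have hq := PCount_quot hx.le hw hwx
  have hq1 : x ^ (2 / 5 : ℝ) ≤ x / w :=
    (Real.rpow_le_rpow_of_exponent_le hx.le (by linarith)).trans hq
  have hY1 : Y ≤ x / w := (le_max_left _ _).trans (hxY.trans hq1)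
  have hδ1 : 1 / δ ≤ x / w := (le_max_right _ _).trans (hxY.trans hq1)
  have hL : 0 < Real.log x := Real.log_pos hx
  have ha1 : 0 < 1 - a := by linarith
  have hxw : 0 < x / w := by positivity
  have hlog : (1 - a) * Real.log x ≤ Real.log (x / w + 1) := by
    rw [← Real.log_rpow (by linarith)]
    exact Real.log_le_log (Real.rpow_pos_of_pos (by linarith) _) (by linarith)
  have hlp : 0 < (1 - a) * Real.log x := by positivity
  have hsub : S ⊆ (range (⌊x / w + 1⌋₊ + 1)).filter Nat.Prime := by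
    intro p hp
    obtain ⟨h1, h2⟩ := hS p hp
    refine mem_filter.2 ⟨mem_range.2 (Nat.lt_succ_of_le (Nat.le_floor ?_)), h1⟩
    have : (p : ℝ) - 1 ≤ x / w := by rwa [le_div_iff₀ h0]
    linarith
  have hc : (S.card : ℝ) ≤ Nat.primeCounting ⌊x / w + 1⌋₊ := by
    rw [← PCount_card]
    exact_mod_cast card_le_card hsub
  have h1 := hY (x / w + 1) (by linarith)
  rw [div_lt_iff₀ (by linarith)] at h1
  have h2 : x / w + 1 ≤ (1 + δ) * (x / w) := by
    rw [div_le_iff₀ hδ] at hδ1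
    linarith
  have h3 : (S.card : ℝ) * ((1 - a) * Real.log x) ≤ (1 + δ) ^ 2 * (x / w) := by
    calc (S.card : ℝ) * ((1 - a) * Real.log x)
        ≤ (Nat.primeCounting ⌊x / w + 1⌋₊ : ℝ) * Real.log (x / w + 1) :=
          mul_le_mul hc hlog hlp.le (Nat.cast_nonneg _)
      _ ≤ (1 + δ) * (x / w + 1) := h1.le
      _ ≤ (1 + δ) * ((1 + δ) * (x / w)) := mul_le_mul_of_nonneg_left h2 (by linarith)
      _ = _ := by ring
  rw [sum_const, nsmul_eq_mul, mul_one]
  calc (S.card : ℝ) ≤ (1 + δ) ^ 2 * (x / w) / ((1 - a) * Real.log x) := by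
        rwa [le_div_iff₀ hlp]
    _ = _ := by field_simp

theorem PCount_inv_le {δ : ℝ} (hδ : 0 < δ) : ∀ᶠ x : ℝ in atTop, 1 / bigB x ≤ δ := by
  filter_upwards [tendsto_bigB.eventually_ge_atTop (1 / δ)] with x hx
  have : 0 < 1 / δ := by positivity
  rw [div_le_iff₀ (by linarith)]
  rw [div_le_iff₀ hδ] at hx
  linarith

theorem PCount_rpow : ∀ᶠ x : ℝ in atTop,
    x ^ (1 / bigB x) ≤ x ^ (3 / 5 : ℝ) ∧ x ^ (1 / bigB x) + 1 < √x ∧
      (√x + 1) * x ^ (1 / bigB x) ≤ x ^ (3 / 5 : ℝ) := by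
  filter_upwards [eventually_ge_atTop 1, PCount_inv_le (show (0 : ℝ) < 1 / 20 by norm_num),
    (tendsto_rpow_atTop (show (0 : ℝ) < 1 / 20 by norm_num)).eventually_ge_atTop 2]
    with x hx hB hu
  have h1 : x ^ (1 / bigB x) ≤ x ^ (1 / 20 : ℝ) := Real.rpow_le_rpow_of_exponent_le hx hB
  have h2 : x ^ (3 / 5 : ℝ) = (x ^ (1 / 20 : ℝ)) ^ 12 := by
    rw [← Real.rpow_natCast, ← Real.rpow_mul (by linarith)]
    norm_num
  have h3 : √x = (x ^ (1 / 20 : ℝ)) ^ 10 := by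
    rw [← Real.rpow_natCast, ← Real.rpow_mul (by linarith), Real.sqrt_eq_rpow]
    norm_num
  have h0 : 0 ≤ x ^ (1 / bigB x) := Real.rpow_nonneg (by linarith) _
  rw [h2, h3]
  generalize x ^ (1 / 20 : ℝ) = u at *
  generalize x ^ (1 / bigB x) = v at *
  have h9 : 2 ≤ u ^ 9 := hu.trans (le_self_pow₀ (by linarith) (by norm_num))
  have h10 : 2 * u ≤ u ^ 10 := by
    rw [pow_succ]
    exact mul_le_mul_of_nonneg_right h9 (by linarith)
  have h12 : (u ^ 10 + 1) * u ≤ u ^ 12 := by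
    have : u ^ 12 = (u ^ 10 * u) * u := by ring
    rw [this]
    exact mul_le_mul_of_nonneg_right (by nlinarith) (by linarith)
  refine ⟨h1.trans (le_self_pow₀ (by linarith) (by norm_num)), by linarith, ?_⟩
  exact (mul_le_mul_of_nonneg_left h1 (by linarith)).trans h12

/-- `p ≤ y := 2x/w`, `x^{2/5} ≤ y`; `Chebyshev.eventually_primeCounting_le` (or `pnt`) -/
theorem pc_up : ∃ C : ℝ, 0 < C ∧ ∀ᶠ x : ℝ in atTop, ∀ w : ℕ, 0 < w → (w : ℝ) ≤ x ^ (3 / 5 : ℝ) →
    Bd (fun p : ℕ => p.Prime ∧ ((p : ℝ) - 1) * w ≤ x) (fun _ => 1) (C * (x / Real.log x) / w) := by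
  refine ⟨10, by norm_num, ?_⟩
  filter_upwards [PCount_gen (δ := 1) one_pos] with x hx w hw hwx
  have := hx (3 / 5) le_rfl w hw hwx
  norm_num at this ⊢
  exact this

/-- `Lib.PNT.pnt` at `y = x/w + 1`, `log y ≥ (1 - 1/B) log x` -/
theorem pc_up' {ε : ℝ} (hε : 0 < ε) : ∀ᶠ x : ℝ in atTop, ∀ w : ℕ, 0 < w →
    (w : ℝ) ≤ x ^ (1 / bigB x) →
    Bd (fun p : ℕ => p.Prime ∧ ((p : ℝ) - 1) * w ≤ x) (fun _ => 1)
      ((1 + ε) * (x / Real.log x) / w) := by
  have hm : 0 < min ε 1 := lt_min hε one_pos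
  have hδ : 0 < min ε 1 / 10 := by positivity
  filter_upwards [eventually_gt_atTop 1, PCount_gen hδ, PCount_inv_le hδ] with x hx1 hx hB w hw hwx
  have h1 : min ε 1 ≤ 1 := min_le_right _ _
  have h2 : min ε 1 ≤ ε := min_le_left _ _
  refine fun S hS => (hx _ (by linarith) w hw hwx S hS).trans ?_
  have hL : 0 < Real.log x := Real.log_pos hx1
  have : (1 + min ε 1 / 10) ^ 2 / (1 - 1 / bigB x) ≤ 1 + ε := by
    rw [div_le_iff₀ (by linarith)]
    generalize min ε 1 = m at *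
    generalize 1 / bigB x = a at *
    have : (1 + m) * (1 - m / 10) ≤ (1 + ε) * (1 - a) :=
      mul_le_mul (by linarith) (by linarith) (by linarith) (by linarith)
    nlinarith
  have hx0 : 0 ≤ x / Real.log x := by positivity
  gcongr

/-- the primes in `(√x, x/w]`; `π (x/w) ≥ (1 - ε/2) (x/w)/log x` and `√x ≤ (ε/2) (x/w)/log x` -/
theorem pc_lo {ε : ℝ} (hε : 0 < ε) : ∀ᶠ x : ℝ in atTop, ∀ w : ℕ, 0 < w →
    (w : ℝ) ≤ x ^ (1 / bigB x) →
    ∃ S : Finset ℕ, (∀ p ∈ S, p.Prime ∧ √x < p ∧ ((p : ℝ) - 1) * w ≤ x) ∧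
      (1 - ε) * (x / Real.log x) / w ≤ S.card := by
  by_cases hε1 : 1 ≤ ε
  · filter_upwards [eventually_gt_atTop 1] with x hx w hw _
    refine ⟨∅, by simp, ?_⟩
    have hL : 0 < Real.log x := Real.log_pos hx
    have : 0 ≤ x / Real.log x := by positivity
    rw [card_empty, Nat.cast_zero]
    exact div_nonpos_of_nonpos_of_nonneg (mul_nonpos_of_nonpos_of_nonneg (by linarith) this)
      (Nat.cast_nonneg _)
  push Not at hε1
  obtain ⟨Y, hY⟩ := eventually_atTop.1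
    (Crest.Agent.Lib.PNT.pnt.eventually (lt_mem_nhds (show 1 - ε / 2 < (1 : ℝ) by linarith)))
  have hlo := (isLittleO_log_rpow_atTop (show (0 : ℝ) < 2 / 5 by norm_num)).bound
    (show 0 < ε / 2 by positivity)
  filter_upwards [eventually_gt_atTop 1, PCount_rpow, hlo,
    (tendsto_rpow_atTop (show (0 : ℝ) < 2 / 5 by norm_num)).eventually_ge_atTop (max Y 2)]
    with x hx hr hl hxY w hw hwx
  have h0 : (0 : ℝ) < w := by exact_mod_cast hw
  have hw1 : (1 : ℝ) ≤ w := by exact_mod_cast hw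
  have hq := PCount_quot hx.le hw (hwx.trans hr.1)
  rw [show (1 : ℝ) - 3 / 5 = 2 / 5 by norm_num] at hq
  have hY1 : Y ≤ x / w := (le_max_left _ _).trans (hxY.trans hq)
  have h2 : 2 ≤ x / w := (le_max_right _ _).trans (hxY.trans hq)
  have hL : 0 < Real.log x := Real.log_pos hx
  have hp25 : 0 < x ^ (2 / 5 : ℝ) := Real.rpow_pos_of_pos (by linarith) _
  rw [Real.norm_of_nonneg hL.le, Real.norm_of_nonneg hp25.le] at hl
  refine ⟨((range (⌊x / w⌋₊ + 1)).filter Nat.Prime).filter fun p => √x < (p : ℝ), ?_, ?_⟩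
  · intro p hp
    simp only [mem_filter, mem_range] at hp
    refine ⟨hp.1.2, hp.2, ?_⟩
    have : (p : ℝ) ≤ x / w :=
      (Nat.cast_le.2 (Nat.le_of_lt_succ hp.1.1)).trans (Nat.floor_le (by linarith))
    rw [le_div_iff₀ h0] at this
    nlinarith
  · have hsplit := card_filter_add_card_filter_not
      (s := (range (⌊x / w⌋₊ + 1)).filter Nat.Prime) (fun p : ℕ => √x < (p : ℝ))
    rw [PCount_card] at hsplit
    have hsm : ((((range (⌊x / w⌋₊ + 1)).filter Nat.Prime).filter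
        fun p : ℕ => ¬ √x < (p : ℝ)).card : ℝ) ≤ √x + 1 := by
      have : (((range (⌊x / w⌋₊ + 1)).filter Nat.Prime).filter
          fun p : ℕ => ¬ √x < (p : ℝ)) ⊆ range (⌊√x⌋₊ + 1) := fun p hp =>
        mem_range.2 (Nat.lt_succ_of_le (Nat.le_floor (not_lt.1 (mem_filter.1 hp).2)))
      have h := card_le_card this
      rw [card_range] at h
      have h' := Nat.floor_le (Real.sqrt_nonneg x)
      have h'' : (_ : ℝ) ≤ ((⌊√x⌋₊ + 1 : ℕ) : ℝ) := Nat.cast_le.2 h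
      push_cast at h''
      linarith
    have hs' : (_ : ℝ) = (Nat.primeCounting ⌊x / w⌋₊ : ℝ) := congrArg Nat.cast hsplit
    rw [Nat.cast_add] at hs'
    have h1 := hY (x / w) hY1
    rw [lt_div_iff₀ (by linarith)] at h1
    have hlog : Real.log (x / w) ≤ Real.log x :=
      Real.log_le_log (by linarith) (div_le_self (by linarith) hw1)
    have h3 : (1 - ε / 2) * (x / Real.log x) / w ≤ Nat.primeCounting ⌊x / w⌋₊ := by
      have : (1 - ε / 2) * (x / Real.log x) / w = (1 - ε / 2) * (x / w) / Real.log x := by ring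
      rw [this, div_le_iff₀ hL]
      exact h1.le.trans (mul_le_mul_of_nonneg_left hlog (Nat.cast_nonneg _))
    have h4 : √x + 1 ≤ ε / 2 * (x / Real.log x) / w := by
      rw [le_div_iff₀ h0]
      refine ((mul_le_mul_of_nonneg_left hwx (by positivity)).trans hr.2.2).trans ?_
      rw [← mul_div_assoc, le_div_iff₀ hL]
      have : x = x ^ (3 / 5 : ℝ) * x ^ (2 / 5 : ℝ) := by
        rw [← Real.rpow_add (by linarith)]
        norm_num
      have h5 : 0 ≤ x ^ (3 / 5 : ℝ) := Real.rpow_nonneg (by linarith) _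
      calc x ^ (3 / 5 : ℝ) * Real.log x ≤ x ^ (3 / 5 : ℝ) * (ε / 2 * x ^ (2 / 5 : ℝ)) :=
            mul_le_mul_of_nonneg_left hl h5
        _ = ε / 2 * (x ^ (3 / 5 : ℝ) * x ^ (2 / 5 : ℝ)) := by ring
        _ = ε / 2 * x := by rw [← this]
    have h6 : (1 - ε) * (x / Real.log x) / w =
        (1 - ε / 2) * (x / Real.log x) / w - ε / 2 * (x / Real.log x) / w := by ring
    rw [h6]
    linarith

theorem rpow_inv_bigB_le : ∀ᶠ x : ℝ in atTop,
    x ^ (1 / bigB x) ≤ x ^ (3 / 5 : ℝ) ∧ x ^ (1 / bigB x) + 1 < √x ∧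
      (√x + 1) * x ^ (1 / bigB x) ≤ x ^ (3 / 5 : ℝ) := by
  exact PCount_rpow

end Crest.Agent.R20
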