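import Crest.Agent.R20.Tails

/-!
# R20/Viol: violations of the goodness conditions
-/

set_option autoImplicit false

open Finset Filter Topology Crest.NumberTheoryR.TotientScale

namespace Crest.Agent.R20

theorem viol_scale {Q : ℕ → Prop} {F : ℝ} (h : Bd Q rcp F) (e : ℕ) :
    Bd (fun w => ∃ b, Q b ∧ w = e * b) rcp (rcp e * F) := by
  refine (h.const_mul (rcp_nonneg e)).of_map (fun b => e * b) ?_
  rintro w ⟨b, hb, rfl⟩
  exact ⟨b, hb, rfl, (rcp_mul e b).le⟩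

theorem viol_rcp_pred {p : ℕ} (hp : p.Prime) : rcp (p - 1) = 1 / ((p : ℝ) - 1) := by
  unfold rcp
  rw [Nat.cast_sub hp.one_le, Nat.cast_one]

theorem viol_tv_tl {Y : ℝ} {m : ℕ} (hm : 0 < m) (hY : (yy m 0 : ℝ) ≤ Y) (i : ℕ) {P : ℕ → Prop}
    (hP : P (tl^[i] m)) : TV Y P (tl^[i] m).totient := by
  refine ⟨tl^[i] m, iter_pos hm i, rfl, ?_, hP⟩
  rw [yy_iter]
  have : yy m (i + 0) ≤ yy m 0 := yy_anti hm (Nat.zero_le _)
  exact le_trans (by exact_mod_cast this) hY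

theorem viol_yy_zero (m : ℕ) : yy m 0 = th (gp m) := by
  unfold yy
  rw [pr_zero]

theorem viol_exp_le {a : ℝ} (h : a ≤ -2) : Real.exp a ≤ 1 / 4 := by
  have h1 : Real.exp a ≤ Real.exp (-2) := Real.exp_le_exp.mpr h
  have h2 : (4 : ℝ) ≤ Real.exp 2 := by
    have := Real.add_one_le_exp (1 : ℝ)
    have h3 : Real.exp 2 = Real.exp 1 * Real.exp 1 := by rw [← Real.exp_add]; norm_num
    nlinarith
  have h4 : Real.exp (-2) ≤ 1 / 4 := by
    rw [Real.exp_neg, ← one_div]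
    exact one_div_le_one_div_of_le (by norm_num) h2
  linarith

theorem viol_pow_le_exp {x : ℝ} (hx : 0 ≤ x) (n : ℕ) : x ^ n ≤ Real.exp (n * x) := by
  rw [Real.exp_nat_mul]
  exact pow_le_pow_left₀ hx (by linarith [Real.add_one_le_exp x]) n

/-- counting `v = π c r ≤ X'` by summing over the prime `r` first -/
theorem viol_top {ξ X Λ u₀ F : ℝ} (hξ : 0 ≤ ξ) (hT : TopW ξ (ind X) Λ u₀) {Q : ℕ → Prop}
    (hQ : Bd Q rcp F) (π : ℕ → ℕ → ℕ) :
    Bd (fun v : ℕ => ∃ c, (Q c ∧ 0 < c) ∧ ∃ r : ℕ, r.Prime ∧ u₀ ≤ th r ∧ (th r : ℝ) ≤ ξ ^ 9 ∧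
      ((c * r : ℕ) : ℝ) ≤ X ∧ v = π c r) (fun _ => 1) (Λ * ξ ^ 100 * F) := by
  have hΛ : 0 ≤ Λ * ξ ^ 100 := mul_nonneg hT.1 (pow_nonneg hξ _)
  have h1 : Bd (fun c => Q c ∧ 0 < c) (fun c => Λ * ξ ^ 100 * rcp c) (Λ * ξ ^ 100 * F) :=
    (hQ.const_mul hΛ).mono (fun _ h => h.1) (fun _ _ => le_rfl) le_rfl
  refine h1.union fun c hc => ?_
  have h2 := hT.2.2.2 c ∅ u₀ hc.2 (by simp) (by simp)
  have h3 : Λ * ξ ^ 100 * Real.exp (-(((∅ : Finset ℕ).card : ℝ) * u₀)) / c = Λ * ξ ^ 100 * rcp c := by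
    simp [rcp, div_eq_mul_inv]
  rw [h3] at h2
  refine h2.of_map (π c) ?_
  rintro v ⟨r, hr, h4, h5, h6, rfl⟩
  refine ⟨r, ⟨hr, h4, h4, h5, by simp⟩, rfl, ?_⟩
  unfold ind
  rw [if_pos h6]

/-- `T1`, `cap_decomp`, `capBad_mass`, `F_xi`, `Bd.mul_nat` -/
theorem T2 : ∀ᶠ ξ : ℝ in atTop, ∀ D : ℕ, ((D : ℝ) + 1) ^ 4 ≤ ξ →
    Bd (TV (ξ ^ 9) fun m => yy m 0 + ξ ^ 7 / 2 < capSum D m) rcp 1 := by
  filter_upwards [T1, cap_decomp, capBad_mass, F_xi, eventually_ge_atTop (10 : ℝ)] with ξ h1 h2 h3 h4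
    hξ D hD
  have a1 := h1 D _ hD h4
  have a2 : Bd (fun w => ∃ a b, CapBad ξ a ∧ TV (ξ ^ 9) (fun _ => True) b ∧ w = a * b) rcp
      (Real.exp (-(ξ ^ 7 / 4)) * Real.exp ξ) :=
    Bd.mul_nat (fun a => a) h3 h4 fun w hw => hw
  refine (a1.or a2).mono ?_ (fun _ _ => le_rfl) ?_
  · rintro w ⟨m, hm, rfl, hY, hP⟩
    by_cases hb : ∃ d ≤ D, Bad ξ (tl^[d] m)
    · exact Or.inl ⟨m, hm, rfl, hY, hb⟩
    · push Not at hb
      obtain ⟨a, b, e, hb', ha, -⟩ := h2 D m hD hm hY hP hb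
      exact Or.inr ⟨a, b, ha, hb', e⟩
  · rw [← Real.exp_add, ← Real.exp_add]
    have q1 : ξ ^ 2 ≤ ξ ^ 7 := pow_le_pow_right₀ (by linarith) (by norm_num)
    have b1 := viol_exp_le (a := -(ξ ^ 2 / 2) + ξ) (by nlinarith)
    have b2 := viol_exp_le (a := -(ξ ^ 7 / 4) + ξ) (by nlinarith)
    linarith

/-- `totient_rep`; for fixed `p = gp m` the cofactor is `TV (th p)`, `F_triv`; `Bd.union` over `p`, `bd_rep` -/
theorem rep_mass : ∃ C : ℝ, ∀ Y : ℝ, Bd (TV Y fun m => 1 < m ∧ gp m ∣ tl m) rcp C := by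
  obtain ⟨C, hC⟩ := bd_rep
  refine ⟨2 * Real.exp 1 * C, fun Y => ?_⟩
  have h1 := hC.const_mul (c := 2 * Real.exp 1) (by positivity)
  have h2 : Bd (fun w => ∃ p : ℕ, p.Prime ∧
      ((∃ b, TV (th p) (fun _ => True) b ∧ w = p * (p - 1) * b) ∨
        ∃ b, TV (th p) (fun _ => True) b ∧ w = p * p * b)) rcp (2 * Real.exp 1 * C) := by
    refine h1.union fun p hp => ?_
    have hF := F_triv (Y := th p) (Nat.cast_nonneg _)
    refine ((viol_scale hF (p * (p - 1))).or (viol_scale hF (p * p))).mono (fun _ h => h)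
      (fun _ _ => le_rfl) ?_
    have hp2 : (2 : ℝ) ≤ p := by exact_mod_cast hp.two_le
    have e1 : rcp (p * (p - 1)) = 1 / ((p : ℝ) * ((p : ℝ) - 1)) := by
      unfold rcp
      rw [Nat.cast_mul, Nat.cast_sub hp.one_le, Nat.cast_one]
    have e2 : rcp (p * p) ≤ 1 / ((p : ℝ) * ((p : ℝ) - 1)) := by
      unfold rcp
      rw [Nat.cast_mul]
      exact one_div_le_one_div_of_le (by nlinarith) (by nlinarith)
    have e3 := mul_le_mul_of_nonneg_right e2 (Real.exp_pos ((th p : ℝ) + 1)).le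
    rw [e1]
    refine (add_le_add le_rfl e3).trans (le_of_eq ?_)
    rw [Real.exp_add]
    ring
  refine h2.mono ?_ (fun _ _ => le_rfl) le_rfl
  rintro w ⟨m, hm, rfl, -, h1m, hd⟩
  have hb : TV (th (gp m)) (fun _ => True) (tl (tl m)).totient :=
    viol_tv_tl hm (by rw [viol_yy_zero]) 2 trivial
  refine ⟨gp m, gp_prime h1m, ?_⟩
  rcases totient_rep h1m hd with e | e
  · exact Or.inl ⟨_, hb, e⟩
  · exact Or.inr ⟨_, hb, e⟩

/-- `m = 1`; `rep_mass`; abnormal top prime (`abn_sum`, `F_xi`); `T2` -/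
theorem viol : ∃ C : ℝ, ∀ᶠ ξ : ℝ in atTop, ∀ D : ℕ, ((D : ℝ) + 1) ^ 4 ≤ ξ →
    Bd (TV (ξ ^ 9) fun m => ¬ GoodAt ξ D m) rcp C := by
  obtain ⟨C, hC⟩ := rep_mass
  refine ⟨1 + C + 1 + 1, ?_⟩
  filter_upwards [T2, abn_sum, F_xi, eventually_ge_atTop (10 : ℝ)] with ξ h1 h2 h3 hξ D hD
  have a1 : Bd (fun w : ℕ => w = 1) rcp 1 :=
    Bd.of_finset {1} (fun a ha => by simp [ha]) (fun a _ => rcp_nonneg a) (by simp [rcp])
  have a2 := hC (ξ ^ 9)
  have h2' : Bd (fun p : ℕ => p.Prime ∧ (th p : ℝ) ≤ ξ ^ 9 ∧ ¬ Normal (ξ ^ 6) p)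
      (fun p => rcp (p - 1)) (Real.exp (-ξ ^ 2)) :=
    h2.mono (fun _ h => h) (fun p hp => (viol_rcp_pred hp.1).le) le_rfl
  have a3 : Bd (fun w => ∃ p b : ℕ, (p.Prime ∧ (th p : ℝ) ≤ ξ ^ 9 ∧ ¬ Normal (ξ ^ 6) p) ∧
      TV (ξ ^ 9) (fun _ => True) b ∧ w = (p - 1) * b) rcp (Real.exp (-ξ ^ 2) * Real.exp ξ) :=
    Bd.mul_nat (fun p => p - 1) h2' h3 fun w hw => hw
  have a4 := h1 D hD
  refine (((a1.or a2).or a3).or a4).mono ?_ (fun _ _ => le_rfl) ?_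
  · rintro w ⟨m, hm, rfl, hY, hP⟩
    by_cases c1 : 1 < m
    swap
    · have : m = 1 := by omega
      subst this
      exact Or.inl (Or.inl (Or.inl Nat.totient_one))
    by_cases c2 : gp m ∣ tl m
    · exact Or.inl (Or.inl (Or.inr ⟨m, hm, rfl, hY, c1, c2⟩))
    by_cases c3 : Normal (ξ ^ 6) (gp m)
    swap
    · exact Or.inl (Or.inr ⟨gp m, _, ⟨gp_prime c1, by rwa [← viol_yy_zero], c3⟩,
        viol_tv_tl hm hY 1 trivial, totient_of_not_dvd c1 c2⟩)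
    refine Or.inr ⟨m, hm, rfl, hY, ?_⟩
    by_contra c4
    refine hP ⟨hY, c1, c2, c3, ?_⟩
    have : 0 ≤ ξ ^ 7 := by positivity
    linarith [not_lt.mp c4]
  · rw [← Real.exp_add]
    have b1 := viol_exp_le (a := -ξ ^ 2 + ξ) (by nlinarith)
    linarith

/-- Four cases, each `≤ X e^{-u₀} e^{-ξ}/4`; `p = gp n`, `w = φ (tl n)`.
* `p ∣ tl n`: `p(p-1) ∣ v` or `p² ∣ v`; `bd_multiples`, `bd_big_primes` with `u = u₀ ≥ ξ`.
* `p` abnormal: `v = w (p-1)`; `abn` with `topW_ind X (u₀ - ξ)`, `c = w`; sum over `w` by `F_xi`.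
* a level `1 ≤ d ≤ D` is `Bad`: `w p ≤ 2X`; `topW_ind (2X) u₀` with `a = w`, `A = ∅`; sum over `w` by `T1`.
* otherwise `cap_decomp`: `v = a b`, `r = gp (p-1)` is a prime dividing `a` (`p > 2`), `th r ≥ u₀ - 2ξ^6`
  (`Normal.gp_ge`), `a = a' r`; `topW_ind X (u₀ - 2ξ^6)` with `a' b`, `A = ∅`; `capBad_mass`, `F_xi`. -/
theorem lev0 : ∀ᶠ ξ : ℝ in atTop, ∀ (D : ℕ) (X u₀ : ℝ), ((D : ℝ) + 1) ^ 4 ≤ ξ → 0 ≤ X → ξ ≤ u₀ →
    u₀ ≤ ξ ^ 9 →
    Bd (fun v : ℕ => (v : ℝ) ≤ X ∧ TV (ξ ^ 9)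
        (fun n => u₀ ≤ yy n 0 ∧ (gp n ∣ tl n ∨ yy n 0 + ξ ^ 7 / 2 < capSum D n)) v)
      (fun _ => 1) (X * Real.exp (-u₀) * Real.exp (-ξ)) := by
  obtain ⟨C, hC⟩ := bd_big_primes
  filter_upwards [T1, cap_decomp, capBad_mass, F_xi, abn, topW_ind, eventually_ge_atTop (1000 : ℝ),
    eventually_ge_atTop (3 * |C| + 20)] with ξ h1 h2 h3 h4 h5 h6 hξ hξC D X u₀ hD hX hu hu9
  have hξ0 : 0 ≤ ξ := by linarith
  have hB : 0 ≤ X * Real.exp (-u₀) * Real.exp (-ξ) := by positivity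
  have h100 : ξ ^ 100 ≤ Real.exp (100 * ξ) := by exact_mod_cast viol_pow_le_exp hξ0 100
  have hquarter : ∀ a : ℝ, a ≤ -2 → X * Real.exp (-u₀) * Real.exp (-ξ) * Real.exp a ≤
      X * Real.exp (-u₀) * Real.exp (-ξ) / 4 := by
    intro a ha
    have := mul_le_mul_of_nonneg_left (viol_exp_le ha) hB
    linarith
  -- repeated top prime
  have a1 : Bd (fun v : ℕ => ∃ p : ℕ, (p.Prime ∧ u₀ ≤ th p) ∧
      ((0 < v ∧ (v : ℝ) ≤ X ∧ p * (p - 1) ∣ v) ∨ (0 < v ∧ (v : ℝ) ≤ X ∧ p * p ∣ v))) (fun _ => 1)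
      (X * Real.exp (-u₀) * Real.exp (-ξ) / 4) := by
    have b1 := (hC u₀).const_mul (c := 2 * X) (by positivity)
    refine (b1.union fun p hp => ?_).mono (fun _ h => h) (fun _ _ => le_rfl) ?_
    · have hp2 : (2 : ℝ) ≤ p := by exact_mod_cast hp.1.two_le
      have hp1 : 0 < p - 1 := by have := hp.1.two_le; omega
      refine ((bd_multiples hX (Nat.mul_pos hp.1.pos hp1)).or
        (bd_multiples hX (Nat.mul_pos hp.1.pos hp.1.pos))).mono (fun _ h => h) (fun _ _ => le_rfl) ?_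
      rw [Nat.cast_mul, Nat.cast_mul, Nat.cast_sub hp.1.one_le, Nat.cast_one]
      have e2 : X / ((p : ℝ) * p) ≤ X / ((p : ℝ) * ((p : ℝ) - 1)) :=
        div_le_div_of_nonneg_left hX (by nlinarith) (by nlinarith)
      refine (add_le_add le_rfl e2).trans (le_of_eq ?_)
      ring
    · have hCa := le_abs_self C
      have hCn := abs_nonneg C
      have q0 : 0 ≤ u₀ - C := by linarith
      have q1 : (u₀ - C) ^ 2 / 2 ≤ Real.exp (u₀ - C) := by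
        have := Real.quadratic_le_exp_of_nonneg q0
        linarith
      have q2 : 2 * u₀ + 4 ≤ (u₀ - C) ^ 2 / 2 := by
        have q3 : 2 / 3 * u₀ ≤ u₀ - C := by linarith
        have q4 : (2 / 3 * u₀) ^ 2 ≤ (u₀ - C) ^ 2 := pow_le_pow_left₀ (by linarith) q3 2
        nlinarith
      have q5 : Real.exp (-Real.exp (u₀ - C)) ≤
          Real.exp (-u₀) * Real.exp (-ξ) * Real.exp (-2) * Real.exp (-2) := by
        rw [← Real.exp_add, ← Real.exp_add, ← Real.exp_add]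
        exact Real.exp_le_exp.mpr (by linarith)
      have q6 := viol_exp_le (a := -2) le_rfl
      have q7 : Real.exp (-2) * Real.exp (-2) ≤ 1 / 4 * (1 / 4) :=
        mul_le_mul q6 q6 (Real.exp_pos _).le (by norm_num)
      have q8 := mul_le_mul_of_nonneg_left q7 hB
      have q9 := mul_le_mul_of_nonneg_left q5 hX
      nlinarith
  -- abnormal top prime
  have a2 : Bd (fun v : ℕ => ∃ w : ℕ, (TV (ξ ^ 9) (fun _ => True) w ∧ 0 < w) ∧ ((v : ℝ) ≤ X ∧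
      ∃ p : ℕ, (p.Prime ∧ u₀ - ξ + ξ ≤ th p ∧ (th p : ℝ) ≤ ξ ^ 9 ∧ ¬ Normal (ξ ^ 6) p) ∧
        v = w * (p - 1))) (fun _ => 1) (X * Real.exp (-u₀) * Real.exp (-ξ) / 4) := by
    have hT := h6 X (u₀ - ξ) hX (by linarith)
    have b0 : 0 ≤ X * Real.exp (-(u₀ - ξ)) * Real.exp (-ξ ^ 2) := by positivity
    have b1 : Bd (fun w => TV (ξ ^ 9) (fun _ => True) w ∧ 0 < w)
        (fun w => X * Real.exp (-(u₀ - ξ)) * Real.exp (-ξ ^ 2) * rcp w) _ :=
      (h4.const_mul b0).mono (fun _ h => h.1) (fun _ _ => le_rfl) le_rfl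
    refine (b1.union fun w hw => ?_).mono (fun _ h => h) (fun _ _ => le_rfl) ?_
    · have b2 := h5 _ _ _ hT w hw.2
      have e : X * Real.exp (-(u₀ - ξ)) * Real.exp (-ξ ^ 2) / w =
          X * Real.exp (-(u₀ - ξ)) * Real.exp (-ξ ^ 2) * rcp w := by
        simp [rcp, div_eq_mul_inv]
      rw [e] at b2
      refine b2.of_map (fun p => w * (p - 1)) ?_
      rintro v ⟨hv, p, hp, rfl⟩
      refine ⟨p, hp, rfl, ?_⟩
      unfold ind
      rw [if_pos hv]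
    · refine le_trans (le_of_eq ?_) (hquarter (3 * ξ - ξ ^ 2) (by nlinarith))
      simp only [mul_assoc, ← Real.exp_add]
      congr 2
      ring
  -- a bad lower level
  have a3 := (viol_top hξ0 (h6 (2 * X) u₀ (by linarith) hu9) (h1 D _ hD h4)
      (fun w p => w * (p - 1))).mono (f := fun _ => 1)
      (D := X * Real.exp (-u₀) * Real.exp (-ξ) / 4) (fun _ h => h) (fun _ _ => le_rfl) (by
    refine le_trans ?_ (hquarter (1 + 102 * ξ - ξ ^ 2 / 2) (by nlinarith))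
    have q1 : (2 : ℝ) ≤ Real.exp 1 := by linarith [Real.add_one_le_exp (1 : ℝ)]
    have q2 : 2 * ξ ^ 100 ≤ Real.exp 1 * Real.exp (100 * ξ) :=
      mul_le_mul q1 h100 (by positivity) (by positivity)
    have q3 := mul_le_mul_of_nonneg_left q2
      (by positivity : 0 ≤ X * Real.exp (-u₀) * (Real.exp (-(ξ ^ 2 / 2)) * Real.exp ξ))
    refine le_trans (le_of_eq (by ring)) (q3.trans (le_of_eq ?_))
    simp only [mul_assoc, ← Real.exp_add]
    congr 2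
    ring)
  -- capacity violation
  have hab : Bd (fun w => ∃ a b, CapBad ξ a ∧ TV (ξ ^ 9) (fun _ => True) b ∧ w = a * b) rcp
      (Real.exp (-(ξ ^ 7 / 4)) * Real.exp ξ) :=
    Bd.mul_nat (fun a => a) h3 h4 fun w hw => hw
  have hξ6 : ξ ≤ ξ ^ 6 := by
    calc ξ = ξ ^ 1 := (pow_one ξ).symm
      _ ≤ ξ ^ 6 := pow_le_pow_right₀ (by linarith) (by norm_num)
  have a4 := (viol_top hξ0 (h6 X (u₀ - 2 * ξ ^ 6) hX (by linarith)) hab
      (fun c r => c * r)).mono (f := fun _ => 1)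
      (D := X * Real.exp (-u₀) * Real.exp (-ξ) / 4) (fun _ h => h) (fun _ _ => le_rfl) (by
    have q0 : ξ ^ 7 = ξ * ξ ^ 6 := by ring
    refine le_trans ?_ (hquarter (102 * ξ + 2 * ξ ^ 6 - ξ ^ 7 / 4) (by nlinarith))
    have q3 := mul_le_mul_of_nonneg_left h100
      (by positivity : 0 ≤ X * Real.exp (-(u₀ - 2 * ξ ^ 6)) * (Real.exp (-(ξ ^ 7 / 4)) * Real.exp ξ))
    refine le_trans (le_of_eq (by ring)) (q3.trans (le_of_eq ?_))
    simp only [mul_assoc, ← Real.exp_add]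
    congr 2
    ring)
  refine (((a1.or a2).or a3).or a4).mono ?_ (fun _ _ => le_rfl) (le_of_eq (by ring))
  rintro v ⟨hv, n, hn, rfl, hY, hu0, hP⟩
  have hyp : 0 < yy n 0 := by
    have : (0 : ℝ) < yy n 0 := by linarith
    exact_mod_cast this
  have c1 : 1 < n := one_lt_of_yy_pos hn hyp
  have hp := gp_prime c1
  have hv0 : 0 < n.totient := Nat.totient_pos.mpr hn
  have hw0 : 0 < (tl n).totient := Nat.totient_pos.mpr (tl_pos hn)
  have hu1 : u₀ ≤ th (gp n) := by rwa [← viol_yy_zero]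
  have hY1 : (th (gp n) : ℝ) ≤ ξ ^ 9 := by rwa [← viol_yy_zero]
  by_cases c2 : gp n ∣ tl n
  · refine Or.inl (Or.inl (Or.inl ⟨gp n, ⟨hp, hu1⟩, ?_⟩))
    rcases totient_rep c1 c2 with e | e
    · exact Or.inl ⟨hv0, hv, ⟨_, e⟩⟩
    · exact Or.inr ⟨hv0, hv, ⟨_, e⟩⟩
  have htot : n.totient = (tl n).totient * (gp n - 1) := by
    rw [totient_of_not_dvd c1 c2, mul_comm]
  by_cases c3 : Normal (ξ ^ 6) (gp n)
  swap
  · exact Or.inl (Or.inl (Or.inr ⟨_, ⟨viol_tv_tl hn hY 1 trivial, hw0⟩, hv, gp n,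
      ⟨hp, by linarith, hY1, c3⟩, htot⟩))
  by_cases c4 : ∃ d ≤ D, Bad ξ (tl^[d] (tl n))
  · refine Or.inl (Or.inr ⟨_, ⟨viol_tv_tl hn hY 1 c4, hw0⟩, gp n, hp, hu1, hY1, ?_, htot⟩)
    have q1 : (tl n).totient * gp n ≤ 2 * n.totient := by
      rw [htot, mul_left_comm]
      refine Nat.mul_le_mul_left _ ?_
      have := hp.two_le
      omega
    have q2 : (((tl n).totient * gp n : ℕ) : ℝ) ≤ 2 * (n.totient : ℝ) := by exact_mod_cast q1
    exact q2.trans (by linarith)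
  have c5 : ∀ d ≤ D, ¬ Bad ξ (tl^[d] n) := by
    intro d hd hb
    rcases d with _ | d
    · rcases hb.2 with hb | hb
      · exact hb c3
      · exact c2 hb
    · exact c4 ⟨d, by omega, hb⟩
  obtain ⟨a, b, e, hb, -, hdv, hcap⟩ := h2 D n hD hn hY (hP.resolve_left c2) c5
  have hp3 : 1 < gp n - 1 := by
    have q1 : (th (gp n) : ℝ) < gp n := by exact_mod_cast th_lt_self hp.pos
    have q2 : (3 : ℝ) < gp n := by linarith
    have q3 : 3 < gp n := by exact_mod_cast q2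
    omega
  have hr := gp_prime hp3
  obtain ⟨a', ha'⟩ := (gp_dvd (gp n - 1)).trans hdv
  have e' : n.totient = a' * b * gp (gp n - 1) := by rw [e, ha']; ring
  refine Or.inr ⟨a' * b, ⟨⟨a', b, hcap a' _ hr (by rw [ha', mul_comm]), hb, rfl⟩, ?_⟩,
    gp (gp n - 1), hr, ?_, ?_, ?_, e'⟩
  · rw [e'] at hv0
    exact Nat.pos_of_mul_pos_right hv0
  · linarith [c3.gp_ge hp]
  · have q1 : gp (gp n - 1) ≤ gp n := (gp_le_self (by omega)).trans (Nat.sub_le _ _)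
    have q2 : (th (gp (gp n - 1)) : ℝ) ≤ th (gp n) := by exact_mod_cast th_mono q1
    linarith
  · rw [← e']; exact hv

/-- For `t > ξ^9` each of `J log (t+1)`, `t^{1/18}`, `log ξ` is `≤ c t/(8 ξ^8)`; then a geometric series. -/
theorem T3 {c : ℝ} (hc : 0 < c) : ∀ᶠ ξ : ℝ in atTop, ∀ J : ℕ, (J : ℝ) ^ 4 ≤ ξ →
    Bd (fun t : ℕ => ξ ^ 9 < t)
      (fun t => Real.exp (-(c * t / ξ ^ 8)) *
        (((t : ℝ) + 1) ^ J * ξ * Real.exp ((t : ℝ) ^ (1 / 18 : ℝ)))) 1 := by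
  filter_upwards [eventually_ge_atTop (2 : ℝ), eventually_ge_atTop ((125 / c) ^ 2)] with ξ hξ hξc J hJ
  have hξ0 : 0 < ξ := by linarith
  have key : ∀ t : ℕ, ξ ^ 9 < t → Real.exp (-(c * t / ξ ^ 8)) *
      (((t : ℝ) + 1) ^ J * ξ * Real.exp ((t : ℝ) ^ (1 / 18 : ℝ))) ≤ 1 / (t : ℝ) ^ 2 := by
    intro t ht
    have ht0 : (0 : ℝ) < t := lt_trans (by positivity) ht
    obtain ⟨s, hs⟩ : ∃ s : ℝ, s = t / ξ ^ 8 := ⟨_, rfl⟩
    have hsξ : ξ ≤ s := by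
      rw [hs, le_div_iff₀ (by positivity)]
      calc ξ * ξ ^ 8 = ξ ^ 9 := by ring
        _ ≤ (t : ℝ) := ht.le
    have hs0 : 0 ≤ s := by linarith
    obtain ⟨q, hq⟩ : ∃ q : ℝ, q = √(√s) := ⟨_, rfl⟩
    have hq0 : 0 ≤ q := by rw [hq]; positivity
    have hq2 : q ^ 2 = √s := by rw [hq, Real.sq_sqrt (Real.sqrt_nonneg _)]
    have hq4 : q ^ 4 = s := by
      calc q ^ 4 = (q ^ 2) ^ 2 := by ring
        _ = s := by rw [hq2, Real.sq_sqrt hs0]
    have hq1 : 1 ≤ q := by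
      by_contra h
      have : q ^ 4 ≤ 1 := pow_le_one₀ hq0 (not_le.mp h).le
      linarith
    have hJq : (J : ℝ) ≤ q :=
      le_of_pow_le_pow_left₀ (n := 4) (by norm_num) hq0 (by rw [hq4]; linarith)
    have hcq : 125 ≤ c * q ^ 2 := by
      have h1 : 125 / c ≤ q ^ 2 := by
        rw [hq2]
        exact Real.le_sqrt_of_sq_le (hξc.trans hsξ)
      rw [div_le_iff₀ hc] at h1
      linarith
    have hts : (t : ℝ) ≤ s ^ 9 := by
      have h1 : (t : ℝ) = s * ξ ^ 8 := by rw [hs]; field_simp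
      have h2 : ξ ^ 8 ≤ s ^ 8 := pow_le_pow_left₀ hξ0.le hsξ 8
      calc (t : ℝ) = s * ξ ^ 8 := h1
        _ ≤ s * s ^ 8 := mul_le_mul_of_nonneg_left h2 hs0
        _ = s ^ 9 := by ring
    have htq : (t : ℝ) ≤ q ^ 36 := by
      calc (t : ℝ) ≤ s ^ 9 := hts
        _ = q ^ 36 := by rw [← hq4]; ring
    have ht1 : (t : ℝ) + 1 ≤ q ^ 40 := by
      have h1 : 1 ≤ s ^ 9 := one_le_pow₀ (by linarith)
      have h2 : 2 * s ^ 9 ≤ s * s ^ 9 := mul_le_mul_of_nonneg_right (by linarith) (by positivity)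
      calc (t : ℝ) + 1 ≤ s * s ^ 9 := by linarith
        _ = q ^ 40 := by rw [← hq4]; ring
    have hqq : q ≤ q ^ 2 := by nlinarith
    have b1 : ((t : ℝ) + 1) ^ J ≤ Real.exp (40 * q ^ 2) := by
      calc ((t : ℝ) + 1) ^ J ≤ (q ^ 40) ^ J := pow_le_pow_left₀ (by positivity) ht1 J
        _ = q ^ (40 * J) := by rw [pow_mul]
        _ ≤ Real.exp ((40 * J : ℕ) * q) := viol_pow_le_exp hq0 _
        _ ≤ Real.exp (40 * q ^ 2) := by
            refine Real.exp_le_exp.mpr ?_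
            push_cast
            nlinarith
    have b2 : ξ ≤ Real.exp (4 * q ^ 2) := by
      calc ξ ≤ q ^ 4 := by rw [hq4]; exact hsξ
        _ ≤ Real.exp ((4 : ℕ) * q) := viol_pow_le_exp hq0 _
        _ ≤ Real.exp (4 * q ^ 2) := by
            refine Real.exp_le_exp.mpr ?_
            push_cast
            linarith
    have b3 : (t : ℝ) ^ (1 / 18 : ℝ) ≤ q ^ 2 := by
      calc (t : ℝ) ^ (1 / 18 : ℝ) ≤ ((q ^ 2) ^ 18) ^ (1 / 18 : ℝ) :=
            Real.rpow_le_rpow ht0.le (by rw [← pow_mul]; exact htq) (by norm_num)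
        _ = q ^ 2 := by
            rw [one_div]
            exact_mod_cast Real.pow_rpow_inv_natCast (sq_nonneg q) (n := 18) (by norm_num)
    have b4 : (t : ℝ) ^ 2 ≤ Real.exp (72 * q ^ 2) := by
      calc (t : ℝ) ^ 2 ≤ (q ^ 36) ^ 2 := pow_le_pow_left₀ ht0.le htq 2
        _ = q ^ 72 := by ring
        _ ≤ Real.exp ((72 : ℕ) * q) := viol_pow_le_exp hq0 _
        _ ≤ Real.exp (72 * q ^ 2) := by
            refine Real.exp_le_exp.mpr ?_
            push_cast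
            linarith
    have b5 : c * t / ξ ^ 8 = c * q ^ 4 := by rw [hq4, hs]; ring
    rw [le_div_iff₀ (by positivity), b5]
    calc Real.exp (-(c * q ^ 4)) * (((t : ℝ) + 1) ^ J * ξ * Real.exp ((t : ℝ) ^ (1 / 18 : ℝ))) *
          (t : ℝ) ^ 2
        ≤ Real.exp (-(c * q ^ 4)) * (Real.exp (40 * q ^ 2) * Real.exp (4 * q ^ 2) * Real.exp (q ^ 2)) *
          Real.exp (72 * q ^ 2) := by gcongr
      _ = Real.exp (-(c * q ^ 4) + 117 * q ^ 2) := by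
          simp only [← Real.exp_add]
          congr 1
          ring
      _ ≤ 1 := by
          rw [Real.exp_le_one_iff]
          nlinarith [sq_nonneg q]
  intro S hS
  refine (Finset.sum_le_sum fun t ht => key t (hS t ht)).trans ?_
  have := sum_inv_sq_le S (T := 1) le_rfl fun t ht => by
    have h1 : (1 : ℝ) ≤ ξ ^ 9 := one_le_pow₀ (by linarith)
    have h2 : (1 : ℝ) < t := lt_of_le_of_lt h1 (hS t ht)
    exact_mod_cast h2
  simpa using this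

end Crest.Agent.R20
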