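import Crest.Agent.R20.HVol
import Crest.Agent.R20.PCount
import Crest.Agent.R20.Viol

/-!
# R20/Level: counting by heads and tails
-/

set_option autoImplicit false

open Finset Filter Topology Crest.NumberTheoryR.TotientScale

namespace Crest.Agent.R20

variable {ρ : ℝ}

theorem Level_hd {l i : ℕ} (n : ℕ) (h1 : 1 ≤ i) (hi : i ≤ l) : hd l n i = pr n i := by
  unfold hd
  rw [if_pos (mem_Icc.2 ⟨h1, hi⟩)]

/-- `n ↦ ((hd l n, τ n), gp n)` is injective on `N`; `Bd.fiber` along `n ↦ (hd l n, τ n)`: on a fibre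
`φ (tl n)` is constant (`Chain.wt_hd`: `rcp (φ (tl n)) = wt * rcp (val ·)`), and `φ n = (gp n - 1) φ (tl n)`. -/
theorem head_count {x T c C : ℝ} (hc0 : 0 ≤ c)
    (hc : ∀ w : ℕ, 0 < w → (w : ℝ) ≤ T →
      Bd (fun p : ℕ => p.Prime ∧ ((p : ℝ) - 1) * w ≤ x) (fun _ => 1) (c / w))
    (l : ℕ) (N : Finset ℕ) (τ vl : ℕ → ℕ) (P : (ℕ → ℕ) × ℕ → Prop)
    (hP : Bd P (fun s => wt 1 l s.1 * rcp (vl s.2)) C)
    (hN : ∀ n ∈ N, Chain (l + 1) n ∧ (n.totient : ℝ) ≤ x ∧ ((tl n).totient : ℝ) ≤ T ∧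
      vl (τ n) = (tl^[l + 1] n).totient ∧ P (hd l n, τ n))
    (hinj : ∀ n ∈ N, ∀ n' ∈ N, (∀ i ≤ l, pr n i = pr n' i) → τ n = τ n' → n = n') :
    (N.card : ℝ) ≤ c * C := by
  have hP' : Bd (fun s => P s ∧ ∃ n ∈ N, (hd l n, τ n) = s)
      (fun s => c * (wt 1 l s.1 * rcp (vl s.2))) (c * C) :=
    (hP.const_mul hc0).mono (fun s hs => hs.1) (fun _ _ => le_rfl) le_rfl
  have hw : ∀ n ∈ N, wt 1 l (hd l n) * rcp (vl (τ n)) = rcp (tl n).totient := by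
    intro n hn
    obtain ⟨h1, -, -, h4, -⟩ := hN n hn
    rw [← h1.wt_hd, h4]
    unfold rcp
    ring
  refine Bd.card_le (P := fun n => n ∈ N) ?_ fun _ h => h
  refine hP'.fiber (fun n => (hd l n, τ n)) (fun n hn => ⟨(hN n hn).2.2.2.2, n, hn, rfl⟩) ?_
  rintro _ ⟨-, m, hm, rfl⟩
  obtain ⟨h1, -, h3, -, -⟩ := hN m hm
  have h5 := hc _ (Nat.totient_pos.2 (tl_pos h1.1)) h3
  have e : c * (wt 1 l (hd l m) * rcp (vl (τ m))) = c / (tl m).totient := by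
    rw [hw m hm]; unfold rcp; ring
  dsimp only
  rw [e]
  refine h5.of_inj gp ?_ ?_
  · rintro n ⟨hn, hnm⟩
    obtain ⟨k1, k2, -, -, -⟩ := hN n hn
    obtain ⟨e1, e2⟩ := Prod.mk.inj hnm
    have e3 : (tl n).totient = (tl m).totient := by
      have e4 := hw n hn
      rw [e1, e2, hw m hm] at e4
      unfold rcp at e4
      rw [one_div, one_div, inv_inj] at e4
      exact_mod_cast e4.symm
    refine ⟨⟨gp_prime (by simpa using (k1.2 0 (Nat.succ_pos l)).1), ?_⟩, le_rfl⟩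
    refine le_trans ?_ k2
    rw [← e3]
    have k3 : (((gp n - 1) * (tl n).totient : ℕ) : ℝ) ≤ n.totient := by
      exact_mod_cast gp_sub_one_mul_le k1.1
    rwa [Nat.cast_mul, Nat.cast_sub (gp_pos n), Nat.cast_one] at k3
  · rintro n n' ⟨hn, hnm⟩ ⟨hn', hnm'⟩ e
    obtain ⟨e1, e2⟩ := Prod.mk.inj (hnm.trans hnm'.symm)
    refine hinj n hn n' hn' (fun i hi => ?_) e2
    rcases Nat.eq_zero_or_pos i with rfl | h0
    · rw [pr_zero, pr_zero, e]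
    · rw [← Level_hd n h0 hi, ← Level_hd n' h0 hi, e1]

theorem inj_of_totient {l : ℕ} {N : Finset ℕ} (h : Set.InjOn Nat.totient N)
    (hc : ∀ n ∈ N, Chain (l + 1) n) : ∀ n ∈ N, ∀ n' ∈ N, (∀ i ≤ l, pr n i = pr n' i) →
      (tl^[l + 1] n).totient = (tl^[l + 1] n').totient → n = n' := by
  intro n hn n' hn' h1 h2
  refine h hn hn' ?_
  rw [(hc n hn).totient, (hc n' hn').totient, h2]
  congr 1
  exact prod_congr rfl fun i hi => by rw [h1 i (Nat.lt_succ_iff.1 (mem_range.1 hi))]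

theorem PG.chain {x : ℝ} {M K' k n : ℕ} (h : PG ρ x M K' k n) : Chain k n := by
  obtain ⟨-, ⟨h1, h2, -⟩, h3⟩ := h
  refine ⟨by omega, fun i hi => ?_⟩
  rcases Nat.eq_zero_or_pos i with rfl | h0
  · exact ⟨h1, h2⟩
  · obtain ⟨-, h4, h5, -⟩ := h3 i h0 hi
    refine ⟨h4, ?_⟩
    rw [iter_succ]
    exact h5

theorem PG.hc {x : ℝ} {M K' k n : ℕ} (h : PG ρ x M K' k n) (hk : k ≤ M - K' + 1) :
    HC ρ (bigB x) M k (M - K') n := by
  obtain ⟨-, ⟨-, -, h2⟩, h3⟩ := h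
  intro i hi
  rcases Nat.eq_zero_or_pos i with rfl | h0
  · have e := capSum_iter (M - K') n 0
    rw [zero_add] at e
    rw [if_pos rfl, ← e]
    exact h2
  · obtain ⟨-, -, -, -, h4⟩ := h3 i h0 hi
    rw [capSum_iter, yy_iter, show i + (M - K' - i) = M - K' by omega, add_zero] at h4
    rw [if_neg h0.ne']
    exact h4

theorem HC.mono {B : ℝ} {M k k' k₁ k₁' n : ℕ} (h : HC ρ B M k k' n) (hk : k₁ ≤ k) (hk' : k₁' ≤ k') :
    HC ρ B M k₁ k₁' n := by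
  intro i hi
  refine le_trans (sub_le_sub_right ?_ _) (h i (by omega))
  refine sum_le_sum_of_subset_of_nonneg (Ioc_subset_Ioc_right hk') fun l hl _ => ?_
  have := (mem_Ioc.1 hl).1
  exact mul_nonneg (aCoef_pos (by omega)).le (Nat.cast_nonneg _)

theorem lev_hd (B : ℝ) {l i : ℕ} (n : ℕ) (hi : i ≤ l) :
    lev B (hd l n) i = if i = 0 then B else (yy n i : ℝ) := by
  unfold lev
  split_ifs with h
  · rfl
  · rw [Level_hd n (by omega) hi]; rfl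

theorem sum_Ioc_split {L i : ℕ} (D n : ℕ) (hi : i ≤ L) :
    ∑ l ∈ Ioc i (L + D), aCoef (l - i) * yy n l =
      ∑ k ∈ Ioc i L, aA i k * th (hd L n k) + tb L D (tl^[L + 1] n) i := by
  induction D with
  | zero =>
    unfold tb
    rw [add_zero, sum_range_zero, add_zero]
    refine sum_congr rfl fun k hk => ?_
    obtain ⟨h1, h2⟩ := mem_Ioc.1 hk
    rw [Level_hd n (by omega) h2]
    rfl
  | succ D ih =>
    rw [← add_assoc, sum_Ioc_succ_top (by omega), ih]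
    unfold tb
    rw [sum_range_succ, yy_iter n (L + 1) D, show L + 1 + D = L + D + 1 by ring, add_assoc]

theorem HC.cons {B : ℝ} {M l n : ℕ} (D : ℕ) (h : HC ρ B M (l + 1) (l + D) n) :
    Cons l aA (fun i => tb l D (tl^[l + 1] n) i - sl ρ M i) B (hd l n) := by
  intro i hi
  have h1 := h i (by omega)
  rw [sum_Ioc_split D n hi] at h1
  rw [lev_hd B n hi]
  dsimp only
  linarith

/-- `φ (tl n) ∣ φ n`, `φ (tl (tl n)) ∣ φ n` (`Nat.totient_dvd_of_dvd`), `sm_totient`.  If `y_1 > u0` then `y_2 ≤ u0`,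
else `capSum ≥ (a_1 + a_2) u0 > B + B/100` (`sc_small`); then `φ (tl n) ≤ p_1 φ (tl (tl n))`, `(p_1 - 1)² ≤ φ n ≤ x`. -/
theorem W1 (hρ : IsRho ρ) : ∀ᶠ z : ℝ × ℕ in FA ρ, ∀ K' n : ℕ, K' + 2 ≤ z.2 → (n.totient : ℝ) ≤ z.1 →
    Rough z.1 n.totient → Good0 (xi ρ z.2) (bigB z.1) (z.2 - K') n →
    ((tl n).totient : ℝ) ≤ z.1 ^ (3 / 5 : ℝ) ∧
      ((yy n 1 : ℝ) ≤ u0 z.1 → ((tl n).totient : ℝ) ≤ z.1 ^ (1 / bigB z.1)) := by
  filter_upwards [sc_small hρ 0, tendsto_fst_FA ρ |>.eventually rpow_inv_bigB_le] with z hs hr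
  rintro K' n hK hx ⟨-, hR⟩ ⟨h1, -, h3⟩
  have hn : 0 < n := by omega
  have hn1 := tl_pos hn
  have hn2 := tl_pos hn1
  have second : (yy n 1 : ℝ) ≤ u0 z.1 → ((tl n).totient : ℝ) ≤ z.1 ^ (1 / bigB z.1) := by
    intro hy
    refine (hR _ (Nat.totient_dvd_of_dvd (tl_dvd n)) (le_trans ?_ hy)).le
    have := (sm_totient hn1).2
    rw [yy_tl] at this
    exact_mod_cast this
  refine ⟨?_, second⟩
  rcases le_or_gt (yy n 1 : ℝ) (u0 z.1) with hy | hy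
  · exact (second hy).trans hr.1
  have hy2 : (yy n 2 : ℝ) ≤ u0 z.1 := by
    by_contra hy2
    rw [not_le] at hy2
    have h4 : aCoef 1 * yy n 1 + aCoef 2 * yy n 2 ≤ capSum (z.2 - K') n := by
      have h5 : ∑ d ∈ Icc 1 2, aCoef d * yy n d ≤ capSum (z.2 - K') n :=
        sum_le_sum_of_subset_of_nonneg (Icc_subset_Icc_right (by omega)) fun d hd _ =>
          mul_nonneg (aCoef_pos (mem_Icc.1 hd).1).le (Nat.cast_nonneg _)
      rwa [sum_Icc_succ_top (by norm_num), Icc_self, sum_singleton] at h5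
    have hξ := one_le_xi hρ z.2
    have hξ7 : xi ρ z.2 ≤ xi ρ z.2 ^ 7 := le_self_pow₀ hξ (by norm_num)
    have hu : 0.99 * bigB z.1 ≤ u0 z.1 := by unfold u0; linarith [hs.1, hs.2]
    have hB : 100 ≤ bigB z.1 := by linarith [hs.1]
    have h5 : 0.386 * (yy n 1 : ℝ) ≤ aCoef 1 * yy n 1 :=
      mul_le_mul_of_nonneg_right aCoef_one.1.le (Nat.cast_nonneg _)
    have h6 : 0.905 * (yy n 2 : ℝ) ≤ aCoef 2 * yy n 2 :=
      mul_le_mul_of_nonneg_right aCoef_two.le (Nat.cast_nonneg _)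
    linarith [hs.1]
  have h4 : ((tl (tl n)).totient : ℝ) ≤ z.1 ^ (1 / bigB z.1) := by
    refine (hR _ (Nat.totient_dvd_of_dvd ((tl_dvd _).trans (tl_dvd n))) (le_trans ?_ hy2)).le
    have := (sm_totient hn2).2
    rw [yy_tl, yy_tl] at this
    exact_mod_cast this
  have h5 : (gp (tl n) - 1) * (gp (tl n) - 1) ≤ n.totient :=
    (Nat.mul_le_mul (Nat.sub_le_sub_right (gp_tl_le hn) 1) (gp_sub_one_le hn1)).trans
      (gp_sub_one_mul_le hn)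
  have h6 : ((gp (tl n) : ℝ) - 1) ^ 2 ≤ z.1 := by
    have h7 : (((gp (tl n) - 1) * (gp (tl n) - 1) : ℕ) : ℝ) ≤ n.totient := by exact_mod_cast h5
    rw [Nat.cast_mul, Nat.cast_sub (gp_pos _), Nat.cast_one, ← sq] at h7
    exact h7.trans hx
  have h7 : (gp (tl n) : ℝ) ≤ √z.1 + 1 := by linarith [Real.le_sqrt_of_sq_le h6]
  have h8 : ((tl n).totient : ℝ) ≤ gp (tl n) * (tl (tl n)).totient := by
    exact_mod_cast totient_le_gp_mul hn1
  refine h8.trans (le_trans ?_ hr.2.2)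
  exact mul_le_mul h7 h4 (Nat.cast_nonneg _) (by positivity)

/-- `head_count`, `pc_up`, `H1`, `Bd.prod`, `HC.cons` with `D = 0` -/
theorem LB1 (hρ : IsRho ρ) : ∃ C : ℝ, 0 < C ∧ ∀ᶠ z : ℝ × ℕ in FA ρ, ∀ l ≤ z.2,
    ∀ (N : Finset ℕ) (τ vl : ℕ → ℕ) (T : ℕ → Prop) (C₁ : ℝ),
    (∀ n ∈ N, Chain (l + 1) n ∧ (n.totient : ℝ) ≤ z.1 ∧ ((tl n).totient : ℝ) ≤ z.1 ^ (3 / 5 : ℝ) ∧
      HC ρ (bigB z.1) z.2 (l + 1) l n ∧ vl (τ n) = (tl^[l + 1] n).totient ∧ T (τ n)) →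
    (∀ n ∈ N, ∀ n' ∈ N, (∀ i ≤ l, pr n i = pr n' i) → τ n = τ n' → n = n') →
    Bd T (fun w => rcp (vl w)) C₁ →
    (N.card : ℝ) ≤ C * C₁ * (z.1 / Real.log z.1 * GG l (bigB z.1)) := by
  obtain ⟨C₀, hC₀, h0⟩ := pc_up
  obtain ⟨C₂, hC₂, h2⟩ := H1 hρ
  refine ⟨C₀ * C₂, by positivity, ?_⟩
  filter_upwards [tendsto_fst_FA ρ |>.eventually h0, h2,
    tendsto_fst_FA ρ |>.eventually (eventually_ge_atTop 1)] with z hz0 hz2 hz1
  intro l hl N τ vl T C₁ hN hinj hT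
  have hx : 0 ≤ z.1 / Real.log z.1 := div_nonneg (by linarith) (Real.log_nonneg hz1)
  have key := head_count (mul_nonneg hC₀.le hx) hz0 l N τ vl _
    ((hz2 l hl).prod hT fun h hh => wt_nonneg hh.1) (fun n hn => ?_) hinj
  · refine key.trans (le_of_eq ?_)
    ring
  · obtain ⟨k1, k2, k3, k4, k5, k6⟩ := hN n hn
    refine ⟨k1, k2, k3, k5, ⟨k1.head, ?_⟩, k6⟩
    have := HC.cons 0 k4
    simpa [tb] using this

/-- If `20 l < M` then `9 M ≤ 10 j` and `yy n (l+1) ≤ yy n 0 ≤ B + C ≤ ξ_j^9` (`th_le_bigB`, `gp_sub_one_le`,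
`sc_auto`), so `N = ∅`.  Otherwise `head_count` with `Bd.union` over `t = yy n (l+1)`, `H2`, `HC.cons` with `D = 1`,
`T3` with `J = j + 1` (`xi_big`). -/
theorem LB2 (hρ : IsRho ρ) : ∃ (C : ℝ) (K₀ : ℕ), 0 < C ∧ ∀ᶠ z : ℝ × ℕ in FA ρ, ∀ l j : ℕ,
    l + 1 + j = z.2 → K₀ ≤ j → ∀ (N : Finset ℕ) (τ vl : ℕ → ℕ) (T : ℕ → ℕ → Prop),
    (∀ n ∈ N, Chain (l + 1) n ∧ (n.totient : ℝ) ≤ z.1 ∧ ((tl n).totient : ℝ) ≤ z.1 ^ (3 / 5 : ℝ) ∧
      HC ρ (bigB z.1) z.2 (l + 1) (l + 1) n ∧ vl (τ n) = (tl^[l + 1] n).totient ∧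
      xi ρ j ^ 9 < yy n (l + 1) ∧ T (yy n (l + 1)) (τ n)) →
    (∀ n ∈ N, ∀ n' ∈ N, (∀ i ≤ l, pr n i = pr n' i) → τ n = τ n' → n = n') →
    (∀ t : ℕ, xi ρ j ^ 9 < t → Bd (T t) (fun w => rcp (vl w))
      (((t : ℝ) + 1) ^ (j + 1) * xi ρ j * Real.exp ((t : ℝ) ^ (1 / 18 : ℝ)))) →
    (N.card : ℝ) ≤ C * (z.1 / Real.log z.1 * GG l (bigB z.1)) := by
  obtain ⟨C₀, hC₀, h0⟩ := pc_up
  obtain ⟨C₂, c, hC₂, hc, h2⟩ := H2 hρ
  obtain ⟨C₃, h3⟩ := th_le_bigB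
  obtain ⟨K₀, hK₀⟩ := eventually_atTop.1 (((tendsto_xi hρ).eventually (T3 hc)).and (xi_big hρ))
  refine ⟨C₀ * C₂, max K₀ 20, by positivity, ?_⟩
  filter_upwards [tendsto_fst_FA ρ |>.eventually h0, h2,
    tendsto_fst_FA ρ |>.eventually (eventually_ge_atTop 1), tendsto_fst_FA ρ |>.eventually h3,
    sc_auto hρ C₃,
    tendsto_fst_FA ρ |>.eventually (tendsto_bigB.eventually (eventually_gt_atTop 0))]
    with z hz0 hz2 hz1 hz3 hz4 hB
  intro l j hlj hj N τ vl T hN hinj hT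
  have hx : 0 ≤ z.1 / Real.log z.1 := div_nonneg (by linarith) (Real.log_nonneg hz1)
  have hG := GG_pos l hB
  obtain ⟨hj1, hj2⟩ := max_le_iff.1 hj
  rcases lt_or_ge (20 * l) z.2 with hl | hl
  · have hemp : N = ∅ := by
      refine eq_empty_of_forall_notMem fun n hn => ?_
      obtain ⟨k1, k2, -, -, -, k6, -⟩ := hN n hn
      have k7 : (yy n (l + 1) : ℝ) ≤ yy n 0 := by exact_mod_cast yy_anti k1.1 (Nat.zero_le _)
      have k8 : (gp n : ℝ) - 1 ≤ z.1 := by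
        have k9 : ((gp n - 1 : ℕ) : ℝ) ≤ n.totient := by exact_mod_cast gp_sub_one_le k1.1
        rw [Nat.cast_sub (gp_pos n), Nat.cast_one] at k9
        exact k9.trans k2
      have k9 := hz3 _ k8
      have k10 := hz4 j (by omega)
      rw [viol_yy_zero] at k7
      linarith
    rw [hemp, card_empty, Nat.cast_zero]
    positivity
  obtain ⟨hT3, hbig⟩ := hK₀ j hj1
  have hJ : ((j + 1 : ℕ) : ℝ) ^ 4 ≤ xi ρ j := by
    refine le_trans (pow_le_pow_left₀ (Nat.cast_nonneg _) ?_ 4) hbig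
    push_cast; linarith
  have hU := ((hT3 (j + 1) hJ).const_mul (mul_pos hC₂ hG).le).union
    (f := fun s : (ℕ → ℕ) × ℕ => wt 1 l s.1 * rcp (vl s.2))
    (R := fun (t : ℕ) (s : (ℕ → ℕ) × ℕ) => (Head 1 l s.1 ∧
      Cons l aA (fun i => aCoef (l + 1 - i) * t - sl ρ z.2 i) (bigB z.1) s.1) ∧ T t s.2) (by
      intro t ht
      have k1 := (hz2 l (by omega) hl t (Nat.cast_nonneg t)).prod (hT t ht)
        fun h hh => wt_nonneg hh.1
      rw [show z.2 - (l + 1) = j by omega] at k1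
      refine k1.mono (fun _ h => h) (fun _ _ => le_rfl) (le_of_eq ?_)
      ring)
  have key := head_count (mul_nonneg hC₀.le hx) hz0 l N τ vl _ hU (fun n hn => ?_) hinj
  · refine key.trans (le_of_eq ?_)
    ring
  · obtain ⟨k1, k2, k3, k4, k5, k6, k7⟩ := hN n hn
    refine ⟨k1, k2, k3, k5, yy n (l + 1), k6, ⟨k1.head, ?_⟩, k7⟩
    have := HC.cons 1 k4
    simpa [tb, yy_iter, yy_tl] using this

end Crest.Agent.R20
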