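import Crest.Agent.R20.Level
import Crest.Agent.R20.Coll

/-!
# R20/LowA: lower bound: members that are not fine
-/

set_option autoImplicit false

open Finset Filter Topology Crest.NumberTheoryR.TotientScale

namespace Crest.Agent.R20

variable {ρ : ℝ}

theorem TFam.mono {ξ : ℝ} {J : ℕ} {T T' : Finset ℕ} (h : TFam ξ J T) (hT : T' ⊆ T) : TFam ξ J T' := by
  exact ⟨fun m hm => h.1 m (hT hm), fun m hm m' hm' => h.2 m (hT hm) m' (hT hm')⟩

theorem LowN.hc (hρ : IsRho ρ) {x : ℝ} {M K D W n l : ℕ} (h : LowN ρ x M K D W n)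
    (hl : l + 1 ≤ M - K) : HC ρ (bigB x) M (l + 1) (l + 1) n := by
  intro i hi
  have h1 := h.2.2.2.2.2.2 i (by omega)
  have h2 : ∑ k ∈ Ioc i (l + 1), aCoef (k - i) * yy n k ≤
      ∑ k ∈ Ioc i (M - K + D), aCoef (k - i) * yy n k := by
    refine sum_le_sum_of_subset_of_nonneg (Ioc_subset_Ioc_right (by omega)) fun k hk _ => ?_
    have := (mem_Ioc.1 hk).1
    exact mul_nonneg (aCoef_pos (by omega)).le (Nat.cast_nonneg _)
  have h3 := sl_nonneg hρ M i
  linarith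

/-- `Chain.iter`, `Chain.totient` for `tl^[L+1] n`, `TailInj`, `eq_of_pr_eq` -/
theorem tfam_image {x ξ : ℝ} {M K D W i : ℕ} {N : Finset ℕ} (hN : ∀ n ∈ N, LowN ρ x M K D W n)
    (hT : TailInj (M - K + 1) N) (hi : i ≤ M - K) (hW : (W : ℝ) ≤ ξ) :
    TFam ξ (M - K + D - i + 1) (N.image fun n => tl^[i] n) := by
  have e1 : i + (M - K + D - i + 1) = M - K + D + 1 := by omega
  refine ⟨?_, ?_⟩
  · intro m hm
    obtain ⟨n, hn, rfl⟩ := mem_image.1 hm
    have h := hN n hn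
    refine ⟨Chain.iter i (by rw [e1]; exact h.1), ?_⟩
    rw [iter_iter, e1]
    have : (((tl^[M - K + D + 1] n).totient : ℕ) : ℝ) ≤ W := by exact_mod_cast h.2.2.2.2.2.1
    exact this.trans hW
  · intro m hm m' hm' hp ht
    obtain ⟨n, hn, rfl⟩ := mem_image.1 hm
    obtain ⟨n', hn', rfl⟩ := mem_image.1 hm'
    have h := hN n hn
    have h' := hN n' hn'
    have e2 : M - K + 1 + D = M - K + D + 1 := by omega
    have c : Chain D (tl^[M - K + 1] n) := Chain.iter _ (by rw [e2]; exact h.1)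
    have c' : Chain D (tl^[M - K + 1] n') := Chain.iter _ (by rw [e2]; exact h'.1)
    rw [iter_iter, iter_iter, e1] at ht
    have hr : tl^[M - K + 1] n = tl^[M - K + 1] n' := by
      refine hT n hn n' hn' ?_
      rw [c.totient, c'.totient, iter_iter, iter_iter, e2, ht]
      congr 1
      refine prod_congr rfl fun e he => ?_
      have he' := mem_range.1 he
      have := hp (M - K + 1 + e - i) (by omega)
      rw [pr_iter, pr_iter, show i + (M - K + 1 + e - i) = M - K + 1 + e by omega] at this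
      rw [pr_iter, pr_iter, this]
    refine eq_of_pr_eq (k := M - K + 1 - i) (fun d hd => hp d (by omega)) ?_
    rw [iter_iter, iter_iter, show i + (M - K + 1 - i) = M - K + 1 by omega, hr]

/-- `ξ = ξ_j`, `j = M - i ≥ K`, `W ≤ ξ_K`, `D' = M - K + D - i ≤ j`.
`i = 0`: `yy n 0 ≤ B + C ≤ ξ^9`, so `gp n` is abnormal; `TM2` with `topW_ind x (B - C - ξ)` (`th_ge_bigB`).
`i = l + 1`: `τ = tl^[l+1]`, `vl = φ`; if `ξ^9 < yy n i` use `LB2` with `T t m = m ∈ image ∧ yy m 0 = t` and `TM1`;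
otherwise `LB1` with `TM2` for `topW_rcp (-ξ)`. -/
theorem low_bad (hρ : IsRho ρ) : ∃ C : ℝ, 0 < C ∧ ∀ W : ℕ, ∃ K₀ : ℕ, ∀ K, K₀ ≤ K →
    ∀ᶠ z : ℝ × ℕ in FA ρ, ∀ D ≤ K, ∀ i ≤ z.2 - K, ∀ N : Finset ℕ,
    (∀ n ∈ N, LowN ρ z.1 z.2 K D W n ∧
      ¬ ((yy n i : ℝ) ≤ xi ρ (z.2 - i) ^ 9 ∧ Normal (xi ρ (z.2 - i) ^ 6) (pr n i))) →
    TailInj (z.2 - K + 1) N →
    (N.card : ℝ) ≤ C * (z.1 / Real.log z.1 * GG (i - 1) (bigB z.1)) := by
  classical
  obtain ⟨C1, hC1, hLB1⟩ := LB1 hρ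
  obtain ⟨C2, K2, hC2, hLB2⟩ := LB2 hρ
  obtain ⟨Cu, hCu⟩ := th_le_bigB
  obtain ⟨Cl, hCl⟩ := th_ge_bigB
  refine ⟨Real.exp Cl + C1 + C2, by positivity, fun W => ?_⟩
  have hξ := (tendsto_xi hρ).eventually
    (TM2.and (topW_rcp.and (topW_ind.and ((eventually_ge_atTop (2 : ℝ)).and
      (eventually_ge_atTop (W : ℝ))))))
  obtain ⟨j0, hj0⟩ := eventually_atTop.1 (hξ.and (xi_big hρ))
  refine ⟨max j0 K2, fun K hK => ?_⟩
  have hx := tendsto_fst_FA ρ
  filter_upwards [hLB1, hLB2, hx.eventually hCu, hx.eventually hCl, sc_auto hρ Cu, sc_auto hρ (-Cl),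
    hx.eventually rpow_inv_bigB_le, hx.eventually exp_neg_bigB,
    (tendsto_M hρ).eventually (eventually_ge_atTop K),
    hx.eventually (tendsto_bigB.eventually (eventually_gt_atTop (0 : ℝ))),
    hx.eventually (eventually_gt_atTop (1 : ℝ))] with z h1 h2 hu hl a1 a2 hrp hex hM hB hx1
  intro D hD i hi N hN hT
  obtain ⟨⟨hTM2, hrcp, hind, h2ξ, hWξ⟩, hbig⟩ := hj0 (z.2 - i) (by omega)
  have hlog : 0 < Real.log z.1 := Real.log_pos hx1
  have hG : 0 < z.1 / Real.log z.1 * GG (i - 1) (bigB z.1) :=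
    mul_pos (div_pos (by linarith) hlog) (GG_pos _ hB)
  have hD4 : (((z.2 - K + D - i : ℕ) : ℝ) + 2) ^ 4 ≤ xi ρ (z.2 - i) := by
    refine le_trans ?_ hbig
    have : ((z.2 - K + D - i : ℕ) : ℝ) ≤ ((z.2 - i : ℕ) : ℝ) := by
      exact_mod_cast (by omega : z.2 - K + D - i ≤ z.2 - i)
    gcongr
  have hF : TFam (xi ρ (z.2 - i)) (z.2 - K + D - i + 1) (N.image fun n => tl^[i] n) :=
    tfam_image (fun n hn => (hN n hn).1) hT hi hWξ
  have he0 := Real.exp_pos Cl
  rcases i with _ | l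
  · -- the top level
    simp only [Nat.sub_zero] at *
    have hy : ∀ n ∈ N, (yy n 0 : ℝ) ≤ xi ρ z.2 ^ 9 := by
      intro n hn
      have hn' := (hN n hn).1
      refine le_trans (hu (gp n) ?_) (a1 z.2 (by omega))
      have h3 : ((gp n - 1 : ℕ) : ℝ) ≤ n.totient := by exact_mod_cast gp_sub_one_le hn'.1.1
      rw [Nat.cast_sub (gp_pos n), Nat.cast_one] at h3
      exact h3.trans hn'.2.2.1
    have hI : (N.image fun n => tl^[0] n) = N := by simp
    rw [hI] at hF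
    have h9 := a2 z.2 (by omega)
    have key := hTM2 _ _ _ (bigB z.1 - Cl - xi ρ z.2) N hD4
      (hind z.1 _ (by linarith) (by linarith)) hF (fun m hm => ⟨by
        have := hl (gp m) (hN m hm).1.2.1
        change _ ≤ ((th (gp m) : ℕ) : ℝ)
        linarith, hy m hm, fun hn => (hN m hm).2 ⟨hy m hm, hn⟩⟩)
    have hc : ∑ m ∈ N, ind z.1 m.totient = N.card := by
      rw [card_eq_sum_ones, Nat.cast_sum]
      refine sum_congr rfl fun m hm => ?_
      simp [ind, (hN m hm).1.2.2.1]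
    rw [hc] at key
    have e : z.1 * Real.exp (-(bigB z.1 - Cl - xi ρ z.2)) * Real.exp (-(xi ρ z.2 ^ 2 / 2)) =
        Real.exp Cl * (z.1 / Real.log z.1) * Real.exp (xi ρ z.2 - xi ρ z.2 ^ 2 / 2) := by
      rw [show -(bigB z.1 - Cl - xi ρ z.2) = -bigB z.1 + (Cl + xi ρ z.2) by ring, Real.exp_add,
        Real.exp_add, hex, sub_eq_add_neg, Real.exp_add]
      ring
    have e1 : Real.exp (xi ρ z.2 - xi ρ z.2 ^ 2 / 2) ≤ 1 := by
      rw [Real.exp_le_one_iff]; nlinarith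
    rw [e] at key
    simp only [Nat.zero_sub, GG_zero, mul_one] at hG ⊢
    have k1 : Real.exp Cl * (z.1 / Real.log z.1) * Real.exp (xi ρ z.2 - xi ρ z.2 ^ 2 / 2) ≤
        Real.exp Cl * (z.1 / Real.log z.1) := mul_le_of_le_one_right (by positivity) e1
    nlinarith [mul_pos hC1 hG, mul_pos hC2 hG]
  · simp only [Nat.add_sub_cancel] at hG ⊢
    set ξ := xi ρ (z.2 - (l + 1)) with hξdef
    have hinj : ∀ n n' : ℕ, (∀ i ≤ l, pr n i = pr n' i) → tl^[l + 1] n = tl^[l + 1] n' → n = n' :=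
      fun n n' hp ht => eq_of_pr_eq (k := l + 1) (fun i hi => hp i (by omega)) ht
    have hbase : ∀ n ∈ N, Chain (l + 1) n ∧ (n.totient : ℝ) ≤ z.1 ∧
        ((tl n).totient : ℝ) ≤ z.1 ^ (3 / 5 : ℝ) ∧ HC ρ (bigB z.1) z.2 (l + 1) (l + 1) n := by
      intro n hn
      have hn' := (hN n hn).1
      exact ⟨hn'.1.mono (by omega), hn'.2.2.1, hn'.2.2.2.1.trans hrp.1, hn'.hc hρ hi⟩
    have b2 := h2 l (z.2 - (l + 1)) (by omega) (by omega) (N.filter fun n => ξ ^ 9 < yy n (l + 1))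
      (fun n => tl^[l + 1] n) Nat.totient
      (fun t m => m ∈ (N.image fun n => tl^[l + 1] n) ∧ yy m 0 = t)
      (fun n hn => by
        obtain ⟨hn, hy⟩ := mem_filter.1 hn
        obtain ⟨q1, q2, q3, q4⟩ := hbase n hn
        exact ⟨q1, q2, q3, q4, rfl, hy, mem_image_of_mem _ hn, by rw [yy_iter]⟩)
      (fun n _ n' _ hp ht => hinj n n' hp ht)
      (fun t _ S hS => by
        have := TM1 (t := t) (by linarith) (hF.mono (T' := S) fun m hm => (hS m hm).1)
          (fun m hm => (hS m hm).2.le)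
        refine this.trans ?_
        have p1 : ((t : ℝ) + 1) ^ (z.2 - K + D - (l + 1) + 1) ≤ ((t : ℝ) + 1) ^ (z.2 - (l + 1) + 1) :=
          pow_le_pow_right₀ (by linarith [(Nat.cast_nonneg t : (0 : ℝ) ≤ t)]) (by omega)
        have p2 : 1 ≤ Real.exp ((t : ℝ) ^ (1 / 18 : ℝ)) := Real.one_le_exp (by positivity)
        have p3 : 0 ≤ ξ := by linarith
        calc _ ≤ ((t : ℝ) + 1) ^ (z.2 - (l + 1) + 1) * ξ := by gcongr
          _ ≤ _ := le_mul_of_one_le_right (by positivity) p2)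
    have b1 := h1 l (by omega) (N.filter fun n => ¬ ξ ^ 9 < yy n (l + 1))
      (fun n => tl^[l + 1] n) Nat.totient
      (fun m => m ∈ ((N.filter fun n => ¬ ξ ^ 9 < yy n (l + 1)).image fun n => tl^[l + 1] n)) 1
      (fun n hn => by
        obtain ⟨q1, q2, q3, q4⟩ := hbase n (mem_filter.1 hn).1
        exact ⟨q1, q2, q3, q4.mono le_rfl (by omega), rfl, mem_image_of_mem _ hn⟩)
      (fun n _ n' _ hp ht => hinj n n' hp ht)
      (fun S hS => by
        have := hTM2 _ _ _ (-ξ) S hD4 (hrcp _)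
          (hF.mono (T' := S) fun m hm => image_subset_image (filter_subset _ _) (hS m hm))
          (fun m hm => by
            obtain ⟨n, hn, rfl⟩ := mem_image.1 (hS m hm)
            obtain ⟨hn, hy⟩ := mem_filter.1 hn
            rw [yy_iter]
            refine ⟨by simp, not_lt.1 hy, fun hnm => (hN n hn).2 ⟨not_lt.1 hy, hnm⟩⟩)
        refine this.trans ?_
        rw [one_mul, Real.exp_le_one_iff]
        have := sq_nonneg ξ
        linarith)
    have hc : (N.card : ℝ) = ((N.filter fun n => ξ ^ 9 < yy n (l + 1)).card : ℝ) +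
        ((N.filter fun n => ¬ ξ ^ 9 < yy n (l + 1)).card : ℝ) := by
      rw [← Nat.cast_add, card_filter_add_card_filter_not]
    rw [hc]
    nlinarith [mul_pos he0 hG]

end Crest.Agent.R20
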