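import Crest.Agent.R20.LowA

/-!
# R20/LowB: lower bound: collisions
-/

set_option autoImplicit false

open Finset Filter Topology Crest.NumberTheoryR.TotientScale

namespace Crest.Agent.R20

variable {ρ : ℝ}

theorem LowB_normal {E E' : ℝ} {p : ℕ} (h : Normal E p) (hE : E ≤ E') : Normal E' p :=
  fun t => (h t).trans hE

theorem LowB_xi6 (hρ : IsRho ρ) {a b : ℕ} (h : a ≤ b) : xi ρ a ^ 6 ≤ xi ρ b ^ 6 :=
  pow_le_pow_left₀ (zero_le_one.trans (one_le_xi hρ a)) (xi_mono hρ h) 6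

theorem LowB_cancel {i n n' : ℕ} (h : Chain i n) (h' : Chain i n') (e : n.totient = n'.totient)
    (hp : ∀ l < i, pr n l = pr n' l) : (tl^[i] n).totient = (tl^[i] n').totient := by
  rw [h.totient, h'.totient] at e
  have e1 : ∏ l ∈ range i, (pr n' l - 1) = ∏ l ∈ range i, (pr n l - 1) :=
    prod_congr rfl fun l hl => by rw [hp l (mem_range.1 hl)]
  rw [e1] at e
  refine Nat.eq_of_mul_eq_mul_left (prod_pos fun l hl => ?_) e
  have := (h.prime (mem_range.1 hl)).two_le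
  omega

theorem LowB_tailInj {l : ℕ} {N N' : Finset ℕ} (h : TailInj l N) (hN : N' ⊆ N) : TailInj l N' :=
  fun n hn n' hn' => h n (hN hn) n' (hN hn')

theorem fine_iter (hρ : IsRho ρ) {x : ℝ} {M K D W n i : ℕ} (h : LowN ρ x M K D W n)
    (hf : FineN ρ M K n) (hK : K ≤ M) (hi : i ≤ M - K) :
    Fine (xi ρ (M - i)) (M - K + D - i + 1) (tl^[i] n) := by
  refine ⟨?_, fun d hd => ?_⟩
  · rw [yy_iter]
    exact (hf i hi).1
  · rw [pr_iter]
    by_cases hc : i + d ≤ M - K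
    · exact LowB_normal (hf _ hc).2 (LowB_xi6 hρ (by omega))
    · exact LowB_normal (h.2.2.2.2.1 (i + d) (by omega) (by omega)) (LowB_xi6 hρ (by omega))

/-- the collision data at level `i` -/
theorem LowB_data (hρ : IsRho ρ) {x : ℝ} {M K D W n n' i : ℕ} (h : LowN ρ x M K D W n)
    (hf : FineN ρ M K n) (h' : LowN ρ x M K D W n') (hf' : FineN ρ M K n') (hK : K ≤ M)
    (hi : i ≤ M - K) (hW : (W : ℝ) ≤ xi ρ (M - i)) (e : n.totient = n'.totient)
    (hp : ∀ l < i, pr n l = pr n' l) (hlt : pr n' i < pr n i) :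
    Fine (xi ρ (M - i)) (M - K + D - i + 1) (tl^[i] n) ∧
      ∃ m', Chain (M - K + D - i + 1) m' ∧
        ((tl^[M - K + D - i + 1] m').totient : ℝ) ≤ xi ρ (M - i) ∧
        Fine (xi ρ (M - i)) (M - K + D - i + 1) m' ∧ (tl^[i] n).totient = m'.totient ∧
        gp m' < gp (tl^[i] n) := by
  have e1 : i + (M - K + D - i + 1) = M - K + D + 1 := by omega
  refine ⟨fine_iter hρ h hf hK hi, tl^[i] n', Chain.iter i (by rw [e1]; exact h'.1), ?_,
    fine_iter hρ h' hf' hK hi,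
    LowB_cancel (h.1.mono (by omega)) (h'.1.mono (by omega)) e hp, hlt⟩
  rw [iter_iter, e1]
  exact le_trans (by exact_mod_cast h'.2.2.2.2.2.1) hW

theorem LowB_cap {x : ℝ} {M K D W n i : ℕ} (h : LowN ρ x M K D W n) (hi : i ≤ M - K) :
    capSum (M - K + D - i) (tl^[i] n) + xi ρ (M - i) ^ 7 ≤
      if i = 0 then bigB x else (yy n i : ℝ) := by
  rw [capSum_iter, show i + (M - K + D - i) = M - K + D by omega]
  exact h.2.2.2.2.2.2 i hi

theorem LowB_ev (C : ℝ) : ∀ᶠ ξ : ℝ in atTop, C ≤ ξ ^ 7 / 2 ∧ C + 2 * ξ ^ 6 ≤ ξ ^ 7 / 10 := by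
  filter_upwards [eventually_ge_atTop (30 : ℝ), eventually_ge_atTop C] with ξ h1 h2
  have h3 : ξ ≤ ξ ^ 6 := le_self_pow₀ (by linarith) (by norm_num)
  have h4 : 30 * ξ ^ 6 ≤ ξ ^ 7 := by
    rw [pow_succ' ξ 6]
    exact mul_le_mul_of_nonneg_right h1 (by positivity)
  constructor <;> nlinarith

/-- As `low_bad`, with `TM3`: `m = tl^[i] n`, `m' = tl^[i] n'`, `φ m = φ m'` by `Chain.totient` and cancellation,
`capSum_iter`.  `i = 0`: `topW_ind x (B - C - 2 ξ^6)`, `yy n 0 ≥ B - C`, `C ≤ ξ^7/2`.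
`i = l + 1`: `LB1` with `topW_rcp (-2 ξ^6)`. -/
theorem low_coll (hρ : IsRho ρ) : ∃ C : ℝ, 0 < C ∧ ∀ W : ℕ, ∃ K₀ : ℕ, ∀ K, K₀ ≤ K →
    ∀ᶠ z : ℝ × ℕ in FA ρ, ∀ D ≤ K, ∀ i ≤ z.2 - K, ∀ N : Finset ℕ,
    (∀ n ∈ N, LowN ρ z.1 z.2 K D W n ∧ FineN ρ z.2 K n ∧
      ∃ n', LowN ρ z.1 z.2 K D W n' ∧ FineN ρ z.2 K n' ∧ n.totient = n'.totient ∧
        (∀ l < i, pr n l = pr n' l) ∧ pr n' i < pr n i) →
    TailInj (z.2 - K + 1) N →
    (N.card : ℝ) ≤ C * (z.1 / Real.log z.1 * GG (i - 1) (bigB z.1)) := by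
  classical
  obtain ⟨C₁, hC₁, hLB⟩ := LB1 hρ
  obtain ⟨Cg, hCg⟩ := th_ge_bigB
  refine ⟨C₁ + 1, by positivity, fun W => ?_⟩
  have hξ := (tendsto_xi hρ).eventually
    (TM3.and (topW_rcp.and (topW_ind.and ((eventually_ge_atTop (W : ℝ)).and (LowB_ev Cg)))))
  obtain ⟨K₀, hK₀⟩ := eventually_atTop.1 (hξ.and (xi_big hρ))
  refine ⟨K₀, fun K hK => ?_⟩
  filter_upwards [hLB, (tendsto_fst_FA ρ).eventually (hCg.and (exp_neg_bigB.and
    (rpow_inv_bigB_le.and ((eventually_gt_atTop (1 : ℝ)).and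
      (tendsto_bigB.eventually (eventually_gt_atTop (0 : ℝ))))))),
    sc_auto hρ (-Cg), (tendsto_M hρ).eventually (eventually_ge_atTop K)]
    with z hLB ⟨hCg, hexp, hrp, hx1, hB⟩ hauto hKM D hD i hi N hN hT
  obtain ⟨x, M⟩ := z
  simp only at *
  obtain ⟨⟨hTM, hrcp, hind, hW, hC1, hC2⟩, hbig⟩ := hK₀ (M - i) (by omega)
  have hξ1 := one_le_xi hρ (M - i)
  have hD' : (((M - K + D - i : ℕ) : ℝ) + 2) ^ 4 ≤ xi ρ (M - i) := by
    refine le_trans (pow_le_pow_left₀ (by positivity) ?_ 4) hbig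
    have : M - K + D - i ≤ M - i := by omega
    have : ((M - K + D - i : ℕ) : ℝ) ≤ ((M - i : ℕ) : ℝ) := by exact_mod_cast this
    linarith
  have hTF := tfam_image (fun n hn => (hN n hn).1) hT hi hW
  have hxl : 0 ≤ x / Real.log x := div_nonneg (by linarith) (Real.log_pos hx1).le
  have hG := GG_pos (i - 1) hB
  rcases i with _ | l
  · have hu : bigB x - Cg - 2 * xi ρ (M - 0) ^ 6 ≤ xi ρ (M - 0) ^ 9 := by
      have h1 := hauto (M - 0) (by omega)
      have h2 : 0 ≤ xi ρ (M - 0) ^ 6 := by positivity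
      linarith
    have h1 := hTM (M - K + D - 0) (ind x) _ _ _ hD' (hind x _ (by linarith) hu) hTF (by
      intro m hm
      obtain ⟨n, hn, rfl⟩ := mem_image.1 hm
      obtain ⟨h, hf, n', h', hf', e, hp, hlt⟩ := hN n hn
      have h2 : bigB x - Cg ≤ (yy (tl^[0] n) 0 : ℝ) := hCg _ h.2.1
      have h3 := LowB_cap h hi
      rw [if_pos rfl] at h3
      exact ⟨by linarith, by linarith, LowB_data hρ h hf h' hf' hKM hi hW e hp hlt⟩)
    have h2 : ∑ m ∈ N.image fun n => tl^[0] n, ind x m.totient = N.card := by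
      simp only [Function.iterate_zero, id_eq, image_id']
      rw [card_eq_sum_ones, Nat.cast_sum]
      refine sum_congr rfl fun n hn => ?_
      unfold ind
      rw [if_pos (hN n hn).1.2.2.1, Nat.cast_one]
    rw [h2, mul_assoc, ← Real.exp_add] at h1
    have h3 : Real.exp (-(bigB x - Cg - 2 * xi ρ (M - 0) ^ 6) + -(xi ρ (M - 0) ^ 7 / 10)) ≤
        1 / Real.log x := by
      rw [← hexp]
      exact Real.exp_le_exp.2 (by linarith)
    have h4 := mul_le_mul_of_nonneg_left h3 (by linarith : 0 ≤ x)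
    rw [mul_one_div] at h4
    rw [Nat.zero_sub, GG_zero, mul_one]
    nlinarith
  · have h1 := hLB l (by omega) N (fun n => tl^[l + 1] n) Nat.totient
      (fun m => m ∈ N.image fun n => tl^[l + 1] n) 1 (by
        intro n hn
        have h := (hN n hn).1
        exact ⟨h.1.mono (by omega), h.2.2.1, h.2.2.2.1.trans hrp.1,
          (h.hc hρ hi).mono le_rfl (Nat.le_succ l), rfl, mem_image_of_mem _ hn⟩)
      (fun n _ n' _ hp e => eq_of_pr_eq (fun i hi => hp i (Nat.lt_succ_iff.1 hi)) e) (by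
        intro S hS
        have h2 := hTM (M - K + D - (l + 1)) rcp 1 (-(2 * xi ρ (M - (l + 1)) ^ 6)) S hD' (hrcp _)
          (hTF.mono hS) (by
            intro m hm
            obtain ⟨n, hn, rfl⟩ := mem_image.1 (hS m hm)
            obtain ⟨h, hf, n', h', hf', e, hp, hlt⟩ := hN n hn
            have h3 := LowB_cap h hi
            rw [if_neg (Nat.succ_ne_zero l)] at h3
            have h4 : 0 ≤ xi ρ (M - (l + 1)) ^ 7 := by positivity
            refine ⟨?_, ?_, LowB_data hρ h hf h' hf' hKM hi hW e hp hlt⟩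
            · rw [neg_add_cancel]
              exact Nat.cast_nonneg _
            · rw [yy_iter, add_zero]
              linarith)
        refine h2.trans ?_
        rw [one_mul, Real.exp_le_one_iff, neg_nonpos]
        positivity)
    rw [Nat.add_sub_cancel] at hG ⊢
    nlinarith [mul_nonneg hxl hG.le]

theorem LowB_sum {L : ℕ} (hL : 1 ≤ L) {B : ℝ} (hB : 0 < B) :
    ∑ i ∈ range (L + 1), GG (i - 1) B ≤ 2 * ∑ l ∈ range L, GG l B := by
  rw [sum_range_succ']
  simp only [Nat.add_sub_cancel, Nat.zero_sub]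
  have := single_le_sum (f := fun l => GG l B) (fun l _ => (GG_pos l hB).le)
    (mem_range.2 hL : 0 ∈ range L)
  linarith

/-- Remove from `N` the classes of `low_bad` and `low_coll` (with `n' ∈ N`), `i ≤ L = M - K`.  On the rest `φ` is
injective: if `φ n = φ n'` and `pr n l = pr n' l` for all `l ≤ L` then `n = n'` (`Chain.totient`, `TailInj`,
`eq_of_pr_eq`); otherwise look at the first differing level.  `card_le_totientCount`;
`∑_{i ≤ L} G_{i-1} ≤ 2 ∑_{l < L} G_l` for `L ≥ 1`, `sc_GG_sum`. -/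
theorem low_count (hρ : IsRho ρ) {ε : ℝ} (hε : 0 < ε) (W : ℕ) : ∃ K₀ : ℕ, ∀ K, K₀ ≤ K →
    ∀ᶠ z : ℝ × ℕ in FA ρ, ∀ D ≤ K, ∀ N : Finset ℕ, (∀ n ∈ N, LowN ρ z.1 z.2 K D W n) →
    TailInj (z.2 - K + 1) N →
    (N.card : ℝ) ≤ totientCount z.1 + ε * (z.1 / Real.log z.1 * GG (z.2 - K) (bigB z.1)) := by
  classical
  obtain ⟨C₁, hC₁, h1⟩ := low_bad hρ
  obtain ⟨C₂, hC₂, h2⟩ := low_coll hρ
  obtain ⟨K₁, h1⟩ := h1 W
  obtain ⟨K₂, h2⟩ := h2 W
  obtain ⟨K₃, h3⟩ := sc_GG_sum hρ (ε := ε / (2 * (C₁ + C₂))) (by positivity)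
  refine ⟨K₁ + K₂ + K₃, fun K hK => ?_⟩
  filter_upwards [h1 K (by omega), h2 K (by omega), h3, (tendsto_fst_FA ρ).eventually
    ((eventually_gt_atTop (1 : ℝ)).and (tendsto_bigB.eventually (eventually_gt_atTop (0 : ℝ)))),
    (tendsto_M hρ).eventually (eventually_ge_atTop (K + 1))]
    with z h1 h2 h3 ⟨hx1, hB⟩ hKM D hD N hN hT
  obtain ⟨x, M⟩ := z
  simp only at *
  set L := M - K with hL
  let Pb : ℕ → ℕ → Prop := fun i n =>
    ¬ ((yy n i : ℝ) ≤ xi ρ (M - i) ^ 9 ∧ Normal (xi ρ (M - i) ^ 6) (pr n i))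
  let Pc : ℕ → ℕ → Prop := fun i n => FineN ρ M K n ∧ ∃ n' ∈ N, FineN ρ M K n' ∧
    n.totient = n'.totient ∧ (∀ l < i, pr n l = pr n' l) ∧ pr n' i < pr n i
  let N₀ := N.filter fun n => FineN ρ M K n ∧ ∀ i ≤ L, ¬ Pc i n
  have hsub : N ⊆ N₀ ∪ (range (L + 1)).biUnion fun i => N.filter (Pb i) ∪ N.filter (Pc i) := by
    intro n hn
    by_cases h0 : n ∈ N₀
    · exact mem_union_left _ h0
    refine mem_union_right _ (mem_biUnion.2 ?_)
    by_contra hc0
    have hc : ∀ i ∈ range (L + 1), n ∉ N.filter (Pb i) ∪ N.filter (Pc i) :=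
      fun i hi h => hc0 ⟨i, hi, h⟩
    refine h0 (mem_filter.2 ⟨hn, fun i hi => ?_, fun i hi hP => ?_⟩)
    · by_contra hb
      exact hc i (mem_range.2 (Nat.lt_succ_of_le hi)) (mem_union_left _ (mem_filter.2 ⟨hn, hb⟩))
    · exact hc i (mem_range.2 (Nat.lt_succ_of_le hi)) (mem_union_right _ (mem_filter.2 ⟨hn, hP⟩))
  have hinj : Set.InjOn Nat.totient N₀ := by
    intro n hn n' hn' e
    obtain ⟨hn, hf, hc⟩ := mem_filter.1 (mem_coe.1 hn)
    obtain ⟨hn', hf', hc'⟩ := mem_filter.1 (mem_coe.1 hn')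
    have key : ∀ i, i ≤ L + 1 → ∀ l < i, pr n l = pr n' l := by
      intro i
      induction i with
      | zero => exact fun _ l hl => absurd hl (Nat.not_lt_zero l)
      | succ i ih =>
        intro hi l hl
        have ih' := ih (by omega)
        rcases Nat.lt_succ_iff_lt_or_eq.1 hl with hl | rfl
        · exact ih' l hl
        · rcases lt_trichotomy (pr n l) (pr n' l) with hlt | he | hlt
          · exact absurd ⟨hf', n, hn, hf, e.symm, fun k hk => (ih' k hk).symm, hlt⟩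
              (hc' l (by omega))
          · exact he
          · exact absurd ⟨hf, n', hn', hf', e, ih', hlt⟩ (hc l (by omega))
    have hp := key (L + 1) le_rfl
    exact eq_of_pr_eq hp (hT n hn n' hn'
      (LowB_cancel ((hN n hn).1.mono (by omega)) ((hN n' hn').1.mono (by omega)) e hp))
  have h0 : N₀.card ≤ totientCount x := card_le_totientCount N₀ (fun n hn =>
    ⟨(hN n (mem_filter.1 hn).1).1.1, (hN n (mem_filter.1 hn).1).2.2.1⟩) hinj
  have hxl : 0 ≤ x / Real.log x := div_nonneg (by linarith) (Real.log_pos hx1).le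
  have h4 : ∀ i ∈ range (L + 1), ((N.filter (Pb i) ∪ N.filter (Pc i)).card : ℝ) ≤
      (C₁ + C₂) * (x / Real.log x) * GG (i - 1) (bigB x) := by
    intro i hi
    have hi' : i ≤ L := Nat.lt_succ_iff.1 (mem_range.1 hi)
    have a1 := h1 D hD i hi' (N.filter (Pb i))
      (fun n hn => ⟨hN n (mem_filter.1 hn).1, (mem_filter.1 hn).2⟩)
      (LowB_tailInj hT (filter_subset _ _))
    have a2 := h2 D hD i hi' (N.filter (Pc i)) (fun n hn => by
      obtain ⟨hn, hf, n', hn', hr⟩ := mem_filter.1 hn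
      exact ⟨hN n hn, hf, n', hN n' hn', hr⟩) (LowB_tailInj hT (filter_subset _ _))
    have a3 : ((N.filter (Pb i) ∪ N.filter (Pc i)).card : ℝ) ≤
        (N.filter (Pb i)).card + (N.filter (Pc i)).card := by
      exact_mod_cast card_union_le _ _
    linarith
  have h5 : (N.card : ℝ) ≤ N₀.card +
      ∑ i ∈ range (L + 1), ((N.filter (Pb i) ∪ N.filter (Pc i)).card : ℝ) := by
    have := (card_le_card hsub).trans ((card_union_le _ _).trans
      (Nat.add_le_add_left card_biUnion_le _))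
    exact_mod_cast this
  have h6 := sum_le_sum h4
  rw [← mul_sum] at h6
  have h7 := LowB_sum (L := L) (by omega) hB
  have h8 := h3 L (by omega)
  have h9 : (C₁ + C₂) * (x / Real.log x) * ∑ i ∈ range (L + 1), GG (i - 1) (bigB x) ≤
      (C₁ + C₂) * (x / Real.log x) * (2 * (ε / (2 * (C₁ + C₂)) * GG L (bigB x))) :=
    mul_le_mul_of_nonneg_left (by linarith) (by positivity)
  have h10 : (C₁ + C₂) * (x / Real.log x) * (2 * (ε / (2 * (C₁ + C₂)) * GG L (bigB x))) =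
      ε * (x / Real.log x * GG L (bigB x)) := by
    field_simp
  have h11 : (N₀.card : ℝ) ≤ totientCount x := by exact_mod_cast h0
  linarith

end Crest.Agent.R20
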