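import Crest.Agent.R20.LowB
import Crest.Agent.R20.Build
import Crest.Agent.R20.HLow

/-!
# R20/Lower: the lower bounds
-/

set_option autoImplicit false

open Finset Filter Topology Crest.NumberTheoryR.TotientScale

namespace Crest.Agent.R20

variable {ρ : ℝ}

theorem Lower_sum_Ioc (f : ℕ → ℝ) (L D : ℕ) :
    ∑ k ∈ Ioc L (L + D), f k = ∑ e ∈ range D, f (L + 1 + e) := by
  induction D with
  | zero => simp
  | succ D ih =>
    rw [← add_assoc, sum_Ioc_succ_top (by omega), sum_range_succ, ih, add_right_comm L D 1]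

theorem Lower_prod_Icc (f : ℕ → ℝ) (L D : ℕ) :
    ∏ k ∈ Icc 1 (L + D), f k = (∏ k ∈ Icc 1 L, f k) * ∏ e ∈ range D, f (L + 1 + e) := by
  induction D with
  | zero => simp
  | succ D ih =>
    rw [← add_assoc, prod_Icc_succ_top (by omega), prod_range_succ, ih, add_right_comm L D 1,
      mul_assoc]

theorem Lower_pos : ∀ᶠ z : ℝ × ℕ in FA ρ, 0 < bigB z.1 ∧ 0 ≤ z.1 / Real.log z.1 := by
  filter_upwards [(tendsto_bigB.comp (tendsto_fst_FA ρ)).eventually_gt_atTop 0,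
    (tendsto_fst_FA ρ).eventually_ge_atTop 1] with z h1 h2
  exact ⟨h1, div_nonneg (by linarith) (Real.log_nonneg h2)⟩

/-- `build_family`, `low_count` -/
theorem low_general (hρ : IsRho ρ) {ε : ℝ} (hε : 0 < ε) (W : ℕ) : ∃ K₀ : ℕ, ∀ K, K₀ ≤ K →
    ∀ᶠ z : ℝ × ℕ in FA ρ, ∀ D ≤ K, ∀ S : Finset ((ℕ → ℕ) × ℕ),
    (∀ s ∈ S, LowH ρ z.1 z.2 K D W s) →
    (∀ s ∈ S, ∀ s' ∈ S, s.2.totient = s'.2.totient → s.2 = s'.2) →
    z.1 / Real.log z.1 * ((1 - ε) * ∑ s ∈ S, wt 1 (z.2 - K) s.1 * rcp s.2.totient -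
      ε * GG (z.2 - K) (bigB z.1)) ≤ totientCount z.1 := by
  obtain ⟨K₀, hK₀⟩ := low_count hρ hε W
  refine ⟨K₀, fun K hK => ?_⟩
  filter_upwards [hK₀ K hK, build_family hρ hε W K] with z h1 h2 D hD S hS hinj
  obtain ⟨N, hN, hT, hcard⟩ := h2 D hD S hS hinj
  have := h1 D hD N hN hT
  linarith

theorem GoodTail.tailOK (hρ : IsRho ρ) {K' W K r : ℕ} (h : GoodTail ρ K' W K r) :
    TailOK (xi ρ K) (K - K') W r := by
  obtain ⟨h0, h1, h2⟩ := h
  refine ⟨⟨h0, fun i hi => ⟨(h1 i hi).2.1, ?_⟩⟩, fun e he => ?_, h2⟩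
  · rw [iter_succ]
    exact (h1 i hi).2.2.1
  · refine (h1 e he).2.2.2.1.mono ?_
    exact pow_le_pow_left₀ (zero_le_one.trans (one_le_xi hρ _)) (xi_mono hρ (by omega)) 6

/-- the head extended by the `D` top primes of the tail -/
def extH (L D : ℕ) (s : (ℕ → ℕ) × ℕ) : ℕ → ℕ :=
  fun i => if i ≤ L then s.1 i else if i ≤ L + D then pr s.2 (i - L - 1) else 0

theorem Lower_ext_le {L D i : ℕ} (s : (ℕ → ℕ) × ℕ) (hi : i ≤ L) : extH L D s i = s.1 i := if_pos hi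

theorem Lower_ext_tail {L D e : ℕ} (s : (ℕ → ℕ) × ℕ) (he : e < D) :
    extH L D s (L + 1 + e) = pr s.2 e := by
  rw [extH, if_neg (by omega), if_pos (by omega), show L + 1 + e - L - 1 = e by omega]

theorem Lower_lev {B : ℝ} {L D i : ℕ} (s : (ℕ → ℕ) × ℕ) (hi : i ≤ L) :
    lev B (extH L D s) i = lev B s.1 i := by
  rw [lev, lev, Lower_ext_le s hi]

/-- levels `i ≤ L`: split `Ioc i (L+D)` at `L`, `-sl ≤ sl`; levels `L < i`: `GoodAt` with `e = i - L - 1`,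
`capSum_iter` -/
theorem extH_spec (hρ : IsRho ρ) {B : ℝ} {M K' W K : ℕ} (hK : K' < K) (hM : K < M) {s : (ℕ → ℕ) × ℕ}
    (hr : GoodTail ρ K' W K s.2) (hh : Head 1 (M - K) s.1)
    (hc : Cons (M - K) aA (fun i => sl ρ M i + tb (M - K) (K - K') s.2 i) B s.1) :
    Head 1 (M - K') (extH (M - K) (K - K') s) ∧
      Cons (M - K') aA (fun i => -sl ρ M i) B (extH (M - K) (K - K') s) ∧
      wt 1 (M - K) s.1 * rcp s.2.totient =
        wt 1 (M - K') (extH (M - K) (K - K') s) * rcp (tl^[K - K'] s.2).totient := by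
  have hch := (hr.tailOK hρ).1
  have e0 : M - K' = M - K + (K - K') := by omega
  rw [e0]
  obtain ⟨-, hg, -⟩ := hr
  obtain ⟨L, hL⟩ : ∃ L, L = M - K := ⟨_, rfl⟩
  obtain ⟨D, hD⟩ : ∃ D, D = K - K' := ⟨_, rfl⟩
  simp only [← hL, ← hD] at hh hc hch hg ⊢
  refine ⟨⟨fun i hi => ?_, fun i hi => ?_⟩, fun i hi => ?_, ?_⟩
  · rw [mem_Icc] at hi
    rcases le_or_gt i L with h | h
    · rw [Lower_ext_le s h]
      exact hh.1 i (mem_Icc.2 ⟨hi.1, h⟩)
    · obtain ⟨e, rfl⟩ : ∃ e, i = L + 1 + e := ⟨i - L - 1, by omega⟩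
      rw [Lower_ext_tail s (by omega)]
      exact hch.prime (by omega)
  · rw [mem_Icc] at hi
    rcases le_or_gt i L with h | h
    · rw [Lower_ext_le s h]
      exact hh.2 i (by rw [mem_Icc]; omega)
    · rw [extH, if_neg (by omega), if_neg (by omega)]
  · rcases le_or_gt i L with h | h
    · have h1 := hc i h
      beta_reduce at h1 ⊢
      have h2 : ∑ k ∈ Ioc i L, aA i k * th (extH L D s k) = ∑ k ∈ Ioc i L, aA i k * th (s.1 k) :=
        sum_congr rfl fun k hk => by rw [Lower_ext_le s (mem_Ioc.1 hk).2]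
      have h3 : ∑ k ∈ Ioc L (L + D), aA i k * th (extH L D s k) = tb L D s.2 i := by
        rw [Lower_sum_Ioc, tb]
        exact sum_congr rfl fun e he => by rw [Lower_ext_tail s (mem_range.1 he)]; rfl
      rw [← sum_Ioc_consecutive _ h (Nat.le_add_right L D), h2, h3, Lower_lev s h]
      linarith [sl_nonneg hρ M i]
    · obtain ⟨e, rfl⟩ : ∃ e, i = L + 1 + e := ⟨i - L - 1, by omega⟩
      have he : e < D := by omega
      have h1 := (hg e he).2.2.2.2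
      rw [capSum_iter, Lower_sum_Ioc, yy_iter, add_zero] at h1
      have h2 : L + D = L + 1 + e + (K - 1 - e - K') := by omega
      have h3 : M - (L + 1 + e) = K - 1 - e := by omega
      have h4 : ∑ k ∈ Ioc (L + 1 + e) (L + D), aA (L + 1 + e) k * th (extH L D s k) =
          ∑ f ∈ range (K - 1 - e - K'), aCoef (e + 1 + f - e) * yy s.2 (e + 1 + f) := by
        rw [h2, Lower_sum_Ioc]
        refine sum_congr rfl fun f hf => ?_
        rw [mem_range] at hf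
        rw [show L + 1 + e + 1 + f = L + 1 + (e + 1 + f) by omega, Lower_ext_tail s (by omega), aA,
          show L + 1 + (e + 1 + f) - (L + 1 + e) = e + 1 + f - e by omega]
        rfl
      beta_reduce
      rw [h4, lev, if_neg (by omega), Lower_ext_tail s he, sl, h3]
      have h5 : (th (pr s.2 e) : ℝ) = yy s.2 e := rfl
      linarith
  · have h1 : wt 1 (L + D) (extH L D s) =
        wt 1 L s.1 * ∏ e ∈ range D, 1 / ((pr s.2 e : ℝ) - 1) := by
      rw [wt, wt, Lower_prod_Icc]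
      congr 1
      · exact prod_congr rfl fun k hk => by rw [Lower_ext_le s (mem_Icc.1 hk).2]
      · exact prod_congr rfl fun e he => by rw [Lower_ext_tail s (mem_range.1 he)]
    have h2 : rcp (∏ e ∈ range D, (pr s.2 e - 1)) = ∏ e ∈ range D, 1 / ((pr s.2 e : ℝ) - 1) := by
      rw [rcp, Nat.cast_prod, prod_div_distrib, prod_const_one]
      congr 1
      exact prod_congr rfl fun e he => by
        rw [Nat.cast_sub (hch.prime (mem_range.1 he)).one_le, Nat.cast_one]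
    rw [h1, hch.totient, rcp_mul, h2, mul_assoc]

theorem Lower_geo {κ : ℝ} (hκ : 1 < κ) (L n : ℕ) :
    ∑ i ∈ range (L + 1), 1 / κ ^ (L + (n + 1) - i - 1) ≤ κ⁻¹ ^ n / (1 - κ⁻¹) := by
  have h1 : ∑ i ∈ range (L + 1), 1 / κ ^ (L + (n + 1) - i - 1) =
      κ⁻¹ ^ n * ∑ i ∈ range (L + 1), κ⁻¹ ^ i := by
    rw [← sum_range_reflect (fun i => κ⁻¹ ^ i), mul_sum]
    refine sum_congr rfl fun i hi => ?_
    rw [mem_range] at hi
    rw [← pow_add, one_div, inv_pow, show L + (n + 1) - i - 1 = n + (L + 1 - 1 - i) by omega]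
  have h0 : 0 ≤ κ⁻¹ := inv_nonneg.2 (by linarith)
  have h2 := geom_sum_Ico_le_of_lt_one (m := 0) (n := L + 1) h0 (inv_lt_one_of_one_lt₀ hκ)
  rw [h1, range_eq_Ico, div_eq_mul_one_div]
  rw [pow_zero] at h2
  exact mul_le_mul_of_nonneg_left h2 (pow_nonneg h0 n)

/-- A member that is not `LowH` has a small gap of `extH` at some level `i ≤ L`.  The map
`s ↦ (extH s, φ (tl^[D] s.2))` is injective (`Chain.totient`, `Canon.inj`, `Head`).  `Bd.of_inj`, `Bd.prod` of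
`Bd.biUnion` of `H3` (`l = M - K'`) with `bd_rcp_le W`; `∑_{i ≤ L} κ^{-(l-i-1)} ≤ κ^{-(K-K'-1)}/(1 - 1/κ)`, `sc_GG_le`. -/
theorem low_gap (hρ : IsRho ρ) {ε : ℝ} (hε : 0 < ε) (K' W : ℕ) : ∃ K₀ : ℕ, ∀ K, K₀ ≤ K →
    ∀ᶠ z : ℝ × ℕ in FA ρ,
    Bd (fun s : (ℕ → ℕ) × ℕ => s.2 ∈ Rfin ρ K' W K ∧ Head 1 (z.2 - K) s.1 ∧
        Cons (z.2 - K) aA (fun i => sl ρ z.2 i + tb (z.2 - K) (K - K') s.2 i) (bigB z.1) s.1 ∧
        ¬ LowH ρ z.1 z.2 K (K - K') W s)
      (fun s => wt 1 (z.2 - K) s.1 * rcp s.2.totient) (ε * GG z.2 (bigB z.1)) := by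
  obtain ⟨C, κ, hC, hκ, h3⟩ := H3 hρ
  obtain ⟨C', hC', hG⟩ := sc_GG_le hρ
  have hq : κ⁻¹ < 1 := inv_lt_one_of_one_lt₀ hκ
  have hq0 : 0 ≤ κ⁻¹ := inv_nonneg.2 (by linarith)
  have hA : 0 < C * C' * (W + 1) / (1 - κ⁻¹) := div_pos (by positivity) (by linarith)
  obtain ⟨n₀, hn₀⟩ := exists_pow_lt_of_lt_one (div_pos hε hA) hq
  refine ⟨K' + 1 + n₀, fun K hK => ?_⟩
  filter_upwards [h3, hG, (tendsto_M hρ).eventually_gt_atTop K, Lower_pos] with z h3 hG hM hB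
  have hu := (Bd.biUnion (range (z.2 - K + 1)) fun i hi =>
    h3 (z.2 - K') (Nat.sub_le _ _) i (by rw [mem_range] at hi; omega)).prod
    (bd_rcp_le (Nat.cast_nonneg W)) fun h ⟨_, _, hh⟩ => wt_nonneg hh.1
  refine (hu.of_inj (fun s => (extH (z.2 - K) (K - K') s, (tl^[K - K'] s.2).totient)) ?_ ?_).mono
    (fun _ h => h) (fun _ _ => le_rfl) ?_
  · rintro s ⟨hr, hh, hc, hn⟩
    have hr' := (mem_Rfin.1 hr).2
    obtain ⟨a1, a2, a3⟩ := extH_spec hρ (by omega) hM hr' hh hc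
    refine ⟨⟨?_, Nat.totient_pos.2 (iter_pos hr'.1 _), by exact_mod_cast hr'.2.2⟩, a3.le⟩
    by_contra hgap
    have hg : ∀ i ≤ z.2 - K, th (extH (z.2 - K) (K - K') s (i + 1)) + sl ρ z.2 i <
        lev (bigB z.1) s.1 i := by
      intro i hi
      by_contra hlt
      rw [← Lower_lev (D := K - K') s hi] at hlt
      exact hgap ⟨i, mem_range.2 (by omega), a1, a2, not_lt.1 hlt⟩
    refine hn ⟨hh, hc, ?_, fun i h1 h2 => ?_, ?_, hr'.tailOK hρ⟩
    · have := hg 0 (Nat.zero_le _)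
      rw [Lower_ext_le s (by omega), lev, if_pos rfl] at this
      exact this.le
    · have := hg i h2.le
      rw [Lower_ext_le s (by omega), lev, if_neg (by omega)] at this
      have b : (th (s.1 (i + 1)) : ℝ) < th (s.1 i) := by linarith [sl_nonneg hρ z.2 i]
      exact_mod_cast b
    · have := hg _ le_rfl
      rw [← add_zero (z.2 - K + 1), Lower_ext_tail s (by omega), lev, if_neg (by omega)] at this
      have b : (th (pr s.2 0) : ℝ) < th (s.1 (z.2 - K)) := by linarith [sl_nonneg hρ z.2 (z.2 - K)]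
      exact_mod_cast b
  · rintro s s' ⟨hr, hh, -⟩ ⟨hr', hh', -⟩ e
    obtain ⟨e1, e2⟩ := Prod.mk.inj e
    rw [mem_Rfin] at hr hr'
    refine Prod.ext (funext fun i => ?_) (hr.1.inj hr'.1 ?_)
    · rcases le_or_gt i (z.2 - K) with h | h
      · rw [← Lower_ext_le (D := K - K') s h, e1, Lower_ext_le s' h]
      · rw [hh.2 i (by rw [mem_Icc]; omega), hh'.2 i (by rw [mem_Icc]; omega)]
    · rw [(hr.2.tailOK hρ).1.totient, (hr'.2.tailOK hρ).1.totient, e2]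
      congr 1
      refine prod_congr rfl fun i hi => ?_
      rw [← Lower_ext_tail (L := z.2 - K) s (mem_range.1 hi), e1, Lower_ext_tail s' (mem_range.1 hi)]
  · have hGM := (GG_pos z.2 hB.1).le
    have hGl := (GG_pos (z.2 - K') hB.1).le
    have b1 := Lower_geo hκ (z.2 - K) (K - K' - 1)
    rw [show z.2 - K + (K - K' - 1 + 1) = z.2 - K' by omega] at b1
    have b2 : κ⁻¹ ^ (K - K' - 1) ≤ κ⁻¹ ^ n₀ := pow_le_pow_of_le_one hq0 hq.le (by omega)
    have b3 : ∑ i ∈ range (z.2 - K + 1), C * GG (z.2 - K') (bigB z.1) / κ ^ (z.2 - K' - i - 1) =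
        C * GG (z.2 - K') (bigB z.1) * ∑ i ∈ range (z.2 - K + 1), 1 / κ ^ (z.2 - K' - i - 1) := by
      rw [mul_sum]
      exact sum_congr rfl fun i _ => by rw [mul_one_div]
    have hq1 : 0 < 1 - κ⁻¹ := by linarith
    rw [b3]
    calc C * GG (z.2 - K') (bigB z.1) * (∑ i ∈ range (z.2 - K + 1), 1 / κ ^ (z.2 - K' - i - 1)) * W
        ≤ C * (C' * GG z.2 (bigB z.1)) * (κ⁻¹ ^ n₀ / (1 - κ⁻¹)) * (W + 1) := by
          gcongr
          · exact hG _ (Nat.sub_le _ _)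
          · exact b1.trans (div_le_div_of_nonneg_right b2 hq1.le)
          · linarith
      _ = κ⁻¹ ^ n₀ * (C * C' * (W + 1) / (1 - κ⁻¹)) * GG z.2 (bigB z.1) := by ring
      _ ≤ ε * GG z.2 (bigB z.1) :=
          mul_le_mul_of_nonneg_right ((lt_div_iff₀ hA).1 hn₀).le hGM

/-- `vol_g_lo` for every `r ∈ Rfin` (`B - ∑ g (sl + tb) - 2 ∑ g = B - TT - Sig`), keep the `LowH` members
(`low_gap`), `low_general`, `sc_GG_le`, `Canon.inj` -/
theorem lower (hρ : IsRho ρ) {ε : ℝ} (hε : 0 < ε) (hε1 : ε ≤ 1) (K' W : ℕ) : ∃ K₀ : ℕ, ∀ K, K₀ ≤ K →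
    ∀ᶠ z : ℝ × ℕ in FA ρ, z.1 / Real.log z.1 *
      ((1 - ε) * MT (-1) ρ z.1 z.2 K (K - K') (Rfin ρ K' W K) - ε * GG z.2 (bigB z.1)) ≤
      totientCount z.1 := by
  classical
  obtain ⟨C, hC, hG⟩ := sc_GG_le hρ
  have hε' : 0 < ε / (2 * (C + 1)) := by positivity
  obtain ⟨K₁, h1⟩ := low_general hρ hε' W
  obtain ⟨K₂, h2⟩ := low_gap hρ (half_pos hε) K' W
  refine ⟨max K₁ K₂, fun K hK => ?_⟩
  filter_upwards [h1 K (le_of_max_le_left hK), h2 K (le_of_max_le_right hK), hG, Lower_pos]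
    with z h1 h2 hG hB
  choose S hS hS' using fun r : ℕ => vol_g_lo (z.2 - K)
    (fun i => sl ρ z.2 i + tb (z.2 - K) (K - K') r i) (bigB z.1)
    fun i hi => add_nonneg (sl_nonneg hρ _ _) (tb_nonneg _ _ hi)
  set R := Rfin ρ K' W K with hR
  set A : Finset ((ℕ → ℕ) × ℕ) := (R.biUnion S ×ˢ R).filter fun s => s.1 ∈ S s.2 with hA
  have hmem : ∀ s, s ∈ A ↔ s.2 ∈ R ∧ s.1 ∈ S s.2 := by
    intro s
    simp only [hA, mem_filter, mem_product, mem_biUnion]
    exact ⟨fun h => ⟨h.1.2, h.2⟩, fun h => ⟨⟨⟨_, h.1, h.2⟩, h.1⟩, h.2⟩⟩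
  have a1 : MT (-1) ρ z.1 z.2 K (K - K') R ≤ ∑ s ∈ A, wt 1 (z.2 - K) s.1 * rcp s.2.totient := by
    rw [sum_finset_product_right A R S hmem, MT]
    refine sum_le_sum fun r _ => ?_
    have b := mul_le_mul_of_nonneg_right (hS' r) (rcp_nonneg r.totient)
    rw [sum_mul] at b
    refine le_trans (le_of_eq ?_) b
    have e : bigB z.1 - TT (z.2 - K) (K - K') r + -1 * Sig ρ z.2 (z.2 - K) =
        bigB z.1 - ∑ i ∈ range (z.2 - K + 1), gSeq i * (sl ρ z.2 i + tb (z.2 - K) (K - K') r i) -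
          2 * ∑ i ∈ range (z.2 - K + 1), gSeq i := by
      simp only [TT, Sig, mul_add, sum_add_distrib, ← sum_mul]
      ring
    rw [e, rcp, div_mul_div_comm, mul_one, mul_comm (gP _)]
  have a2 := h2 (A.filter fun s => ¬ LowH ρ z.1 z.2 K (K - K') W s) fun s hs => by
    rw [mem_filter, hmem] at hs
    exact ⟨hs.1.1, (hS _ _ hs.1.2).1, (hS _ _ hs.1.2).2, hs.2⟩
  have a3 := h1 (K - K') (Nat.sub_le _ _) (A.filter fun s => LowH ρ z.1 z.2 K (K - K') W s)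
    (fun s hs => (mem_filter.1 hs).2) fun s hs s' hs' e =>
      (mem_Rfin.1 ((hmem s).1 (mem_filter.1 hs).1).1).1.inj
        (mem_Rfin.1 ((hmem s').1 (mem_filter.1 hs').1).1).1 e
  have a4 := sum_filter_add_sum_filter_not A (fun s => LowH ρ z.1 z.2 K (K - K') W s)
    fun s => wt 1 (z.2 - K) s.1 * rcp s.2.totient
  have a5 : 0 ≤ ∑ s ∈ A.filter fun s => LowH ρ z.1 z.2 K (K - K') W s,
      wt 1 (z.2 - K) s.1 * rcp s.2.totient :=
    sum_nonneg fun s hs => mul_nonneg (wt_nonneg (mem_filter.1 hs).2.1) (rcp_nonneg _)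
  refine le_trans (mul_le_mul_of_nonneg_left ?_ hB.2) a3
  have hGM := (GG_pos z.2 hB.1).le
  have b1 : ε / (2 * (C + 1)) ≤ ε := div_le_self hε.le (by linarith)
  have b2 : ε / (2 * (C + 1)) * GG (z.2 - K) (bigB z.1) ≤ ε / 2 * GG z.2 (bigB z.1) := by
    calc ε / (2 * (C + 1)) * GG (z.2 - K) (bigB z.1)
        ≤ ε / (2 * (C + 1)) * ((C + 1) * GG z.2 (bigB z.1)) :=
          mul_le_mul_of_nonneg_left ((hG _ (Nat.sub_le _ _)).trans (by nlinarith)) hε'.le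
      _ = ε / 2 * GG z.2 (bigB z.1) := by field_simp
  have b3 := mul_le_mul_of_nonneg_right b1 a5
  have b4 := mul_le_mul_of_nonneg_left (show MT (-1) ρ z.1 z.2 K (K - K') R ≤ _ +
    ε / 2 * GG z.2 (bigB z.1) from a1.trans (a4.symm.trans_le (add_le_add le_rfl a2)))
    (sub_nonneg.2 hε1)
  have b5 : 0 ≤ ε * (ε / 2 * GG z.2 (bigB z.1)) := by positivity
  linarith

/-- `H4`, `low_general` with `ε = min (1/2) (c/4)`, `W = 1`, `D = 0`, tails `r = 1`; `sc_GG_ge` -/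
theorem lower_special (hρ : IsRho ρ) : ∃ c : ℝ, 0 < c ∧ ∀ᶠ z : ℝ × ℕ in FA ρ,
    c * (z.1 / Real.log z.1 * GG z.2 (bigB z.1)) ≤ totientCount z.1 := by
  obtain ⟨c, hc, h4⟩ := H4 hρ
  have hε : 0 < min (1 / 2) (c / 4) := lt_min (by norm_num) (by positivity)
  obtain ⟨K, hK⟩ := low_general hρ hε 1
  obtain ⟨c', hc', hG⟩ := sc_GG_ge hρ K
  refine ⟨c / 4 * c', by positivity, ?_⟩
  filter_upwards [h4 K, hK K le_rfl, hG, (tendsto_M hρ).eventually_gt_atTop K, Lower_pos]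
    with z ⟨S, hS, hS'⟩ h1 hG hM hB
  have a := h1 0 (Nat.zero_le _) (S.map ⟨fun h => (h, 1), fun _ _ e => (Prod.mk.inj e).1⟩) ?_ ?_
  · simp only [sum_map, Function.Embedding.coeFn_mk, Nat.totient_one, rcp, Nat.cast_one, div_one,
      mul_one] at a
    refine le_trans ?_ a
    rw [mul_left_comm]
    refine mul_le_mul_of_nonneg_left ?_ hB.2
    have hGL := (GG_pos (z.2 - K) hB.1).le
    have b1 := mul_le_mul_of_nonneg_right (min_le_right (1 / 2) (c / 4)) hGL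
    have b2 := mul_le_mul_of_nonneg_right (min_le_left (1 / 2) (c / 4))
      ((mul_nonneg hc.le hGL).trans hS')
    have b3 := mul_le_mul_of_nonneg_left hG (show 0 ≤ c / 4 by positivity)
    linarith
  · intro s hs
    obtain ⟨h, hh, rfl⟩ := mem_map.1 hs
    obtain ⟨b1, b2, b3⟩ := hS h hh
    refine ⟨b1, by simpa [tb] using b2, ?_, fun i h1 h2 => ?_, ?_,
      ⟨zero_lt_one, fun i hi => absurd hi (Nat.not_lt_zero i)⟩,
      fun i hi => absurd hi (Nat.not_lt_zero i), by simp⟩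
    · have := b3 0 (by omega)
      rw [lev, if_pos rfl] at this
      exact this.le
    · have := b3 i h2
      rw [lev, if_neg (by omega)] at this
      have b : (th (h (i + 1)) : ℝ) < th (h i) := by linarith [sl_nonneg hρ z.2 i]
      exact_mod_cast b
    · show th (gp 1) < th (h (z.2 - K))
      rw [gp_one, th_one]
      exact th_pos (b1.1 _ (by rw [mem_Icc]; omega)).two_le
  · intro s hs s' hs' _
    obtain ⟨h, -, rfl⟩ := mem_map.1 hs
    obtain ⟨h', -, rfl⟩ := mem_map.1 hs'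
    rfl

end Crest.Agent.R20
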