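import Crest.Agent.R20.Upper
import Crest.Agent.R20.Lower
import Crest.Agent.R20.Asym

/-!
# R20/Main: the main theorem
-/

set_option autoImplicit false

open Finset Filter Topology Crest.NumberTheoryR.TotientScale

namespace Crest.Agent.R20

variable {ρ : ℝ}

theorem main_pos (ρ : ℝ) : ∀ᶠ z : ℝ × ℕ in FA ρ, 0 < z.1 / Real.log z.1 ∧ 0 < GG z.2 (bigB z.1) := by
  filter_upwards [(tendsto_fst_FA ρ).eventually (eventually_gt_atTop 1),
    (tendsto_bigB.comp (tendsto_fst_FA ρ)).eventually (eventually_gt_atTop 0)] with z h1 h2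
  exact ⟨div_pos (by linarith) (Real.log_pos h1), GG_pos _ h2⟩

theorem main_up {V X G m b ε : ℝ} (hX : 0 < X) (hG : 0 < G) (hε : 0 < ε)
    (h1 : V ≤ X * ((1 + ε) * m + ε * G)) (h2 : m ≤ b * G) : V / (X * G) ≤ (1 + ε) * b + ε := by
  rw [div_le_iff₀ (mul_pos hX hG)]
  have h3 : (1 + ε) * m ≤ (1 + ε) * (b * G) := mul_le_mul_of_nonneg_left h2 (by linarith)
  have h4 : X * ((1 + ε) * m + ε * G) ≤ X * ((1 + ε) * (b * G) + ε * G) :=
    mul_le_mul_of_nonneg_left (by linarith) hX.le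
  linarith

theorem main_lo {V X G m b ε : ℝ} (hX : 0 < X) (hG : 0 < G) (hε : ε ≤ 1)
    (h1 : X * ((1 - ε) * m - ε * G) ≤ V) (h2 : b * G ≤ m) : (1 - ε) * b - ε ≤ V / (X * G) := by
  rw [le_div_iff₀ (mul_pos hX hG)]
  have h3 : (1 - ε) * (b * G) ≤ (1 - ε) * m := mul_le_mul_of_nonneg_left h2 (by linarith)
  have h4 : X * ((1 - ε) * (b * G) - ε * G) ≤ X * ((1 - ε) * m - ε * G) :=
    mul_le_mul_of_nonneg_left (by linarith) hX.le
  linarith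

theorem main_arith {w a D δ t ε : ℝ} (ha : 0 ≤ a) (hD : 0 ≤ D) (hw : w ≤ D) (hδ : 0 < δ)
    (hδ1 : δ ≤ 1 / 2) (hε : δ * (12 * D + 15) ≤ ε) (ht : Real.exp t ≤ 1 + δ)
    (h1 : (1 - δ) * (Real.exp (-t) * a - δ) - δ ≤ w)
    (h2 : w ≤ (1 + δ) * (Real.exp t * a + δ) + δ) : |w - a| ≤ ε := by
  have e1 : 1 - δ ≤ Real.exp (-t) := by
    have h3 := Real.add_one_le_exp t
    have h4 := Real.add_one_le_exp (-t)
    linarith
  have e2 : (1 - δ) * ((1 - δ) * a - δ) - δ ≤ w := by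
    have h3 : (1 - δ) * a ≤ Real.exp (-t) * a := mul_le_mul_of_nonneg_right e1 ha
    have h4 : (1 - δ) * ((1 - δ) * a - δ) ≤ (1 - δ) * (Real.exp (-t) * a - δ) :=
      mul_le_mul_of_nonneg_left (by linarith) (by linarith)
    linarith
  have e3 : w ≤ (1 + δ) * ((1 + δ) * a + δ) + δ := by
    have h3 : Real.exp t * a ≤ (1 + δ) * a := mul_le_mul_of_nonneg_right ht ha
    have h4 : (1 + δ) * (Real.exp t * a + δ) ≤ (1 + δ) * ((1 + δ) * a + δ) :=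
      mul_le_mul_of_nonneg_left (by linarith) (by linarith)
    linarith
  have p1 : 0 ≤ δ * a := mul_nonneg hδ.le ha
  have p2 : δ * (δ * a) ≤ 1 / 2 * (δ * a) := mul_le_mul_of_nonneg_right hδ1 p1
  have p3 : 0 ≤ δ * (δ * a) := mul_nonneg hδ.le p1
  have p4 : δ * δ ≤ 1 / 2 * δ := mul_le_mul_of_nonneg_right hδ1 hδ.le
  have p5 : 0 ≤ δ * δ := mul_nonneg hδ.le hδ.le
  have e4 : a ≤ 4 * (D + 1) := by
    have h3 : (1 / 2 : ℝ) * (1 / 2) ≤ (1 - δ) * (1 - δ) :=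
      mul_le_mul (by linarith) (by linarith) (by norm_num) (by linarith)
    have h4 := mul_le_mul_of_nonneg_right h3 ha
    nlinarith
  have e5 : δ * a ≤ δ * (4 * (D + 1)) := mul_le_mul_of_nonneg_left e4 hδ.le
  have p6 : 0 ≤ δ * D := mul_nonneg hδ.le hD
  rw [abs_le]
  constructor <;> nlinarith

/-- `lower_special`; `upper` with `ε = 1` and one choice of `K', W, K`, `asym`, `bdd_phase` -/
theorem main_bounds (hρ : IsRho ρ) : ∃ c C : ℝ, 0 < c ∧ ∀ᶠ z : ℝ × ℕ in FA ρ,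
    c ≤ Wn z.1 z.2 ∧ Wn z.1 z.2 ≤ C := by
  obtain ⟨c, hc, hlow⟩ := lower_special hρ
  obtain ⟨K', hK'⟩ := upper hρ one_pos
  obtain ⟨W, hW⟩ := hK' K' le_rfl
  have hup := hW W le_rfl (K' + 1) (Nat.lt_succ_self _)
  obtain ⟨C, -, hC⟩ := asym hρ
  obtain ⟨A, hA, -, hA'⟩ := hC (K' + 1) (K' + 1 - K') (Rfin ρ K' W (K' + 1))
  obtain ⟨D, -, hD⟩ := bdd_phase ρ hA
  refine ⟨c, (1 + 1) * (Real.exp (C / xi ρ (K' + 1)) * D + 1) + 1, hc, ?_⟩
  filter_upwards [hlow, hup, hA' 1 one_pos, hD, main_pos ρ] with z h1 h2 h3 h4 h5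
  refine ⟨(le_div_iff₀ (mul_pos h5.1 h5.2)).2 h1, (main_up h5.1 h5.2 one_pos h2 h3.1).trans ?_⟩
  have := mul_le_mul_of_nonneg_left ((le_abs_self _).trans h4) (Real.exp_pos (C / xi ρ (K' + 1))).le
  linarith

/-- with `δ` small: `K'`, `W` from `upper`, `K > K'` from `lower` and with `exp (C/ξ_K) ≤ 1 + δ`; then
`(1-δ)(A/(1+δ) - δ) - δ ≤ Wn ≤ (1+δ)((1+δ) A + δ) + δ` and `Wn ≤ C₀` bounds `A` -/
theorem main_approx (hρ : IsRho ρ) {ε : ℝ} (hε : 0 < ε) : ∃ A : ℝ → ℝ, Continuous A ∧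
    ∀ᶠ z : ℝ × ℕ in FA ρ, |Wn z.1 z.2 - A (phaseArg ρ z.1 - z.2)| ≤ ε := by
  obtain ⟨c, C₀, -, hb⟩ := main_bounds hρ
  set D := max C₀ 0 with hDdef
  have hD : 0 ≤ D := le_max_right _ _
  set δ := min (1 / 2) (ε / (12 * D + 15)) with hδdef
  have hδ : 0 < δ := lt_min (by norm_num) (by positivity)
  have hδ1 : δ ≤ 1 / 2 := min_le_left _ _
  have hδε : δ * (12 * D + 15) ≤ ε := (le_div_iff₀ (by positivity)).1 (min_le_right _ _)
  obtain ⟨K', hK'⟩ := upper hρ hδ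
  obtain ⟨W, hW⟩ := hK' K' le_rfl
  obtain ⟨K₀, hK₀⟩ := lower hρ hδ (by linarith) K' W
  obtain ⟨C, -, hC⟩ := asym hρ
  have ht : Tendsto (fun K => Real.exp (C / xi ρ K)) atTop (𝓝 (Real.exp 0)) :=
    (Real.continuous_exp.tendsto 0).comp (tendsto_const_nhds.div_atTop (tendsto_xi hρ))
  obtain ⟨K, hK1, hK2, hK3⟩ := ((ht.eventually (eventually_le_nhds
    (show Real.exp 0 < 1 + δ by rw [Real.exp_zero]; linarith))).and
    ((eventually_gt_atTop K').and (eventually_ge_atTop K₀))).exists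
  obtain ⟨A, hA, hA0, hA'⟩ := hC K (K - K') (Rfin ρ K' W K)
  refine ⟨A, hA, ?_⟩
  filter_upwards [hb, hW W le_rfl K hK2, hK₀ K hK3, hA' δ hδ, main_pos ρ] with z h1 h2 h3 h4 h5
  exact main_arith (hA0 _) hD (h1.2.trans (le_max_left _ _)) hδ hδ1 hδε hK1
    (main_lo h5.1 h5.2 (by linarith) h3 h4.2) (main_up h5.1 h5.2 hδ h2 h4.1)

end Crest.Agent.R20
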