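import Crest.Agent.R20.Euler
import Crest.Agent.R20.ACoef

/-!
# R20/Mat: matrix refinement, the Rankin base bound and its exponent
-/

set_option autoImplicit false

open Finset Filter Topology Crest.NumberTheoryR.TotientScale

namespace Crest.Agent.R20

/-- One row: if `r ∣ ∏ C b` then `r = ∏ e b` with `e b ∣ C b` (induction on a `Finset`, `Nat.dvd_mul` or
`exists_dvd_and_dvd_of_dvd_mul`). -/
theorem exists_row {β : Type} [DecidableEq β] (S : Finset β) (C : β → ℕ) {r : ℕ}
    (h : r ∣ ∏ b ∈ S, C b) : ∃ e : β → ℕ, (∀ b, e b ∣ C b) ∧ ∏ b ∈ S, e b = r := by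
  induction S using Finset.induction_on generalizing r with
  | empty => exact ⟨fun _ => 1, fun _ => one_dvd _, by simpa using (Nat.dvd_one.1 (by simpa using h)).symm⟩
  | insert a S ha ih =>
    rw [prod_insert ha] at h
    obtain ⟨r₁, r₂, h1, h2, rfl⟩ := exists_dvd_and_dvd_of_dvd_mul h
    obtain ⟨e, he, he'⟩ := ih h2
    refine ⟨Function.update e a r₁, fun b => ?_, ?_⟩
    · by_cases hb : b = a
      · subst hb
        simpa using h1
      · simpa [hb] using he b
    · rw [prod_insert ha, Function.update_self, ← he']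
      congr 1
      exact prod_congr rfl fun b hb => Function.update_of_ne (ne_of_mem_of_not_mem hb ha) _ _

/-- Refinement of two factorisations (induct on a `Finset` of rows, generalising `C`, dividing `C b` by `e b`). -/
theorem refine_mat {α β : Type} [Fintype α] [Fintype β] (R : α → ℕ) (C : β → ℕ) (hR : ∀ a, 0 < R a)
    (h : ∏ a, R a = ∏ b, C b) : ∃ d : α → β → ℕ, (∀ a, rowP d a = R a) ∧ ∀ b, colP d b = C b := by
  classical
  have key : ∀ (S : Finset α) (C : β → ℕ), ∏ a ∈ S, R a = ∏ b, C b →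
      ∃ d : α → β → ℕ, (∀ a ∈ S, ∏ b, d a b = R a) ∧ ∀ b, ∏ a ∈ S, d a b = C b := by
    intro S
    induction S using Finset.induction_on with
    | empty =>
      intro C h
      refine ⟨fun _ _ => 1, by simp, fun b => ?_⟩
      have : C b ∣ 1 := by
        rw [prod_empty] at h
        rw [h]
        exact dvd_prod_of_mem _ (mem_univ b)
      simpa using (Nat.dvd_one.1 this).symm
    | insert a S ha ih =>
      intro C h
      rw [prod_insert ha] at h
      obtain ⟨e, he, he'⟩ := exists_row univ C (r := R a) ⟨_, h.symm⟩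
      choose C' hC' using he
      have h2 : ∏ b, C b = R a * ∏ b, C' b := by
        rw [← he', ← prod_mul_distrib]
        exact prod_congr rfl fun b _ => hC' b
      obtain ⟨d, hd, hd'⟩ := ih C' (Nat.eq_of_mul_eq_mul_left (hR a) (h.trans h2))
      have hu : ∀ a' ∈ S, Function.update d a e a' = d a' := fun a' ha' =>
        Function.update_of_ne (ne_of_mem_of_not_mem ha' ha) _ _
      refine ⟨Function.update d a e, fun a' ha' => ?_, fun b => ?_⟩
      · rcases mem_insert.1 ha' with rfl | ha'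
        · rw [Function.update_self, he']
        · rw [hu a' ha', hd a' ha']
      · rw [prod_insert ha, Function.update_self, hC' b, ← hd' b]
        congr 1
        exact prod_congr rfl fun a' ha' => by rw [hu a' ha']
  obtain ⟨d, hd, hd'⟩ := key univ C h
  exact ⟨d, fun a => hd a (mem_univ a), hd'⟩

theorem totP_eq_row {α β : Type} [Fintype α] [Fintype β] (d : α → β → ℕ) :
    totP d = ∏ a, rowP d a := by
  rfl

theorem cntGe_anti {β : Type} [Fintype β] (U : β → ℕ) : Antitone (cntGe U) := by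
  intro t t' h
  exact card_le_card fun b hb => by
    simp only [mem_filter, mem_univ, true_and] at hb ⊢
    exact h.trans hb

theorem sum_eq_sum_cntGe {β : Type} [Fintype β] (U : β → ℕ) {T : ℕ} (hT : ∀ b, U b ≤ T) :
    ∑ b, U b = ∑ t ∈ Icc 1 T, cntGe U t := by
  have h1 : ∀ b, U b = ∑ t ∈ Icc 1 T, if t ≤ U b then 1 else 0 := fun b => by
    rw [← card_filter]
    have : (Icc 1 T).filter (fun t => t ≤ U b) = Icc 1 (U b) := by
      ext t
      have := hT b
      simp only [mem_filter, mem_Icc]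
      omega
    rw [this]
    simp
  rw [sum_congr rfl fun b _ => h1 b, sum_comm]
  exact sum_congr rfl fun t _ => by rw [cntGe, card_filter]

/-- Abel summation, upper form -/
theorem abel_le {W F : ℕ → ℝ} {E : ℝ} (hE : 0 ≤ E) (hW0 : W 0 = 0) {T : ℕ}
    (hW : ∀ t ≤ T, W t ≤ t + E) (hF : ∀ t, 1 ≤ t → F (t + 1) ≤ F t) (h0 : ∀ t, 1 ≤ t → 0 ≤ F t) :
    ∑ t ∈ Icc 1 T, (W t - W (t - 1)) * F t ≤ ∑ t ∈ Icc 1 T, F t + E * F 1 := by
  have key : ∀ n ≤ T, ∑ t ∈ Icc 1 n, (W t - W (t - 1)) * F t + (n + E - W n) * F (n + 1) ≤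
      ∑ t ∈ Icc 1 n, F t + E * F 1 := by
    intro n
    induction n with
    | zero => intro _; simp [hW0]
    | succ n ih =>
      intro hn
      have h1 := ih (by omega)
      rw [sum_Icc_succ_top (by omega), sum_Icc_succ_top (by omega), Nat.add_sub_cancel]
      have h2 := hW (n + 1) hn
      have h3 := hF (n + 1) (by omega)
      have h4 := mul_le_mul_of_nonneg_left h3 (sub_nonneg.2 h2)
      push_cast at h4 ⊢
      linarith
  have h1 := key T le_rfl
  have h2 := mul_nonneg (sub_nonneg.2 (hW T le_rfl)) (h0 (T + 1) (by omega))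
  linarith

theorem mat_log_mono {a b : ℕ} (h : a ≤ b) : Real.log a ≤ Real.log b := by
  rcases Nat.eq_zero_or_pos a with rfl | ha
  · simpa using Real.log_natCast_nonneg b
  · exact Real.log_le_log (by exact_mod_cast ha) (by exact_mod_cast h)

theorem mat_cnt_le {β : Type} [Fintype β] (U : β → ℕ) (t : ℕ) : cntGe U t ≤ Fintype.card β :=
  card_le_univ _

theorem mat_sum_Icc (f : ℕ → ℝ) {n T : ℕ} (h : n ≤ T) :
    ∑ t ∈ Icc 1 n, f t = ∑ t ∈ Icc 1 T, if t ≤ n then f t else 0 := by
  rw [← sum_filter]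
  refine sum_congr ?_ fun _ _ => rfl
  ext t
  simp only [mem_filter, mem_Icc]
  omega

theorem mat_cnt_option {ι : Type} [Fintype ι] (y : ι → ℕ) {T t : ℕ} (h : ¬ t ≤ T) :
    cntGe (fun a : Option ι => a.elim T y) t = cntGe y t := by
  rw [cntGe, cntGe, card_filter, card_filter, Fintype.sum_option]
  simp only [Option.elim, if_neg h, zero_add]
  exact sum_congr rfl fun _ _ => by congr

theorem mat_sum_filter_ge {ι : Type} [Fintype ι] (y : ι → ℕ) {J : ℕ} {E : ℝ}
    (hι : Fintype.card ι ≤ J) (hE : 1 ≤ E) :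
    ∑ i, (y i : ℝ) - J * (2 * E + 1) ≤
      ∑ i ∈ univ.filter (fun i => 1 ≤ (y i : ℝ) - 2 * E), ((y i : ℝ) - 2 * E) := by
  rw [sum_filter]
  have h1 : ∑ i, ((y i : ℝ) - (2 * E + 1)) ≤
      ∑ i, if 1 ≤ (y i : ℝ) - 2 * E then (y i : ℝ) - 2 * E else 0 :=
    sum_le_sum fun i _ => by split_ifs with h <;> linarith
  rw [sum_sub_distrib, sum_const, card_univ, nsmul_eq_mul] at h1
  have h2 : (Fintype.card ι : ℝ) * (2 * E + 1) ≤ J * (2 * E + 1) :=
    mul_le_mul_of_nonneg_right (by exact_mod_cast hι) (by linarith)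
  linarith

/-- Rankin with `z q = exp (-log N'(th q))`, `N' = cntGe U'` (`z ≤ 1`).  On `MatOK`, `cm_exp_level` and `abel_le`
give `cm z (rowP d a) ≥ exp (-(∑_{t ≤ U a} log N' t + E log |β|))`.  `Bd.pi` twice with `euler_exp_one` at level
`min (U a) (U' b)`, and `∑_b ∑_{q ∈ PP (min (U a) (U' b))} z q/(q-1) = ∑_{q ∈ PP (U a)} N'(th q) z q/(q-1) ≤ U a + 1`. -/
theorem mat_base {α β : Type} [Fintype α] [Fintype β] (U : α → ℕ) (U' : β → ℕ) {E : ℝ} (hE : 0 ≤ E) :
    Bd (MatOK U U' E) (fun d => rcp (totP d)) (Real.exp (baseExp U U' E)) := by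
  classical
  set z : ℕ → ℝ := fun q => Real.exp (-Real.log (cntGe U' (th q))) with hz
  have z0 : ∀ q, 0 ≤ z q := fun q => (Real.exp_pos _).le
  have z1 : ∀ q, z q ≤ 1 := fun q =>
    Real.exp_le_one_iff.2 (neg_nonpos.2 (Real.log_natCast_nonneg _))
  set K : α → ℝ := fun a =>
    ∑ t ∈ Icc 1 (U a), Real.log (cntGe U' t) + E * Real.log (Fintype.card β) with hK
  have hin : ∀ a, Bd (fun e : β → ℕ => ∀ b, Sm (min (U a) (U' b)) (e b))
      (fun e => Real.exp (K a) * ∏ b, cm z (e b) / e b)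
      (Real.exp (K a) * ∏ b, Real.exp (∑ q ∈ PP (min (U a) (U' b)), z q / ((q : ℝ) - 1))) := fun a =>
    (Bd.pi (R := fun b => Sm (min (U a) (U' b))) (F := fun _ n => cm z n / n)
      (fun b => euler_exp_one _ z0 fun q _ => z1 q)
      fun b n _ => div_nonneg (cm_nonneg z0 n) (Nat.cast_nonneg n)).const_mul (Real.exp_pos _).le
  have hall := Bd.pi hin fun a e _ => mul_nonneg (Real.exp_pos _).le
    (prod_nonneg fun b _ => div_nonneg (cm_nonneg z0 _) (Nat.cast_nonneg _))
  refine hall.mono (fun d hd a b => ⟨(hd.1 a b).1.1, le_min (hd.1 a b).1.2 (hd.1 a b).2.2⟩)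
    (fun d hd => ?_) ?_
  · have h1 : rcp (totP d) = ∏ a, ∏ b, 1 / (d a b : ℝ) := by
      simp only [rcp, totP, one_div, prod_inv_distrib]
      push_cast
      rfl
    rw [h1]
    refine prod_le_prod (fun a _ => prod_nonneg fun b _ => by positivity) fun a _ => ?_
    have hsm : Sm (U a) (rowP d a) := sm_prod _ _ fun b _ => (hd.1 a b).1
    have h2 := cm_exp_level (fun t => -Real.log (cntGe U' t)) hsm
    have h3 := abel_le (W := fun t => (Om t (rowP d a) : ℝ)) (F := fun t => Real.log (cntGe U' t)) hE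
      (by simp [Om_level_zero]) (T := U a)
      (fun t _ => (hd.2 a t).trans (by
        have : ((min t (U a) : ℕ) : ℝ) ≤ t := by exact_mod_cast min_le_left _ _
        linarith))
      (fun t _ => mat_log_mono (cntGe_anti U' (Nat.le_succ t)))
      (fun t _ => Real.log_natCast_nonneg _)
    have h4 : Real.log (cntGe U' 1) ≤ Real.log (Fintype.card β) := mat_log_mono (mat_cnt_le U' 1)
    have h5 : 1 ≤ Real.exp (K a) * cm z (rowP d a) := by
      rw [hz, h2, ← Real.exp_add]
      refine Real.one_le_exp ?_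
      have h6 := mul_le_mul_of_nonneg_left h4 hE
      simp only [mul_neg, sum_neg_distrib, hK]
      linarith
    have h6 : cm z (rowP d a) = ∏ b, cm z (d a b) := cm_prod _ _ _ fun b _ => (hd.1 a b).1.1
    have h7 : ∏ b, cm z (d a b) / (d a b : ℝ) = cm z (rowP d a) * ∏ b, 1 / (d a b : ℝ) := by
      rw [h6, ← prod_mul_distrib]
      exact prod_congr rfl fun b _ => by ring
    rw [h7, ← mul_assoc]
    exact le_mul_of_one_le_left (prod_nonneg fun b _ => by positivity) h5
  · rw [baseExp, Real.exp_sum]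
    refine prod_le_prod (fun a _ => by positivity) fun a _ => ?_
    rw [← Real.exp_sum, ← Real.exp_add]
    refine Real.exp_le_exp.2 ?_
    have h1 : ∀ b, ∑ q ∈ PP (min (U a) (U' b)), z q / ((q : ℝ) - 1) =
        ∑ q ∈ PP (U a), if th q ≤ U' b then z q / ((q : ℝ) - 1) else 0 := fun b => by
      rw [← sum_filter]
      refine sum_congr ?_ fun _ _ => rfl
      ext q
      simp only [mem_PP, mem_filter, le_min_iff, and_assoc]
    have h2 : ∑ b, ∑ q ∈ PP (min (U a) (U' b)), z q / ((q : ℝ) - 1) ≤ U a + 1 := by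
      rw [sum_congr rfl fun b _ => h1 b, sum_comm]
      refine le_trans (sum_le_sum fun q hq => ?_) (sum_PP_le (U a))
      have hq2 : (2 : ℝ) ≤ q := by exact_mod_cast (mem_PP.1 hq).1.two_le
      rw [← sum_filter, sum_const, nsmul_eq_mul, ← mul_div_assoc]
      refine div_le_div_of_nonneg_right ?_ (by linarith)
      change (cntGe U' (th q) : ℝ) * Real.exp (-Real.log (cntGe U' (th q))) ≤ 1
      rcases Nat.eq_zero_or_pos (cntGe U' (th q)) with h0 | h0
      · simp [h0]
      · have h0' : (0 : ℝ) < cntGe U' (th q) := by exact_mod_cast h0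
        rw [Real.exp_neg, Real.exp_log h0', mul_inv_cancel₀ h0'.ne']
    simp only [hK]
    linarith

/-- The exponent.  Write `N = cntGe y`, `N' = cntGe y'`, `N⁺, N'⁺` for the counts with the extra line of level `T`,
and express all sums as sums over `1 ≤ t ≤ T₁` (`sum_eq_sum_cntGe`).  `∑_{i ∈ A} (y i - 2E) ≥ ∑ y - J (2E+1)`.
The contribution of `t` is `N⁺ (1 + log N'⁺) - N - N'`; for `t ≤ T` it is `≤ (J+1)(1 + log (J+1))`, while
`cN - 1 ≥ -1`; for `T < t ≤ y i₀` it is `N log N' - N' ≤ cN N - 1` if `N' ≥ 1` (`mul_log_sub_le`), and `0` if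
`N' = 0`, which happens for at most `2E + 1` such `t` by `hb`; for `t > max T (y i₀)` it is `≤ 0`. -/
theorem expo {ι ι' : Type} [Fintype ι] [Fintype ι'] (y : ι → ℕ) (y' : ι' → ℕ) {J T : ℕ} {E : ℝ}
    (hι : Fintype.card ι ≤ J) (hι' : Fintype.card ι' ≤ J) (hE : 1 ≤ E) (hT : (T : ℝ) ≤ E) (i₀ : ι)
    (hmax : ∀ i, y i ≤ y i₀)
    (hb : ∃ b : Option ι', (y i₀ : ℝ) - 2 * E ≤ ((b.elim T y' : ℕ) : ℝ)) :
    baseExp (fun a : Option ι => a.elim T y) (fun b : Option ι' => b.elim T y') E -
        ∑ i ∈ univ.filter (fun i => 1 ≤ (y i : ℝ) - 2 * E), ((y i : ℝ) - 2 * E) -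
        ∑ i ∈ univ.filter (fun i => 1 ≤ (y' i : ℝ) - 2 * E), ((y' i : ℝ) - 2 * E) ≤
      -(∑ t ∈ Icc 1 (y i₀), (1 - cN (cntGe y t))) + 30 * ((J : ℝ) + 1) ^ 2 * E := by
  classical
  set U : Option ι → ℕ := fun a => a.elim T y with hU
  set U' : Option ι' → ℕ := fun b => b.elim T y' with hU'
  set T₁ : ℕ := T + ∑ i, y i + ∑ i, y' i with hT₁
  have hy : ∀ i, y i ≤ T₁ := fun i => by
    have := single_le_sum (f := y) (fun i _ => Nat.zero_le _) (mem_univ i)
    omega
  have hy' : ∀ i, y' i ≤ T₁ := fun i => by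
    have := single_le_sum (f := y') (fun i _ => Nat.zero_le _) (mem_univ i)
    omega
  have hUT : ∀ a, U a ≤ T₁ := fun a => by
    cases a with
    | none => change T ≤ T₁; omega
    | some i => exact hy i
  have hJ : (0 : ℝ) ≤ J := Nat.cast_nonneg J
  have hcι : (Fintype.card ι : ℝ) ≤ J := by exact_mod_cast hι
  have hcι' : (Fintype.card ι' : ℝ) ≤ J := by exact_mod_cast hι'
  have hlogJ : ∀ n : ℕ, n ≤ J + 1 → Real.log n ≤ J := fun n hn => by
    have h1 := mat_log_mono hn
    have h2 := Real.log_le_sub_one_of_pos (show (0 : ℝ) < ((J + 1 : ℕ) : ℝ) by positivity)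
    push_cast at h1 h2
    linarith
  -- the pieces of `baseExp`
  have e1 : ∑ a, (U a : ℝ) = ∑ t ∈ Icc 1 T₁, (cntGe U t : ℝ) := by
    exact_mod_cast sum_eq_sum_cntGe U hUT
  have e2 : ∑ a, ∑ t ∈ Icc 1 (U a), Real.log (cntGe U' t) =
      ∑ t ∈ Icc 1 T₁, (cntGe U t : ℝ) * Real.log (cntGe U' t) := by
    rw [sum_congr rfl fun a _ => mat_sum_Icc (fun t => Real.log (cntGe U' t)) (hUT a), sum_comm]
    refine sum_congr rfl fun t _ => ?_
    rw [← sum_filter, sum_const, nsmul_eq_mul]
    rfl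
  have e3 : ∑ i, (y i : ℝ) = ∑ t ∈ Icc 1 T₁, (cntGe y t : ℝ) := by
    exact_mod_cast sum_eq_sum_cntGe y hy
  have e4 : ∑ i, (y' i : ℝ) = ∑ t ∈ Icc 1 T₁, (cntGe y' t : ℝ) := by
    exact_mod_cast sum_eq_sum_cntGe y' hy'
  have e5 := mat_sum_Icc (fun t => 1 - cN (cntGe y t)) (hy i₀)
  have b1 : baseExp U U' E ≤ ∑ t ∈ Icc 1 T₁, (cntGe U t : ℝ) +
      ∑ t ∈ Icc 1 T₁, (cntGe U t : ℝ) * Real.log (cntGe U' t) + (J + 1) * (1 + E * J) := by
    rw [baseExp, sum_add_distrib, sum_add_distrib, sum_add_distrib, e1, e2]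
    simp only [sum_const, card_univ, Fintype.card_option, nsmul_eq_mul]
    have h1 := hlogJ (Fintype.card ι' + 1) (by omega)
    have h2 := Real.log_natCast_nonneg (Fintype.card ι' + 1)
    have h3 : E * Real.log ((Fintype.card ι' + 1 : ℕ) : ℝ) ≤ E * J :=
      mul_le_mul_of_nonneg_left h1 (by linarith)
    have h4 : ((Fintype.card ι + 1 : ℕ) : ℝ) * (E * Real.log ((Fintype.card ι' + 1 : ℕ) : ℝ)) ≤
        (J + 1) * (E * J) :=
      mul_le_mul (by push_cast; linarith) h3 (mul_nonneg (by linarith) h2) (by linarith)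
    have h5 : ((Fintype.card ι + 1 : ℕ) : ℝ) ≤ J + 1 := by push_cast; linarith
    linarith
  have b2 := mat_sum_filter_ge y hι hE
  have b3 := mat_sum_filter_ge y' hι' hE
  -- the pointwise bound
  obtain ⟨b, hb⟩ := hb
  set m : ℕ := ⌈2 * E⌉₊ with hm
  have hm1 : 2 * E ≤ m := Nat.le_ceil _
  have hm2 : (m : ℝ) ≤ 2 * E + 1 := (Nat.ceil_lt_add_one (by linarith)).le
  have pt : ∀ t ∈ Icc 1 T₁, (cntGe U t : ℝ) + (cntGe U t : ℝ) * Real.log (cntGe U' t) - cntGe y t -
      cntGe y' t + (if t ≤ y i₀ then 1 - cN (cntGe y t) else 0) ≤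
      (if t ≤ T then 2 * ((J : ℝ) + 1) ^ 2 else 0) +
        if t ∈ Ioc (y i₀ - m) (y i₀) then 1 else 0 := by
    intro t ht
    have ht1 := (mem_Icc.1 ht).1
    have n1 : (0 : ℝ) ≤ cntGe y t := Nat.cast_nonneg _
    have n2 : (0 : ℝ) ≤ cntGe y' t := Nat.cast_nonneg _
    have n3 : (if t ≤ y i₀ then 1 - cN (cntGe y t) else 0) ≤ 1 := by
      have := cN_nonneg (cntGe y t)
      split_ifs <;> linarith
    have n4 : (0 : ℝ) ≤ if t ∈ Ioc (y i₀ - m) (y i₀) then 1 else 0 := by
      split_ifs <;> norm_num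
    by_cases htT : t ≤ T
    · rw [if_pos htT]
      have c1 : cntGe U t ≤ J + 1 := (mat_cnt_le U t).trans (by rw [Fintype.card_option]; omega)
      have c2 : cntGe U' t ≤ J + 1 := (mat_cnt_le U' t).trans (by rw [Fintype.card_option]; omega)
      have c1' : (cntGe U t : ℝ) ≤ J + 1 := by exact_mod_cast c1
      have c3 : (cntGe U t : ℝ) * Real.log (cntGe U' t) ≤ (J + 1) * J :=
        mul_le_mul c1' (hlogJ _ c2) (Real.log_natCast_nonneg _) (by linarith)
      nlinarith
    · rw [if_neg htT, hU, hU', mat_cnt_option y htT, mat_cnt_option y' htT]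
      by_cases hty : t ≤ y i₀
      · rw [if_pos hty] at n3 ⊢
        rcases Nat.eq_zero_or_pos (cntGe y' t) with h0 | h0
        · have hlt : U' b < t := by
            by_contra hc
            push Not at hc
            cases b with
            | none => exact htT hc
            | some i =>
              have : 0 < cntGe y' t := card_pos.2 ⟨i, mem_filter.2 ⟨mem_univ _, hc⟩⟩
              omega
          have hlt' : (U' b : ℝ) < t := by exact_mod_cast hlt
          have h1 : (y i₀ : ℝ) < t + m := by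
            change (y i₀ : ℝ) - 2 * E ≤ (U' b : ℝ) at hb
            linarith
          have h2 : y i₀ < t + m := by exact_mod_cast h1
          rw [if_pos (mem_Ioc.2 ⟨by omega, hty⟩), h0]
          simp only [Nat.cast_zero, Real.log_zero, mul_zero]
          linarith
        · have := mul_log_sub_le (N := cntGe y t) h0
          rw [cN]
          linarith
      · rw [if_neg hty]
        have h0 : cntGe y t = 0 := by
          rw [cntGe, card_eq_zero, filter_eq_empty_iff]
          intro i _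
          have := hmax i
          omega
        rw [h0]
        simp only [Nat.cast_zero, zero_mul]
        linarith
  have b4 := sum_le_sum pt
  rw [sum_add_distrib, sum_sub_distrib, sum_sub_distrib, sum_add_distrib, sum_add_distrib, ← e3, ← e4,
    ← e5, ← mat_sum_Icc (fun _ => 2 * ((J : ℝ) + 1) ^ 2) (show T ≤ T₁ by omega)] at b4
  have b5 : ∑ t ∈ Icc 1 T₁, (if t ∈ Ioc (y i₀ - m) (y i₀) then (1 : ℝ) else 0) ≤ m := by
    rw [← sum_filter, sum_const, nsmul_eq_mul, mul_one]
    have h1 : ((Icc 1 T₁).filter fun t => t ∈ Ioc (y i₀ - m) (y i₀)).card ≤ m :=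
      (card_le_card fun t ht => (mem_filter.1 ht).2).trans (by rw [Nat.card_Ioc]; omega)
    exact_mod_cast h1
  rw [sum_const, Nat.card_Icc, Nat.add_sub_cancel, nsmul_eq_mul] at b4
  have b6 : (T : ℝ) * (2 * ((J : ℝ) + 1) ^ 2) ≤ E * (2 * ((J : ℝ) + 1) ^ 2) :=
    mul_le_mul_of_nonneg_right hT (by positivity)
  have b7 : (J : ℝ) ≤ J * E := le_mul_of_one_le_right hJ hE
  have b8 : 0 ≤ (J : ℝ) ^ 2 * E := by positivity
  nlinarith

end Crest.Agent.R20
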