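import Crest.Agent.R20.Gp

/-!
# R20/Omega: `Om`, `cm`, `Sm`, normal primes, canonical tails
-/

set_option autoImplicit false

open Finset Filter Topology Crest.NumberTheoryR.TotientScale

namespace Crest.Agent.R20

theorem Om_one (t : ℕ) : Om t 1 = 0 := by
  simp [Om]

theorem Om_mul (t : ℕ) {a b : ℕ} (ha : 0 < a) (hb : 0 < b) : Om t (a * b) = Om t a + Om t b := by
  unfold Om
  rw [Nat.factorization_mul ha.ne' hb.ne', Finsupp.sum_add_index']
  · intro q; simp
  · intro q k l; split_ifs <;> simp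

theorem Om_prime (t : ℕ) {q : ℕ} (hq : q.Prime) : Om t q = if th q ≤ t then 1 else 0 := by
  unfold Om
  rw [hq.factorization, Finsupp.sum_single_index (by simp)]

theorem Om_prod {ι : Type*} (t : ℕ) (S : Finset ι) (f : ι → ℕ) (hf : ∀ i ∈ S, 0 < f i) :
    Om t (∏ i ∈ S, f i) = ∑ i ∈ S, Om t (f i) := by
  classical
  induction S using Finset.induction_on with
  | empty => simp [Om_one]
  | insert i S hi ih =>
    rw [prod_insert hi, sum_insert hi,
      Om_mul t (hf i (mem_insert_self _ _)) (prod_pos fun j hj => hf j (mem_insert_of_mem hj)),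
      ih fun j hj => hf j (mem_insert_of_mem hj)]

theorem Om_level_zero (a : ℕ) : Om 0 a = 0 := by
  unfold Om Finsupp.sum
  refine sum_eq_zero fun q hq => ?_
  have hp : q.Prime := Nat.prime_of_mem_primeFactors (by simpa using hq)
  have := th_pos hp.two_le
  beta_reduce
  rw [if_neg (by omega)]

theorem Om_mono {t t' : ℕ} (h : t ≤ t') (a : ℕ) : Om t a ≤ Om t' a := by
  unfold Om Finsupp.sum
  refine sum_le_sum fun q _ => ?_
  beta_reduce
  by_cases h1 : th q ≤ t
  · rw [if_pos h1, if_pos (h1.trans h)]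
  · rw [if_neg h1]; exact Nat.zero_le _

theorem Om_of_Sm {t t' a : ℕ} (ha : Sm t a) (h : t ≤ t') : Om t' a = Om t a := by
  unfold Om Finsupp.sum
  refine sum_congr rfl fun q hq => ?_
  have hq' : q ∈ a.primeFactors := by simpa using hq
  have h1 : th q ≤ t := (th_mono (le_gp ha.1 (Nat.prime_of_mem_primeFactors hq')
    (Nat.dvd_of_mem_primeFactors hq'))).trans ha.2
  beta_reduce
  rw [if_pos h1, if_pos (h1.trans h)]

theorem Om_le_self (t a : ℕ) : Om t a ≤ a := by
  have key : ∀ a : ℕ, 0 < a → 2 ^ Om t a ≤ a := by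
    intro a
    induction a using Nat.recOnMul with
    | zero => intro h; exact absurd h (lt_irrefl 0)
    | one => intro _; simp [Om_one]
    | prime p hp =>
      intro _
      rw [Om_prime t hp]
      have := hp.two_le
      split_ifs <;> simp <;> omega
    | mul a b iha ihb =>
      intro h
      have ha : 0 < a := Nat.pos_of_mul_pos_right h
      have hb : 0 < b := Nat.pos_of_mul_pos_left h
      rw [Om_mul t ha hb, pow_add]
      exact Nat.mul_le_mul (iha ha) (ihb hb)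
  rcases Nat.eq_zero_or_pos a with rfl | ha
  · simp [Om]
  · exact (Nat.lt_two_pow_self.le).trans (key a ha)

theorem cm_one (z : ℕ → ℝ) : cm z 1 = 1 := by
  simp [cm]

theorem cm_mul (z : ℕ → ℝ) {a b : ℕ} (ha : 0 < a) (hb : 0 < b) : cm z (a * b) = cm z a * cm z b := by
  unfold cm
  rw [Nat.factorization_mul ha.ne' hb.ne', Finsupp.prod_add_index']
  · intro q; simp
  · intro q k l; exact pow_add _ _ _

theorem cm_prime (z : ℕ → ℝ) {q : ℕ} (hq : q.Prime) : cm z q = z q := by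
  unfold cm
  rw [hq.factorization, Finsupp.prod_single_index (by simp), pow_one]

theorem cm_prod {ι : Type*} (z : ℕ → ℝ) (S : Finset ι) (f : ι → ℕ) (hf : ∀ i ∈ S, 0 < f i) :
    cm z (∏ i ∈ S, f i) = ∏ i ∈ S, cm z (f i) := by
  classical
  induction S using Finset.induction_on with
  | empty => simp [cm_one]
  | insert i S hi ih =>
    rw [prod_insert hi, prod_insert hi,
      cm_mul z (hf i (mem_insert_self _ _)) (prod_pos fun j hj => hf j (mem_insert_of_mem hj)),
      ih fun j hj => hf j (mem_insert_of_mem hj)]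

theorem cm_nonneg {z : ℕ → ℝ} (hz : ∀ q, 0 ≤ z q) (a : ℕ) : 0 ≤ cm z a := by
  unfold cm Finsupp.prod
  exact prod_nonneg fun q _ => pow_nonneg (hz q) _

/-- weights depending only on the level (every prime has level `≥ 1`); induct on the factorisation
(`Nat.recOnMul`-type induction) or exchange two finite sums -/
theorem cm_exp_level (F : ℕ → ℝ) {T a : ℕ} (ha : Sm T a) :
    cm (fun q => Real.exp (F (th q))) a =
      Real.exp (∑ t ∈ Icc 1 T, ((Om t a : ℝ) - Om (t - 1) a) * F t) := by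
  induction a using Nat.recOnMul with
  | zero => exact absurd ha.1 (lt_irrefl 0)
  | one => simp [cm_one, Om_one]
  | prime p hp =>
    rw [cm_prime _ hp]
    congr 1
    have h1 : th p ≤ T := by have := ha.2; rwa [gp_of_prime hp] at this
    have h2 : 1 ≤ th p := th_pos hp.two_le
    rw [sum_eq_single (th p)]
    · rw [Om_prime _ hp, Om_prime _ hp, if_pos le_rfl, if_neg (by omega)]; simp
    · intro t ht hne
      have := (mem_Icc.1 ht).1
      rw [Om_prime _ hp, Om_prime _ hp]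
      by_cases h : th p ≤ t
      · rw [if_pos h, if_pos (by omega)]; simp
      · rw [if_neg h, if_neg (by omega)]; simp
    · intro h; exact absurd (mem_Icc.2 ⟨h2, h1⟩) h
  | mul a b iha ihb =>
    have h := ha.1
    have h1 : 0 < a := Nat.pos_of_mul_pos_right h
    have h2 : 0 < b := Nat.pos_of_mul_pos_left h
    have sa : Sm T a := ⟨h1, (th_mono (gp_le_of_dvd h (dvd_mul_right a b))).trans ha.2⟩
    have sb : Sm T b := ⟨h2, (th_mono (gp_le_of_dvd h (dvd_mul_left b a))).trans ha.2⟩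
    rw [cm_mul _ h1 h2, iha sa, ihb sb, ← Real.exp_add, ← sum_add_distrib]
    congr 1
    refine sum_congr rfl fun t _ => ?_
    rw [Om_mul _ h1 h2, Om_mul _ h1 h2]
    push_cast; ring

theorem cm_rpow (δ : ℝ) {a : ℕ} (ha : 0 < a) : cm (fun q => (q : ℝ) ^ δ) a = (a : ℝ) ^ δ := by
  induction a using Nat.recOnMul with
  | zero => exact absurd ha (lt_irrefl 0)
  | one => simp [cm_one]
  | prime p hp => rw [cm_prime _ hp]
  | mul a b iha ihb =>
    have h1 : 0 < a := Nat.pos_of_mul_pos_right ha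
    have h2 : 0 < b := Nat.pos_of_mul_pos_left ha
    rw [cm_mul _ h1 h2, iha h1, ihb h2, Nat.cast_mul, Real.mul_rpow (by positivity) (by positivity)]

theorem sm_iff {t a : ℕ} : Sm t a ↔ 0 < a ∧ ∀ q : ℕ, q.Prime → q ∣ a → th q ≤ t := by
  constructor
  · rintro ⟨h0, h⟩
    exact ⟨h0, fun q hq hd => (th_mono (le_gp h0 hq hd)).trans h⟩
  · rintro ⟨h0, h⟩
    refine ⟨h0, ?_⟩
    rcases Nat.lt_or_ge 1 a with h1 | h1
    · exact h _ (gp_prime h1) (gp_dvd a)
    · have : a = 1 := by omega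
      subst this
      rw [gp_one, th_one]; exact Nat.zero_le _

theorem Sm.subset {t a : ℕ} (h : Sm t a) : a.primeFactors ⊆ PP t := by
  intro q hq
  exact mem_PP.2 ⟨Nat.prime_of_mem_primeFactors hq, (sm_iff.1 h).2 q (Nat.prime_of_mem_primeFactors hq)
    (Nat.dvd_of_mem_primeFactors hq)⟩

theorem Sm.mono {t t' a : ℕ} (h : Sm t a) (ht : t ≤ t') : Sm t' a := by
  exact ⟨h.1, h.2.trans ht⟩

theorem Sm.of_dvd {t a b : ℕ} (h : Sm t a) (hb : b ∣ a) : Sm t b := by
  exact ⟨Nat.pos_of_dvd_of_pos hb h.1, (th_mono (gp_le_of_dvd h.1 hb)).trans h.2⟩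

theorem Sm.mul {t a b : ℕ} (ha : Sm t a) (hb : Sm t b) : Sm t (a * b) := by
  refine sm_iff.2 ⟨Nat.mul_pos ha.1 hb.1, fun q hq hd => ?_⟩
  rcases (Nat.Prime.dvd_mul hq).1 hd with h | h
  · exact (sm_iff.1 ha).2 q hq h
  · exact (sm_iff.1 hb).2 q hq h

theorem sm_prod {ι : Type*} {t : ℕ} (S : Finset ι) (f : ι → ℕ) (hf : ∀ i ∈ S, Sm t (f i)) :
    Sm t (∏ i ∈ S, f i) := by
  classical
  induction S using Finset.induction_on with
  | empty =>
    refine ⟨by simp, ?_⟩
    rw [prod_empty, gp_one, th_one]; exact Nat.zero_le _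
  | insert i S hi ih =>
    rw [prod_insert hi]
    exact (hf i (mem_insert_self _ _)).mul (ih fun j hj => hf j (mem_insert_of_mem hj))

theorem sm_pred {p : ℕ} (hp : p.Prime) : Sm (th p) (p - 1) := by
  have h : 0 < p - 1 := by have := hp.two_le; omega
  exact ⟨h, th_mono ((gp_le_self h).trans (Nat.sub_le _ _))⟩

theorem sm_totient {m : ℕ} (hm : 0 < m) : Sm (yy m 0) m.totient := by
  refine ⟨Nat.totient_pos.2 hm, ?_⟩
  unfold yy
  rw [pr_zero]
  exact th_mono (gp_totient_le hm)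

theorem Normal.mono {E E' : ℝ} {p : ℕ} (h : Normal E p) (hE : E ≤ E') : Normal E' p := by
  exact fun t => (h t).trans hE

/-- with `t = th (gp (p-1))`: `Om t (p-1) = Om (th p) (p-1) ≥ th p - E` and `Om t (p-1) ≤ t + E` -/
theorem Normal.gp_ge {E : ℝ} {p : ℕ} (h : Normal E p) (hp : p.Prime) :
    (th p : ℝ) - 2 * E ≤ th (gp (p - 1)) := by
  have hs := sm_pred hp
  have hs' : Sm (th (gp (p - 1))) (p - 1) := ⟨hs.1, le_rfl⟩
  have e := Om_of_Sm hs' hs.2
  have h1 := h (th p)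
  have h2 := h (th (gp (p - 1)))
  rw [min_self, e] at h1
  rw [min_eq_left hs.2] at h2
  have := (abs_le.1 h1).1
  have := (abs_le.1 h2).2
  linarith

theorem decomp {E : ℝ} {D m : ℕ} (hc : Chain (D + 1) m) (hN : ∀ d ≤ D, Normal E (pr m d)) :
    CapSet D (yy m) ((D + 1) * E) (∏ d ∈ range (D + 1), (pr m d - 1)) := by
  have hp : ∀ d ∈ range (D + 1), (pr m d).Prime := fun d hd => hc.prime (mem_range.1 hd)
  refine ⟨sm_prod _ _ fun d hd => (sm_pred (hp d hd)).mono (yy_anti hc.1 (Nat.zero_le d)), fun t => ?_⟩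
  rw [Om_prod t _ _ fun d hd => (sm_pred (hp d hd)).1, Nat.cast_sum, Nat.cast_sum, ← sum_sub_distrib]
  refine (abs_sum_le_sum_abs _ _).trans ?_
  refine (sum_le_sum fun d hd => hN d (by have := mem_range.1 hd; omega) t).trans ?_
  simp

theorem CapSet.mono {D : ℕ} {y : ℕ → ℕ} {E E' : ℝ} {a : ℕ} (h : CapSet D y E a) (hE : E ≤ E') :
    CapSet D y E' a := by
  exact ⟨h.1, fun t => (h.2 t).trans hE⟩

theorem CapSet.div {D : ℕ} {y : ℕ → ℕ} {E : ℝ} {a r : ℕ} (hr : r.Prime) (h : CapSet D y E (a * r)) :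
    CapSet D y (E + 1) a := by
  have hs : Sm (y 0) a := h.1.of_dvd (dvd_mul_right a r)
  refine ⟨hs, fun t => ?_⟩
  have h1 := h.2 t
  rw [Om_mul t hs.1 hr.pos, Om_prime t hr] at h1
  rw [abs_le] at h1 ⊢
  split_ifs at h1 <;> push_cast at h1 ⊢ <;> constructor <;> linarith [h1.1, h1.2]

/-- minimise `gp` (`Nat.find`), then the number itself -/
theorem exists_canon {m : ℕ} (hm : 0 < m) : ∃ r, Canon r ∧ r.totient = m.totient ∧ gp r ≤ gp m := by
  classical
  have h1 : ∃ g, ∃ r, 0 < r ∧ r.totient = m.totient ∧ gp r = g := ⟨_, m, hm, rfl, rfl⟩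
  have h2 : ∃ r, 0 < r ∧ r.totient = m.totient ∧ gp r = Nat.find h1 := Nat.find_spec h1
  obtain ⟨a0, a1, a2⟩ := Nat.find_spec h2
  refine ⟨Nat.find h2, ⟨a0, fun r' hr' e => ?_⟩, a1, ?_⟩
  · have b1 : Nat.find h1 ≤ gp r' := Nat.find_min' h1 ⟨r', hr', e.trans a1, rfl⟩
    rw [a2]
    rcases b1.lt_or_eq with b | b
    · exact Or.inl b
    · exact Or.inr ⟨b, Nat.find_min' h2 ⟨hr', e.trans a1, b.symm⟩⟩
  · rw [a2]; exact Nat.find_min' h1 ⟨m, hm, rfl, rfl⟩

theorem Canon.inj {r r' : ℕ} (h : Canon r) (h' : Canon r') (e : r.totient = r'.totient) : r = r' := by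
  rcases h.2 r' h'.1 e.symm with a | a <;> rcases h'.2 r h.1 e with b | b <;> omega

/-- `n ≤ 2 φ(n)^2`-type bound, or: every prime power `q^k ∥ n` has `q^(k-1)(q-1) ≤ W` -/
theorem finite_totient_le (W : ℕ) : {n : ℕ | 0 < n ∧ n.totient ≤ W}.Finite := by
  refine (Set.finite_le_nat (2 * W).factorial).subset ?_
  rintro n ⟨hn, hW⟩
  refine Nat.le_of_dvd (Nat.factorial_pos _) ?_
  rw [Nat.dvd_iff_prime_pow_dvd_dvd]
  intro p k hp hd
  refine Nat.dvd_factorial (pow_pos hp.pos k) ?_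
  have h1 : (p ^ k).totient ≤ W :=
    (Nat.le_of_dvd (Nat.totient_pos.2 hn) (Nat.totient_dvd_of_dvd hd)).trans hW
  refine le_trans ?_ (Nat.mul_le_mul_left 2 h1)
  rcases k with _ | k
  · simp
  · rw [Nat.totient_prime_pow_succ hp, pow_succ]
    have := hp.two_le
    calc p ^ k * p ≤ p ^ k * (2 * (p - 1)) := Nat.mul_le_mul_left _ (by omega)
      _ = 2 * (p ^ k * (p - 1)) := by ring

/-- `r = (∏ pr r e) * tl^[K-K'] r` (`prod_pr_mul`), each `pr r e ∈ PP ⌊ξ^9⌋₊`, `finite_totient_le` -/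
theorem mem_Rfin {ρ : ℝ} {K' W K r : ℕ} : r ∈ Rfin ρ K' W K ↔ Canon r ∧ GoodTail ρ K' W K r := by
  have hfin : {r : ℕ | Canon r ∧ GoodTail ρ K' W K r}.Finite := by
    obtain ⟨B2, hB2⟩ := (finite_totient_le W).bddAbove
    set B1 := (range (K - K')).sup fun e => (PP ⌊xi ρ (K - 1 - e) ^ 9⌋₊).sup id with hB1
    refine (Set.finite_le_nat (B1 ^ (K - K') * B2)).subset ?_
    rintro r ⟨-, h0, h1, h2⟩
    show r ≤ _
    rw [← prod_pr_mul r (K - K')]
    refine Nat.mul_le_mul ?_ (hB2 ⟨iter_pos h0 _, h2⟩)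
    have := Finset.prod_le_pow_card (range (K - K')) (pr r) B1 fun e he => by
      obtain ⟨g1, g2, -⟩ := h1 e (mem_range.1 he)
      have hm : pr r e ∈ PP ⌊xi ρ (K - 1 - e) ^ 9⌋₊ := by
        refine mem_PP.2 ⟨gp_prime g2, Nat.le_floor ?_⟩
        rw [yy_iter] at g1
        exact g1
      exact (Finset.le_sup (f := id) hm).trans
        (Finset.le_sup (f := fun e => (PP ⌊xi ρ (K - 1 - e) ^ 9⌋₊).sup id) he)
    rwa [card_range] at this
  unfold Rfin
  rw [dif_pos hfin, Set.Finite.mem_toFinset]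
  rfl

theorem finite_values (x : ℝ) :
    {v : ℕ | (v : ℝ) ≤ x ∧ ∃ n : ℕ, 0 < n ∧ Nat.totient n = v}.Finite := by
  refine (Set.finite_le_nat ⌊x⌋₊).subset ?_
  rintro v ⟨hv, -⟩
  exact Nat.le_floor hv

/-- Selection of preimages: choose any preimage `n₀` of `v`; if `Chain l n₀`, replace `tl^[l] n₀` by the canonical
`r` of `exists_canon` using `build` with `p = pr n₀` (`Chain.lt`, `Chain.totient`). -/
theorem exists_sel (x : ℝ) (l : ℕ) : ∃ N : Finset ℕ, totientCount x = N.card ∧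
    Set.InjOn Nat.totient N ∧
    ∀ n ∈ N, 0 < n ∧ (n.totient : ℝ) ≤ x ∧ (Chain l n → Canon (tl^[l] n)) := by
  classical
  have key : ∀ v : ℕ, ∃ n : ℕ, (∃ n₀ : ℕ, 0 < n₀ ∧ Nat.totient n₀ = v) →
      0 < n ∧ n.totient = v ∧ (Chain l n → Canon (tl^[l] n)) := by
    intro v
    by_cases hv : ∃ n₀ : ℕ, 0 < n₀ ∧ Nat.totient n₀ = v
    swap
    · exact ⟨0, fun h => absurd h hv⟩
    obtain ⟨n₀, h0, e⟩ := hv
    by_cases hc : Chain l n₀
    swap
    · exact ⟨n₀, fun _ => ⟨h0, e, fun h => absurd h hc⟩⟩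
    obtain ⟨r, hr, er, hg⟩ := exists_canon (iter_pos h0 l)
    obtain ⟨b1, b2, b3⟩ := build l (pr n₀) hr.1 (fun i hi => hc.prime hi)
      (fun i hi => hc.lt (by omega) (Nat.lt_succ_self i))
      (fun hl => lt_of_le_of_lt hg (hc.lt (i := l - 1) (j := l) (by omega) (by omega)))
    refine ⟨_, fun _ => ⟨b1.1, ?_, fun _ => by rw [b3]; exact hr⟩⟩
    rw [b1.totient, b3, er, ← e, hc.totient]
    congr 1
    exact prod_congr rfl fun i hi => by rw [b2 i (mem_range.1 hi)]
  choose f hf using key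
  set V := (finite_values x).toFinset with hV
  have hmem : ∀ v ∈ V, (v : ℝ) ≤ x ∧ ∃ n : ℕ, 0 < n ∧ Nat.totient n = v := fun v hv =>
    ((finite_values x).mem_toFinset).1 hv
  have hfv : ∀ v ∈ V, (f v).totient = v := fun v hv => (hf v (hmem v hv).2).2.1
  refine ⟨V.image f, ?_, ?_, ?_⟩
  · rw [card_image_of_injOn fun v hv w hw e => by
      rw [← hfv v hv, ← hfv w hw, e]]
    unfold totientCount
    exact Set.ncard_eq_toFinset_card _ (finite_values x)
  · intro n hn n' hn' e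
    obtain ⟨v, hv, rfl⟩ := mem_image.1 (mem_coe.1 hn)
    obtain ⟨w, hw, rfl⟩ := mem_image.1 (mem_coe.1 hn')
    rw [hfv v hv, hfv w hw] at e
    rw [e]
  · intro n hn
    obtain ⟨v, hv, rfl⟩ := mem_image.1 hn
    obtain ⟨a1, a2, a3⟩ := hf v (hmem v hv).2
    exact ⟨a1, by rw [a2]; exact (hmem v hv).1, a3⟩

theorem card_le_totientCount {x : ℝ} (N : Finset ℕ) (hN : ∀ n ∈ N, 0 < n ∧ (n.totient : ℝ) ≤ x)
    (hinj : Set.InjOn Nat.totient N) : N.card ≤ totientCount x := by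
  unfold totientCount
  rw [← card_image_of_injOn hinj, ← Set.ncard_coe_finset]
  refine Set.ncard_le_ncard ?_ (finite_values x)
  intro v hv
  obtain ⟨n, hn, rfl⟩ := mem_image.1 (mem_coe.1 hv)
  exact ⟨(hN n hn).2, n, (hN n hn).1, rfl⟩

end Crest.Agent.R20
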