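import Crest.Agent.R20.ACoef

/-!
# R20/Renew: the renewal theorem for `g`
-/

set_option autoImplicit false

open Finset Filter Topology Crest.NumberTheoryR.TotientScale

namespace Crest.Agent.R20

/-- Renewal theorem under a Doeblin condition.  With `e 0 = 1`, `e (m+1) = u (m+1) - u m`:
`∑_{k ≤ n} u (n-k) r k = 1` (induction), hence `u (n+1) = ∑_{k ≤ n} u (n-k) p (k+1) ≥ c` (and `u ≥ 0`), and
`∑_{k ≤ n+1} e (n+1-k) r k = 0`, `e (n+2) = ∑_{k ≤ n+1} e (n+1-k) (p (k+1) - c r k)`.  So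
`D n = ∑_{k ≤ n+1} |e (n+1-k)| r k` satisfies `D (n+1) ≤ (1 - c) D n` (`r (k+1) = r k - p (k+1)`, `r 0 = 1`), and
`|e (n+1)| ≤ D n`; `cauchySeq_of_le_geometric`. -/
theorem renewal_abs {p r u : ℕ → ℝ} {c : ℝ} (hc : 0 < c) (hc1 : c ≤ 1) (hr0 : r 0 = 1)
    (hr : ∀ k, r (k + 1) = r k - p (k + 1)) (hr' : ∀ k, 0 ≤ r k) (hp : ∀ k, c * r k ≤ p (k + 1))
    (hu0 : u 0 = 1) (hu : ∀ n, u (n + 1) = ∑ k ∈ range (n + 1), u (n - k) * p (k + 1)) :
    (∀ n, c ≤ u n) ∧ ∃ γ, c ≤ γ ∧ Tendsto u atTop (𝓝 γ) := by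
  have hp0 : ∀ k, 0 ≤ p (k + 1) := fun k => (mul_nonneg hc.le (hr' k)).trans (hp k)
  have hS : ∀ n, ∑ k ∈ range (n + 1), u (n - k) * r k = 1 := by
    intro n
    induction n with
    | zero => simp [hu0, hr0]
    | succ n ih =>
      rw [sum_range_succ']
      simp only [Nat.add_sub_add_right, hr, mul_sub, sum_sub_distrib, Nat.sub_zero, hr0, ih, ← hu]
      ring
  have hu' : ∀ n, 0 ≤ u n := by
    intro n
    induction n using Nat.strong_induction_on with
    | _ n ih =>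
      rcases n with _ | n
      · rw [hu0]; exact zero_le_one
      · rw [hu]
        exact sum_nonneg fun k _ => mul_nonneg (ih _ (by omega)) (hp0 k)
  have hcu : ∀ n, c ≤ u n := by
    intro n
    rcases n with _ | n
    · rw [hu0]; exact hc1
    · rw [hu]
      calc c = ∑ k ∈ range (n + 1), u (n - k) * (c * r k) := by
            conv_lhs => rw [← mul_one c, ← hS n, mul_sum]
            exact sum_congr rfl fun k _ => by ring
        _ ≤ _ := sum_le_sum fun k _ => mul_le_mul_of_nonneg_left (hp k) (hu' _)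
  refine ⟨hcu, ?_⟩
  let e : ℕ → ℝ := fun m => Nat.casesOn m 1 fun m => u (m + 1) - u m
  have he : ∀ (f : ℕ → ℝ) n, ∑ k ∈ range (n + 2), e (n + 1 - k) * f k =
      ∑ k ∈ range (n + 2), u (n + 1 - k) * f k - ∑ k ∈ range (n + 1), u (n - k) * f k := by
    intro f n
    rw [sum_range_succ _ (n + 1), sum_range_succ _ (n + 1), Nat.sub_self, hu0, add_sub_right_comm,
      ← sum_sub_distrib]
    congr 1
    refine sum_congr rfl fun k hk => ?_
    have hk' := mem_range.1 hk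
    rw [show n + 1 - k = n - k + 1 by omega]
    show (u (n - k + 1) - u (n - k)) * f k = _
    ring
  have e1 : ∀ n, e (n + 2) = ∑ k ∈ range (n + 2), e (n + 1 - k) * (p (k + 1) - c * r k) := by
    intro n
    have h1 := he r n
    have h2 := he (fun k => p (k + 1)) n
    rw [hS (n + 1), hS n, sub_self] at h1
    rw [← hu (n + 1), ← hu n] at h2
    have h3 : ∑ k ∈ range (n + 2), e (n + 1 - k) * (p (k + 1) - c * r k) =
        ∑ k ∈ range (n + 2), e (n + 1 - k) * p (k + 1) -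
          c * ∑ k ∈ range (n + 2), e (n + 1 - k) * r k := by
      rw [mul_sum, ← sum_sub_distrib]
      exact sum_congr rfl fun k _ => by ring
    rw [h3, h1, h2]
    show u (n + 1 + 1) - u (n + 1) = _
    ring
  let D : ℕ → ℝ := fun n => ∑ k ∈ range (n + 2), |e (n + 1 - k)| * r k
  have hD : ∀ n, D (n + 1) ≤ (1 - c) * D n := by
    intro n
    have h1 : |e (n + 2)| ≤ ∑ k ∈ range (n + 2), |e (n + 1 - k)| * (p (k + 1) - c * r k) := by
      rw [e1]
      refine (abs_sum_le_sum_abs _ _).trans (le_of_eq (sum_congr rfl fun k _ => ?_))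
      rw [abs_mul, abs_of_nonneg (sub_nonneg.2 (hp k))]
    have h2 : D (n + 1) = ∑ k ∈ range (n + 2), |e (n + 1 - k)| * r (k + 1) + |e (n + 2)| := by
      show ∑ k ∈ range (n + 2 + 1), |e (n + 1 + 1 - k)| * r k = _
      rw [sum_range_succ']
      simp only [Nat.add_sub_add_right, Nat.sub_zero, hr0, mul_one]
    have h3 : (1 - c) * D n = ∑ k ∈ range (n + 2), |e (n + 1 - k)| * r (k + 1) +
        ∑ k ∈ range (n + 2), |e (n + 1 - k)| * (p (k + 1) - c * r k) := by
      show (1 - c) * ∑ k ∈ range (n + 2), |e (n + 1 - k)| * r k = _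
      rw [mul_sum, ← sum_add_distrib]
      exact sum_congr rfl fun k _ => by rw [hr]; ring
    linarith
  have hD2 : ∀ n, D n ≤ D 0 * (1 - c) ^ n := by
    intro n
    induction n with
    | zero => simp
    | succ n ih =>
      have := mul_le_mul_of_nonneg_left ih (sub_nonneg.2 hc1)
      rw [pow_succ]
      linarith [hD n]
  have hD3 : ∀ n, |e (n + 1)| ≤ D n := by
    intro n
    have := single_le_sum (f := fun k => |e (n + 1 - k)| * r k) (s := range (n + 2))
      (fun k _ => mul_nonneg (abs_nonneg _) (hr' k)) (mem_range.2 (by omega : 0 < n + 2))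
    simpa only [Nat.sub_zero, hr0, mul_one] using this
  have hC : CauchySeq u := by
    refine cauchySeq_of_le_geometric (1 - c) (D 0) (by linarith) fun n => ?_
    rw [dist_comm, Real.dist_eq]
    exact (hD3 n).trans (hD2 n)
  obtain ⟨γ, hγ⟩ := cauchySeq_tendsto_of_complete hC
  exact ⟨γ, ge_of_tendsto' hγ hcu, hγ⟩

theorem Renew_rec (ρ : ℝ) (n : ℕ) : gSeq (n + 1) * ρ ^ (n + 1) =
    ∑ k ∈ range (n + 1), gSeq (n - k) * ρ ^ (n - k) * (aCoef (k + 1) * ρ ^ (k + 1)) := by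
  rw [gSeq_rec (by omega), ← sum_range_reflect, sum_mul]
  refine sum_congr rfl fun k hk => ?_
  have hk' := mem_range.1 hk
  rw [show n + 1 - 1 - k = n - k by omega, show n + 1 - (n - k) = k + 1 by omega]
  conv_lhs => rw [show n + 1 = (n - k) + (k + 1) by omega, pow_add]
  ring

theorem Renew_aCoef_add (k i : ℕ) : aCoef (i + k + 1) ≤ aCoef (k + 1) * (1 + 3 * i) := by
  have h1 : aCoef (i + k + 1) ≤ aCoef (k + 1) + i := by
    induction i with
    | zero => simp
    | succ i ih =>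
      have := aCoef_succ_le (d := i + k + 1) (by omega)
      rw [show i + 1 + k + 1 = i + k + 1 + 1 by omega]
      push_cast
      linarith
  have h2 : aCoef 1 ≤ aCoef (k + 1) := aCoef_mono (by omega)
  have h3 := aCoef_one.1
  have h4 : (0 : ℝ) ≤ i := Nat.cast_nonneg i
  nlinarith

/-- strong induction with `gSeq_rec` and `sum_le_hasSum` -/
theorem gSeq_le {ρ : ℝ} (hρ : IsRho ρ) (n : ℕ) : gSeq n * ρ ^ n ≤ 1 := by
  induction n using Nat.strong_induction_on with
  | _ n ih =>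
    rcases n with _ | n
    · simp [gSeq_zero]
    · have hp : ∀ k, 0 ≤ aCoef (k + 1) * ρ ^ (k + 1) := fun k =>
        mul_nonneg (aCoef_pos (by omega)).le (pow_nonneg hρ.1.le _)
      rw [Renew_rec]
      refine le_trans (sum_le_sum fun k _ => ?_) (sum_le_hasSum (range (n + 1))
        (fun k _ => hp k) hρ.2.2)
      exact mul_le_of_le_one_left (hp k) (ih _ (by omega))

/-- `p d = a_d ρ^d`, `r k = ∑' i, p (k+1+i)`; `a_{k+1+i} ≤ a_{k+1} + i ≤ a_{k+1} (1 + 3i)` gives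
`r k ≤ p (k+1) ∑' (1 + 3 i) ρ^i`. -/
theorem renewal {ρ : ℝ} (hρ : IsRho ρ) : ∃ c γ : ℝ, 0 < c ∧ c ≤ 1 ∧ 0 < γ ∧
    (∀ n, c ≤ gSeq n * ρ ^ n) ∧ Tendsto (fun n => gSeq n * ρ ^ n) atTop (𝓝 γ) := by
  obtain ⟨h0, h1, hs⟩ := hρ
  have hp : ∀ k, 0 ≤ aCoef (k + 1) * ρ ^ (k + 1) := fun k =>
    mul_nonneg (aCoef_pos (by omega)).le (pow_nonneg h0.le _)
  have hn : ‖ρ‖ < 1 := by rwa [Real.norm_of_nonneg h0.le]
  have hM : Summable fun i : ℕ => (1 + 3 * (i : ℝ)) * ρ ^ i := by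
    have a1 := summable_geometric_of_lt_one h0.le h1
    have a2 := (summable_pow_mul_geometric_of_norm_lt_one 1 hn).mul_left 3
    refine (a1.add a2).congr fun i => ?_
    ring
  set M := ∑' i : ℕ, (1 + 3 * (i : ℝ)) * ρ ^ i with hMdef
  have hM1 : 1 ≤ M := by
    have := hM.sum_le_tsum (range 1) fun i _ => by positivity
    simpa using this
  have hM0 : 0 < M := by linarith
  have hr : ∀ k, HasSum (fun i : ℕ => aCoef (i + k + 1) * ρ ^ (i + k + 1))
      (1 - ∑ j ∈ range k, aCoef (j + 1) * ρ ^ (j + 1)) := fun k =>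
    (hasSum_nat_add_iff' (f := fun j : ℕ => aCoef (j + 1) * ρ ^ (j + 1)) k).2 hs
  obtain ⟨h2, γ, h3, h4⟩ := renewal_abs (p := fun d => aCoef d * ρ ^ d)
    (r := fun k => 1 - ∑ j ∈ range k, aCoef (j + 1) * ρ ^ (j + 1))
    (u := fun n => gSeq n * ρ ^ n) (c := M⁻¹) (inv_pos.2 hM0) (inv_le_one_of_one_le₀ hM1)
    (by simp) (fun k => by simp only [sum_range_succ]; ring)
    (fun k => (hr k).nonneg fun i => hp (i + k))
    (fun k => by
      rw [inv_mul_le_iff₀ hM0, mul_comm]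
      refine hasSum_le (fun i => ?_) (hr k) (hM.hasSum.mul_left (aCoef (k + 1) * ρ ^ (k + 1)))
      calc aCoef (i + k + 1) * ρ ^ (i + k + 1)
          ≤ aCoef (k + 1) * (1 + 3 * i) * ρ ^ (i + k + 1) :=
            mul_le_mul_of_nonneg_right (Renew_aCoef_add k i) (pow_nonneg h0.le _)
        _ = _ := by ring)
    (by simp [gSeq_zero]) (Renew_rec ρ)
  exact ⟨M⁻¹, γ, inv_pos.2 hM0, inv_le_one_of_one_le₀ hM1, (inv_pos.2 hM0).trans_le h3, h2, h4⟩

end Crest.Agent.R20
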