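import Crest.Agent.R20.Theta
import Crest.Agent.R29.PSD

/-!
# R20/Sieve: upper bound sieve for `r, m r + 1` prime
-/

set_option autoImplicit false

open Finset Filter Topology Crest.NumberTheoryR.TotientScale

namespace Crest.Agent.R20

/-- Lower bound for the large-sieve sum.  Over all subsets `T ⊆ 𝒫`, `∑ ∏ κ/p = Π := ∏ (1 + κ/p)`
(`Finset.prod_one_add`).  Rankin with `δ = 1/log z`: the subsets with `∏ p > R` contribute at most
`R^{-δ} ∏ (1 + κ p^δ/p) ≤ R^{-δ} Π exp (κ ∑ (p^δ - 1)/p)`, `p^δ - 1 ≤ 2 δ log p` (`p ≤ z`), and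
`∑_{p ≤ z} log p/p ≤ log z + 10` (`R29.mertens_upper`), so this is `≤ exp (-70) Π exp 66 ≤ Π/2`. -/
theorem sieve_L {κ : ℕ} (hκ : κ ≤ 3) {z R : ℝ} (hz : Real.exp 1 ≤ z) (hR : z ^ 70 ≤ R)
    (S : Finset ℕ) (hS : ∀ p ∈ S, p.Prime ∧ (p : ℝ) ≤ z) :
    (∏ p ∈ S, (1 + (κ : ℝ) / p)) / 2 ≤
      ∑ T ∈ S.powerset.filter (fun T => ((∏ p ∈ T, p : ℕ) : ℝ) ≤ R), ∏ p ∈ T, (κ : ℝ) / p := by
  have hz0 : 0 < z := lt_of_lt_of_le (Real.exp_pos 1) hz
  have hL : 1 ≤ Real.log z := by rwa [Real.le_log_iff_exp_le hz0]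
  have hz1 : 1 ≤ z := le_trans (Real.one_le_exp zero_le_one) hz
  obtain ⟨L, hLdef⟩ : ∃ L, L = Real.log z := ⟨_, rfl⟩
  rw [← hLdef] at hL
  have hL0 : 0 < L := by linarith
  have hκ' : (κ : ℝ) ≤ 3 := by exact_mod_cast hκ
  have hκ0 : (0 : ℝ) ≤ κ := Nat.cast_nonneg _
  have hp0 : ∀ p ∈ S, (0 : ℝ) < p := fun p hp => by exact_mod_cast (hS p hp).1.pos
  have htot := Finset.prod_one_add (f := fun p : ℕ => (κ : ℝ) / p) S
  rw [← sum_filter_add_sum_filter_not S.powerset (fun T => ((∏ p ∈ T, p : ℕ) : ℝ) ≤ R)] at htot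
  have h1 : ∑ T ∈ S.powerset.filter (fun T => ¬ ((∏ p ∈ T, p : ℕ) : ℝ) ≤ R), ∏ p ∈ T, (κ : ℝ) / p ≤
      ∑ T ∈ S.powerset, Real.exp (-70) * ∏ p ∈ T, ((κ : ℝ) / p * Real.exp (Real.log p / L)) := by
    refine le_trans (sum_le_sum fun T hT => ?_)
      (sum_le_sum_of_subset_of_nonneg (filter_subset _ _) fun T _ _ =>
        mul_nonneg (Real.exp_pos _).le (prod_nonneg fun p _ => by positivity))
    obtain ⟨hT1, hT2⟩ := mem_filter.1 hT
    have hT3 := mem_powerset.1 hT1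
    rw [prod_mul_distrib, ← Real.exp_sum, ← sum_div,
      ← Real.log_prod fun p hp => (hp0 p (hT3 hp)).ne', mul_left_comm, ← Real.exp_add]
    refine le_mul_of_one_le_right (prod_nonneg fun p _ => by positivity) (Real.one_le_exp ?_)
    have h2 : z ^ 70 ≤ ∏ p ∈ T, (p : ℝ) := by
      have := not_le.1 hT2
      push_cast at this
      linarith
    have h3 := Real.log_le_log (by positivity) h2
    rw [Real.log_pow, ← hLdef] at h3
    have h4 : (70 : ℝ) ≤ Real.log (∏ p ∈ T, (p : ℝ)) / L := by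
      rw [le_div_iff₀ hL0]; exact_mod_cast h3
    linarith
  rw [← mul_sum, ← Finset.prod_one_add] at h1
  have h2 : ∏ p ∈ S, (1 + (κ : ℝ) / p * Real.exp (Real.log p / L)) ≤
      ∏ p ∈ S, ((1 + (κ : ℝ) / p) * Real.exp (6 / L * (Real.log p / p))) := by
    refine prod_le_prod (fun p _ => by positivity) fun p hp => ?_
    have hp := hp0 p hp
    have hl0 : 0 ≤ Real.log p := Real.log_natCast_nonneg p
    have hs0 : 0 ≤ Real.log p / L := by positivity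
    have hs1 : Real.log p / L ≤ 1 := by
      rw [div_le_one hL0, hLdef]
      exact Real.log_le_log hp (hS p ‹_›).2
    have k1 : Real.exp (Real.log p / L) - 1 ≤ 2 * (Real.log p / L) := by
      have := Real.abs_exp_sub_one_le (x := Real.log p / L) (by rwa [abs_of_nonneg hs0])
      rw [abs_of_nonneg hs0] at this
      exact (le_abs_self _).trans this
    have k2 := Real.add_one_le_exp (6 / L * (Real.log p / p))
    have k3 : (κ : ℝ) / p * (2 * (Real.log p / L)) ≤ 6 / L * (Real.log p / p) := by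
      calc (κ : ℝ) / p * (2 * (Real.log p / L)) ≤ 3 / p * (2 * (Real.log p / L)) := by gcongr
        _ = 6 / L * (Real.log p / p) := by field_simp; ring
    have k4 : 0 ≤ (κ : ℝ) / p := by positivity
    have k5 : 0 ≤ 6 / L * (Real.log p / p) := by positivity
    have k6 := mul_le_mul_of_nonneg_left k1 k4
    nlinarith
  rw [prod_mul_distrib, ← Real.exp_sum, ← mul_sum] at h2
  have h3 : ∑ p ∈ S, Real.log p / p ≤ L + 10 := by
    rw [hLdef]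
    refine le_trans (sum_le_sum_of_subset_of_nonneg (fun p hp => ?_) fun p _ _ => ?_)
      (R29.mertens_upper hz1)
    · exact (R29.mem_primesUpTo hz0.le).2 (hS p hp)
    · exact div_nonneg (Real.log_natCast_nonneg p) (Nat.cast_nonneg p)
  have h4 : 6 / L * ∑ p ∈ S, Real.log p / p ≤ 66 := by
    calc 6 / L * ∑ p ∈ S, Real.log p / p ≤ 6 / L * (11 * L) := by gcongr; linarith
      _ = 66 := by field_simp; norm_num
  have h5 : Real.exp (-70) * Real.exp (6 / L * ∑ p ∈ S, Real.log p / p) ≤ 1 / 2 := by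
    rw [← Real.exp_add]
    calc Real.exp (-70 + 6 / L * ∑ p ∈ S, Real.log p / p) ≤ Real.exp (-1) :=
          Real.exp_le_exp.2 (by linarith)
      _ ≤ 1 / 2 := by
          rw [Real.exp_neg, one_div]
          exact inv_anti₀ (by norm_num) (by linarith [Real.add_one_le_exp (1 : ℝ)])
  have h6 : 0 ≤ ∏ p ∈ S, (1 + (κ : ℝ) / p) := prod_nonneg fun p _ => by positivity
  have h7 := mul_le_mul_of_nonneg_left h2 (Real.exp_pos (-70)).le
  have h8 := mul_le_mul_of_nonneg_left h5 h6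
  nlinarith

/-- Residue classes: for a prime `p ≥ 5` not dividing any `m ∈ A` nor any difference of two distinct elements of
`A`, the classes `0` and `-m⁻¹` (`m ∈ A`) are distinct; the complement has `p - 1 - |A| > 0` elements. -/
theorem sieve_classes {p : ℕ} (hp : p.Prime) (h5 : 5 ≤ p) (A : Finset ℕ) (hA : A.card ≤ 2)
    (h1 : ∀ m ∈ A, ¬ p ∣ m) (h2 : ∀ m ∈ A, ∀ m' ∈ A, m < m' → ¬ p ∣ m' - m) :
    ∃ S : Finset (ZMod p), ((A.card + 1 : ℕ) : ℝ) / p ≤ ((p : ℝ) - S.card) / S.card ∧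
      ∀ r : ℕ, ¬ p ∣ r → (∀ m ∈ A, ¬ p ∣ m * r + 1) → ((r : ℤ) : ZMod p) ∈ S := by
  haveI := Fact.mk hp
  have hne : ∀ m ∈ A, (m : ZMod p) ≠ 0 := fun m hm h =>
    h1 m hm ((ZMod.natCast_eq_zero_iff m p).1 h)
  have hlt : ∀ m ∈ A, ∀ m' ∈ A, m < m' → (m : ZMod p) ≠ m' := fun m hm m' hm' hmm h =>
    h2 m hm m' hm' hmm ((Nat.modEq_iff_dvd' hmm.le).1 ((ZMod.natCast_eq_natCast_iff _ _ _).1 h))
  have hinj : Set.InjOn (fun m : ℕ => -((m : ZMod p))⁻¹) A := by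
    intro m hm m' hm' h
    have h' : (m : ZMod p) = m' := inv_injective (neg_injective h)
    rcases lt_trichotomy m m' with hl | hl | hl
    · exact absurd h' (hlt m hm m' hm' hl)
    · exact hl
    · exact absurd h'.symm (hlt m' hm' m hm hl)
  obtain ⟨B, hB⟩ : ∃ B : Finset (ZMod p), B = insert 0 (A.image fun m : ℕ => -((m : ZMod p))⁻¹) :=
    ⟨_, rfl⟩
  have hBc : B.card = A.card + 1 := by
    rw [hB, card_insert_of_notMem, card_image_of_injOn hinj]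
    intro h
    obtain ⟨m, hm, h0⟩ := mem_image.1 h
    exact hne m hm (inv_eq_zero.1 (neg_eq_zero.1 h0))
  have hSc : (Bᶜ).card = p - (A.card + 1) := by rw [card_compl, ZMod.card, hBc]
  have hle : A.card + 1 ≤ p := by omega
  refine ⟨Bᶜ, ?_, fun r hr hr' => ?_⟩
  · rw [hSc, Nat.cast_sub hle, sub_sub_cancel]
    have h3 : ((A.card + 1 : ℕ) : ℝ) ≤ 3 := by exact_mod_cast (by omega : A.card + 1 ≤ 3)
    have h4 : (5 : ℝ) ≤ p := by exact_mod_cast h5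
    have h6 : (0 : ℝ) ≤ ((A.card + 1 : ℕ) : ℝ) := Nat.cast_nonneg _
    exact div_le_div_of_nonneg_left h6 (by linarith) (by linarith)
  · rw [mem_compl, hB, Int.cast_natCast]
    intro h
    rcases mem_insert.1 h with h | h
    · exact hr ((ZMod.natCast_eq_zero_iff r p).1 h)
    · obtain ⟨m, hm, h0⟩ := mem_image.1 h
      refine hr' m hm ((ZMod.natCast_eq_zero_iff _ p).1 ?_)
      push_cast
      rw [← h0, mul_neg, mul_inv_cancel₀ (hne m hm), neg_add_cancel]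

private theorem Sieve_exp_le {s : ℝ} (hs : 0 ≤ s) : Real.exp (s - s ^ 2) ≤ 1 + s := by
  have h1 : 0 < 1 + s := by linarith
  rw [← Real.exp_log h1]
  refine Real.exp_le_exp.2 ?_
  have h2 := Real.one_sub_inv_le_log_of_pos h1
  refine le_trans ?_ h2
  have h3 : (1 + s)⁻¹ ≤ 1 - s + s ^ 2 := by
    rw [inv_le_iff_one_le_mul₀ h1]
    nlinarith [pow_nonneg hs 3]
  linarith

private theorem Sieve_prod_ge {κ : ℕ} (hκ : κ ≤ 3) (S : Finset ℕ) (hS : ∀ p ∈ S, p.Prime) :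
    Real.exp (κ * ∑ p ∈ S, 1 / (p : ℝ) - 9) ≤ ∏ p ∈ S, (1 + (κ : ℝ) / p) := by
  have hκ' : (κ : ℝ) ≤ 3 := by exact_mod_cast hκ
  have hκ0 : (0 : ℝ) ≤ κ := Nat.cast_nonneg _
  have h1 : ∑ p ∈ S, ((κ : ℝ) / p) ^ 2 ≤ 9 := by
    have h2 : ∑ p ∈ S, ((κ : ℝ) / p) ^ 2 ≤ ∑ p ∈ S, 9 * (1 / ((p : ℝ) * (p - 1))) := by
      refine sum_le_sum fun p hp => ?_
      have h2p : (2 : ℝ) ≤ p := by exact_mod_cast (hS p hp).two_le
      rw [div_pow, mul_one_div]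
      have h3 : 0 < (p : ℝ) * (p - 1) := by nlinarith
      exact div_le_div₀ (by norm_num) (by nlinarith) h3 (by nlinarith)
    have h4 : ∑ p ∈ S, 1 / ((p : ℝ) * (p - 1)) ≤
        ∑ k ∈ Ico 2 (S.sup id + 2), 1 / ((k : ℝ) * (k - 1)) := by
      refine sum_le_sum_of_subset_of_nonneg (fun p hp => ?_) fun k hk _ => ?_
      · have := le_sup (f := id) hp
        simp only [id] at this
        exact mem_Ico.2 ⟨(hS p hp).two_le, by omega⟩
      · have h2k : (2 : ℝ) ≤ k := by exact_mod_cast (mem_Ico.1 hk).1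
        have : 0 < (k : ℝ) * (k - 1) := by nlinarith
        positivity
    have h5 := R29.primes_sum_inv_mul_le (S.sup id)
    have h6 : (0 : ℝ) ≤ 1 / (((S.sup id : ℕ) : ℝ) + 1) := by positivity
    rw [← mul_sum] at h2
    linarith
  calc Real.exp (κ * ∑ p ∈ S, 1 / (p : ℝ) - 9)
      ≤ Real.exp (∑ p ∈ S, ((κ : ℝ) / p - ((κ : ℝ) / p) ^ 2)) := by
        refine Real.exp_le_exp.2 ?_
        rw [sum_sub_distrib, mul_sum]
        simp only [mul_one_div]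
        linarith
    _ = ∏ p ∈ S, Real.exp ((κ : ℝ) / p - ((κ : ℝ) / p) ^ 2) := Real.exp_sum _ _
    _ ≤ _ := prod_le_prod (fun _ _ => (Real.exp_pos _).le) fun p _ => Sieve_exp_le (by positivity)

private theorem Sieve_N {Y : ℝ} (A : Finset ℕ) (hA : A.card ≤ 2)
    (h : ∀ m ∈ A, 0 < m ∧ (th m : ℝ) ≤ Y) :
    ∃ N : Finset ℕ, N.card ≤ 3 ∧ (∀ n ∈ N, 0 < n ∧ (th n : ℝ) ≤ Y) ∧ A ⊆ N ∧
      ∀ m ∈ A, ∀ m' ∈ A, m < m' → m' - m ∈ N := by
  by_cases hp : ∃ a ∈ A, ∃ b ∈ A, a < b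
  · obtain ⟨a, ha, b, hb, hab⟩ := hp
    have hAe : A = {a, b} := by
      symm
      refine eq_of_subset_of_card_le (fun x hx => ?_) ?_
      · rcases mem_insert.1 hx with rfl | hx
        · exact ha
        · rw [mem_singleton.1 hx]; exact hb
      · rw [card_pair hab.ne]; exact hA
    refine ⟨insert (b - a) A, (card_insert_le _ _).trans (by omega), fun n hn => ?_,
      subset_insert _ _, fun m hm m' hm' hmm => ?_⟩
    · rcases mem_insert.1 hn with rfl | hn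
      · refine ⟨by omega, le_trans ?_ (h b hb).2⟩
        exact_mod_cast th_mono (Nat.sub_le _ _)
      · exact h n hn
    · rw [hAe] at hm hm'
      simp only [mem_insert, mem_singleton] at hm hm'
      have : m' - m = b - a := by omega
      rw [this]
      exact mem_insert_self _ _
  · exact ⟨A, by omega, h, Subset.rfl, fun m hm m' hm' hmm => absurd ⟨m, hm, m', hm', hmm⟩ hp⟩

/-- the large sieve step. -/
private theorem Sieve_main {X z : ℝ} (hX : 1 ≤ X) (hz : Real.exp 1 ≤ z) (hR : z ^ 70 ≤ √X)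
    (A : Finset ℕ) (hA : A.card ≤ 2) (hA0 : ∀ m ∈ A, 0 < m) (P : Finset ℕ)
    (hP : ∀ p ∈ P, p.Prime ∧ (p : ℝ) ≤ z ∧ 5 ≤ p ∧ (∀ m ∈ A, ¬ p ∣ m) ∧
      ∀ m ∈ A, ∀ m' ∈ A, m < m' → ¬ p ∣ m' - m)
    (T : Finset ℕ) (hT : ∀ r ∈ T, r.Prime ∧ z < r ∧ (r : ℝ) ≤ X ∧ ∀ m ∈ A, (m * r + 1).Prime) :
    (T.card : ℝ) * ∏ p ∈ P, (1 + ((A.card + 1 : ℕ) : ℝ) / p) ≤ 10 * X := by
  classical
  have hex : ∀ p : ℕ, ∃ S : Finset (ZMod p), p ∈ P →
      (((A.card + 1 : ℕ) : ℝ) / p ≤ ((p : ℝ) - S.card) / S.card ∧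
        ∀ r : ℕ, ¬ p ∣ r → (∀ m ∈ A, ¬ p ∣ m * r + 1) → ((r : ℤ) : ZMod p) ∈ S) := by
    intro p
    by_cases hp : p ∈ P
    · obtain ⟨h1, -, h3, h4, h5⟩ := hP p hp
      obtain ⟨S, hS⟩ := sieve_classes h1 h3 A hA h4 h5
      exact ⟨S, fun _ => hS⟩
    · exact ⟨∅, fun h => absurd h hp⟩
  choose S hS using hex
  obtain ⟨F, hF⟩ : ∃ F, F = P.powerset.filter (fun U => ((∏ p ∈ U, p : ℕ) : ℝ) ≤ √X) := ⟨_, rfl⟩
  have hFP : ∀ U ∈ F, U ⊆ P := fun U hU => by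
    rw [hF] at hU; exact mem_powerset.1 (mem_filter.1 hU).1
  have hpf : ∀ U ∈ F, (∏ p ∈ U, p).primeFactors = U := fun U hU =>
    Nat.primeFactors_prod fun p hp => (hP p (hFP U hU hp)).1
  have hinj : Set.InjOn (fun U : Finset ℕ => ∏ p ∈ U, p) F := fun U hU V hV hUV => by
    rw [← hpf U hU, ← hpf V hV]; exact congrArg Nat.primeFactors hUV
  have key := R29.sieve_bound hX (T.image fun r : ℕ => (r : ℤ)) (fun a ha => by
      obtain ⟨r, hr, rfl⟩ := mem_image.1 ha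
      simpa using (hT r hr).2.2.1) S (F.image fun U => ∏ p ∈ U, p) (fun q hq => by
      obtain ⟨U, hU, rfl⟩ := mem_image.1 hq
      refine ⟨Finset.squarefree_prod_of_pairwise_isCoprime (fun p hp p' hp' hne => ?_)
        fun p hp => (hP p (hFP U hU hp)).1.squarefree, ?_⟩
      · exact Nat.coprime_iff_isRelPrime.1
          ((Nat.coprime_primes (hP p (hFP U hU hp)).1 (hP p' (hFP U hU hp')).1).2 hne)
      · rw [hF] at hU
        have h1 := pow_le_pow_left₀ (Nat.cast_nonneg _) (mem_filter.1 hU).2 2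
        rw [Real.sq_sqrt (by linarith)] at h1
        linarith) (fun q hq p hp a ha => by
      obtain ⟨U, hU, rfl⟩ := mem_image.1 hq
      obtain ⟨r, hr, rfl⟩ := mem_image.1 ha
      rw [hpf U hU] at hp
      have hpP := hFP U hU hp
      obtain ⟨h1, h2, -⟩ := hP p hpP
      obtain ⟨k1, k2, -, k4⟩ := hT r hr
      have hlt : p < r := by exact_mod_cast lt_of_le_of_lt h2 k2
      refine (hS p hpP).2 r (fun h => ?_) fun m hm h => ?_
      · exact hlt.ne ((Nat.prime_dvd_prime_iff_eq h1 k1).1 h)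
      · have h3 := (Nat.prime_dvd_prime_iff_eq h1 (k4 m hm)).1 h
        have h4 : r ≤ m * r := Nat.le_mul_of_pos_left r (hA0 m hm)
        omega)
  rw [card_image_of_injective _ Nat.cast_injective, sum_image hinj] at key
  have h1 := sieve_L (κ := A.card + 1) (by omega) hz hR P fun p hp => ⟨(hP p hp).1, (hP p hp).2.1⟩
  rw [← hF] at h1
  have h2 : ∑ U ∈ F, ∏ p ∈ U, ((A.card + 1 : ℕ) : ℝ) / p ≤
      ∑ U ∈ F, ∏ p ∈ (∏ p ∈ U, p).primeFactors, (((p : ℝ) - (S p).card) / (S p).card) := by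
    refine sum_le_sum fun U hU => ?_
    rw [hpf U hU]
    exact prod_le_prod (fun p _ => by positivity) fun p hp => (hS p (hFP U hU hp)).1
  have h3 := mul_le_mul_of_nonneg_left (h1.trans h2) (Nat.cast_nonneg T.card : (0 : ℝ) ≤ _)
  linarith

/-- lower bound for the sum over the sieving primes. -/
private theorem Sieve_sum {z Y C₀ : ℝ} (hz : 2 ≤ z) (hY : 1 ≤ Y) (hC₀ : 0 ≤ C₀)
    (hC : ∀ a : ℕ, 0 < a → ∑ q ∈ a.primeFactors, 1 / ((q : ℝ) - 1) ≤ Real.log (th a + 1) + C₀)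
    (N : Finset ℕ) (hN : N.card ≤ 3) (hN' : ∀ n ∈ N, 0 < n ∧ (th n : ℝ) ≤ Y) :
    Real.log (Real.log z) - 3 - 3 * (Real.log (2 * Y) + C₀) ≤
      ∑ p ∈ (R29.primesUpTo z).filter (fun p => 5 ≤ p ∧ ∀ n ∈ N, ¬ p ∣ n), 1 / (p : ℝ) := by
  have h1 := R29.sum_inv_primes_ge hz
  rw [← sum_filter_add_sum_filter_not (R29.primesUpTo z) (fun p => 5 ≤ p ∧ ∀ n ∈ N, ¬ p ∣ n)] at h1
  have h2 : ∑ p ∈ (R29.primesUpTo z).filter (fun p => ¬ (5 ≤ p ∧ ∀ n ∈ N, ¬ p ∣ n)), 1 / (p : ℝ) ≤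
      ∑ p ∈ ({2, 3} : Finset ℕ) ∪ N.biUnion Nat.primeFactors, 1 / (p : ℝ) := by
    refine sum_le_sum_of_subset_of_nonneg (fun p hp => ?_) fun _ _ _ => by positivity
    obtain ⟨hp1, hp2⟩ := mem_filter.1 hp
    have hpp := R29.primes_prime_of_mem hp1
    by_cases h5 : 5 ≤ p
    · have : ∃ n ∈ N, p ∣ n := by
        by_contra hcon
        exact hp2 ⟨h5, fun n hn hd => hcon ⟨n, hn, hd⟩⟩
      obtain ⟨n, hn, hd⟩ := this
      exact mem_union_right _ (mem_biUnion.2 ⟨n, hn,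
        Nat.mem_primeFactors.2 ⟨hpp, hd, (hN' n hn).1.ne'⟩⟩)
    · refine mem_union_left _ ?_
      have h2 := hpp.two_le
      have h4 : p ≠ 4 := by rintro rfl; exact absurd hpp (by norm_num)
      simp only [mem_insert, mem_singleton]
      omega
  have h3 : ∑ p ∈ ({2, 3} : Finset ℕ) ∪ N.biUnion Nat.primeFactors, 1 / (p : ℝ) ≤
      ∑ p ∈ ({2, 3} : Finset ℕ), 1 / (p : ℝ) + ∑ p ∈ N.biUnion Nat.primeFactors, 1 / (p : ℝ) := by
    rw [← sum_union_inter]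
    exact le_add_of_nonneg_right (sum_nonneg fun _ _ => by positivity)
  have h4 : ∑ p ∈ ({2, 3} : Finset ℕ), 1 / (p : ℝ) ≤ 1 := by
    rw [sum_pair (by norm_num)]; norm_num
  have h5 := R29.primes_sum_biUnion_le N Nat.primeFactors (fun p => 1 / (p : ℝ))
    fun _ => by positivity
  have hl : 0 ≤ Real.log (2 * Y) := Real.log_nonneg (by linarith)
  have h6 : ∑ n ∈ N, ∑ p ∈ n.primeFactors, 1 / (p : ℝ) ≤ ∑ _n ∈ N, (Real.log (2 * Y) + C₀) := by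
    refine sum_le_sum fun n hn => ?_
    have k1 : ∑ p ∈ n.primeFactors, 1 / (p : ℝ) ≤ ∑ q ∈ n.primeFactors, 1 / ((q : ℝ) - 1) := by
      refine sum_le_sum fun p hp => ?_
      have : (2 : ℝ) ≤ p := by exact_mod_cast (Nat.prime_of_mem_primeFactors hp).two_le
      exact one_div_le_one_div_of_le (by linarith) (by linarith)
    have k2 : Real.log (th n + 1) ≤ Real.log (2 * Y) :=
      Real.log_le_log (by positivity) (by linarith [(hN' n hn).2])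
    linarith [hC n (hN' n hn).1]
  rw [sum_const, nsmul_eq_mul] at h6
  have h7 : (N.card : ℝ) * (Real.log (2 * Y) + C₀) ≤ 3 * (Real.log (2 * Y) + C₀) :=
    mul_le_mul_of_nonneg_right (by exact_mod_cast hN) (by linarith)
  linarith

/-- `z = X^{1/140}`, `R = √X`; sieve the `r > z` by the primes `5 ≤ p ≤ z` not dividing the `m ∈ A` or their
difference, using `R29.sieve_bound` with `Q` the image of the subsets of `sieve_L` under `T ↦ ∏ p` (injective,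
squarefree, `Nat.primeFactors_prod`).  With `κ = |A| + 1`, `1 + s ≥ exp (s - s²)` gives
`Π ≥ exp (κ (log log z - 2 - 5/6 - ∑_{bad p} 1/p) - 9)` (`R29.sum_inv_primes_ge`), and each of the at most three
numbers `m, m', m' - m` has `∑_{p ∣ ·} 1/p ≤ log (Y + 1) + C` (`sum_dvd_le`, `th_mono`).  Count `≤ z + 10 X/Π`.
For bounded `X` use the trivial bound `X` and enlarge `C`. -/
theorem sieve : ∃ C : ℝ, 0 < C ∧ ∀ (X Y : ℝ) (A : Finset ℕ), 2 ≤ X → 1 ≤ Y → A.card ≤ 2 →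
    (∀ m ∈ A, 0 < m ∧ (th m : ℝ) ≤ Y) →
    Bd (fun r : ℕ => r.Prime ∧ (r : ℝ) ≤ X ∧ ∀ m ∈ A, (m * r + 1).Prime) (fun _ => 1)
      (C * Y ^ 9 * X / Real.log X ^ (A.card + 1)) := by
  obtain ⟨C₁, hC₁⟩ := sum_dvd_le
  obtain ⟨C₀, hC₀def⟩ : ∃ C₀, C₀ = max C₁ 0 := ⟨_, rfl⟩
  have hC₀ : 0 ≤ C₀ := by rw [hC₀def]; exact le_max_right _ _
  have hC : ∀ a : ℕ, 0 < a →
      ∑ q ∈ a.primeFactors, 1 / ((q : ℝ) - 1) ≤ Real.log (th a + 1) + C₀ := fun a ha => by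
    have := hC₁ a ha
    have h2 : C₁ ≤ C₀ := by rw [hC₀def]; exact le_max_left _ _
    linarith
  obtain ⟨K, hK⟩ : ∃ K : ℝ, K = 10 * 140 ^ 3 * 2 ^ 9 * Real.exp (18 + 9 * C₀) := ⟨_, rfl⟩
  have hK0 : 0 < K := by rw [hK]; positivity
  refine ⟨140 ^ 3 + K, by positivity, fun X Y A hX hY hA hAY => ?_⟩
  have hX0 : 0 < X := by linarith
  obtain ⟨ℓ, hℓ⟩ : ∃ ℓ, ℓ = Real.log X := ⟨_, rfl⟩
  have hℓ0 : 0 < ℓ := by rw [hℓ]; exact Real.log_pos (by linarith)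
  have hXe : X = Real.exp ℓ := by rw [hℓ, Real.exp_log hX0]
  rw [← hℓ]
  obtain ⟨κ, hκ⟩ : ∃ κ, κ = A.card + 1 := ⟨_, rfl⟩
  have hκ3 : κ ≤ 3 := by omega
  rw [← hκ]
  have hY9 : 1 ≤ Y ^ 9 := one_le_pow₀ hY
  have hcount : ∀ W : ℝ, 0 ≤ W → Bd (fun r : ℕ => r.Prime ∧ (r : ℝ) ≤ W) (fun _ => 1) W :=
    fun W hW => (bd_multiples hW one_pos).mono (fun r hr => ⟨hr.1.pos, hr.2, one_dvd _⟩)
      (fun _ _ => le_rfl) (by simp)
  have hℓκ : 0 < ℓ ^ κ := pow_pos hℓ0 κ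
  rcases le_or_gt ℓ 140 with hs | hs
  · refine (hcount X hX0.le).mono (fun r hr => ⟨hr.1, hr.2.1⟩) (fun _ _ => le_rfl) ?_
    rw [le_div_iff₀ hℓκ]
    have h1 : ℓ ^ κ ≤ 140 ^ 3 :=
      (pow_le_pow_left₀ hℓ0.le hs κ).trans (pow_le_pow_right₀ (by norm_num) hκ3)
    calc X * ℓ ^ κ ≤ X * 140 ^ 3 := by gcongr
      _ = 140 ^ 3 * 1 * X := by ring
      _ ≤ (140 ^ 3 + K) * Y ^ 9 * X := by gcongr; linarith
  obtain ⟨z, hz⟩ : ∃ z, z = Real.exp (ℓ / 140) := ⟨_, rfl⟩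
  have hz1 : Real.exp 1 ≤ z := by rw [hz]; exact Real.exp_le_exp.2 (by linarith)
  have hz2 : 2 ≤ z := by linarith [Real.add_one_le_exp (1 : ℝ)]
  have hR : z ^ 70 ≤ √X := by
    refine Real.le_sqrt_of_sq_le (le_of_eq ?_)
    rw [hz, hXe, ← Real.exp_nat_mul, ← Real.exp_nat_mul]
    congr 1
    push_cast
    ring
  obtain ⟨N, hN, hN', hAN, hd⟩ := Sieve_N A hA hAY
  obtain ⟨P, hP⟩ : ∃ P, P = (R29.primesUpTo z).filter (fun p => 5 ≤ p ∧ ∀ n ∈ N, ¬ p ∣ n) :=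
    ⟨_, rfl⟩
  have hPp : ∀ p ∈ P, p.Prime ∧ (p : ℝ) ≤ z ∧ 5 ≤ p ∧ (∀ m ∈ A, ¬ p ∣ m) ∧
      ∀ m ∈ A, ∀ m' ∈ A, m < m' → ¬ p ∣ m' - m := by
    intro p hp
    rw [hP] at hp
    obtain ⟨h1, h2, h3⟩ := mem_filter.1 hp
    have h4 := (R29.mem_primesUpTo (by linarith)).1 h1
    exact ⟨h4.1, h4.2, h2, fun m hm => h3 m (hAN hm),
      fun m hm m' hm' hmm => h3 _ (hd m hm m' hm' hmm)⟩
  have hsum := Sieve_sum hz2 hY hC₀ hC N hN hN'
  rw [← hP, hz, Real.log_exp] at hsum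
  have hprod := Sieve_prod_ge hκ3 P fun p hp => (hPp p hp).1
  have hκ' : (κ : ℝ) ≤ 3 := by exact_mod_cast hκ3
  have hκ0 : (0 : ℝ) ≤ κ := Nat.cast_nonneg _
  have hl : 0 ≤ Real.log (2 * Y) := Real.log_nonneg (by linarith)
  have hlow : 10 * ℓ ^ κ ≤ K * Y ^ 9 * ∏ p ∈ P, (1 + (κ : ℝ) / p) := by
    have h1 : κ * Real.log (ℓ / 140) - (18 + 9 * C₀) - 9 * Real.log (2 * Y) ≤
        κ * ∑ p ∈ P, 1 / (p : ℝ) - 9 := by
      have h2 := mul_le_mul_of_nonneg_left hsum hκ0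
      have h3 : κ * (3 + 3 * (Real.log (2 * Y) + C₀)) ≤ 3 * (3 + 3 * (Real.log (2 * Y) + C₀)) :=
        mul_le_mul_of_nonneg_right hκ' (by linarith)
      nlinarith
    have h2 := (Real.exp_le_exp.2 h1).trans hprod
    have h3 : Real.exp (κ * Real.log (ℓ / 140) - (18 + 9 * C₀) - 9 * Real.log (2 * Y)) =
        (ℓ / 140) ^ κ / Real.exp (18 + 9 * C₀) / (2 * Y) ^ 9 := by
      rw [Real.exp_sub, Real.exp_sub, Real.exp_nat_mul, Real.exp_log (by positivity)]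
      congr 1
      rw [show (9 : ℝ) = ((9 : ℕ) : ℝ) by norm_num, Real.exp_nat_mul, Real.exp_log (by positivity)]
    rw [h3, div_div, div_le_iff₀ (by positivity), div_pow, div_le_iff₀ (by positivity)] at h2
    have h4 : (140 : ℝ) ^ κ ≤ 140 ^ 3 := pow_le_pow_right₀ (by norm_num) hκ3
    have h5 : 0 ≤ ∏ p ∈ P, (1 + (κ : ℝ) / p) := prod_nonneg fun p _ => by positivity
    calc 10 * ℓ ^ κ ≤ 10 * ((∏ p ∈ P, (1 + (κ : ℝ) / p)) *
          (Real.exp (18 + 9 * C₀) * (2 * Y) ^ 9) * 140 ^ κ) := by gcongr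
      _ ≤ 10 * ((∏ p ∈ P, (1 + (κ : ℝ) / p)) *
          (Real.exp (18 + 9 * C₀) * (2 * Y) ^ 9) * 140 ^ 3) := by gcongr
      _ = K * Y ^ 9 * ∏ p ∈ P, (1 + (κ : ℝ) / p) := by rw [hK]; ring
  have hpos : 0 < ∏ p ∈ P, (1 + (κ : ℝ) / p) := prod_pos fun p _ => by positivity
  have hbig : Bd (fun r : ℕ => r.Prime ∧ z < r ∧ (r : ℝ) ≤ X ∧ ∀ m ∈ A, (m * r + 1).Prime)
      (fun _ => 1) (K * Y ^ 9 * X / ℓ ^ κ) := by
    intro T hT
    have h1 := Sieve_main (by linarith) hz1 hR A hA (fun m hm => (hAY m hm).1) P hPp T hT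
    rw [← hκ] at h1
    rw [sum_const, nsmul_eq_mul, mul_one, le_div_iff₀ hℓκ]
    refine le_of_mul_le_mul_right ?_ hpos
    calc (T.card : ℝ) * ℓ ^ κ * ∏ p ∈ P, (1 + (κ : ℝ) / p)
        = ((T.card : ℝ) * ∏ p ∈ P, (1 + (κ : ℝ) / p)) * ℓ ^ κ := by ring
      _ ≤ 10 * X * ℓ ^ κ := by gcongr
      _ = X * (10 * ℓ ^ κ) := by ring
      _ ≤ X * (K * Y ^ 9 * ∏ p ∈ P, (1 + (κ : ℝ) / p)) := by gcongr
      _ = _ := by ring
  refine ((hcount z (by linarith)).or hbig).mono (fun r hr => ?_) (fun _ _ => le_rfl) ?_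
  · rcases le_or_gt (r : ℝ) z with h | h
    · exact Or.inl ⟨hr.1, h⟩
    · exact Or.inr ⟨hr.1, h, hr.2⟩
  · have h1 : ℓ ^ κ ≤ ℓ ^ 3 := pow_le_pow_right₀ (by linarith) hκ3
    have h2 := Real.pow_div_factorial_le_exp (ℓ / 2) (by linarith) 3
    have h3 : ℓ ^ 3 ≤ 48 * Real.exp (ℓ / 2) := by
      norm_num [Nat.factorial] at h2
      nlinarith
    have h4 : z ≤ Real.exp (ℓ / 2) := by rw [hz]; exact Real.exp_le_exp.2 (by linarith)
    have h5 : Real.exp (ℓ / 2) * Real.exp (ℓ / 2) = X := by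
      rw [← Real.exp_add, hXe]; congr 1; ring
    have h6 : z * ℓ ^ κ ≤ 140 ^ 3 * Y ^ 9 * X := by
      calc z * ℓ ^ κ ≤ Real.exp (ℓ / 2) * (48 * Real.exp (ℓ / 2)) := by
            gcongr; exact h1.trans h3
        _ = 48 * 1 * X := by rw [← h5]; ring
        _ ≤ 140 ^ 3 * Y ^ 9 * X := by gcongr; norm_num
    rw [add_mul, add_mul, add_div]
    gcongr
    rwa [le_div_iff₀ hℓκ]

end Crest.Agent.R20
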