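import Crest.Agent.R20.Abn
import Crest.Agent.R20.Cap

/-!
# R20/Tails: the mass of tail totients
-/

set_option autoImplicit false

open Finset Filter Topology Crest.NumberTheoryR.TotientScale

namespace Crest.Agent.R20

theorem TV.mono {Y Y' : ℝ} {P P' : ℕ → Prop} {w : ℕ} (h : TV Y P w) (hY : Y ≤ Y')
    (hP : ∀ m, 0 < m → (yy m 0 : ℝ) ≤ Y → P m → P' m) : TV Y' P' w := by
  obtain ⟨m, h0, h1, h2, h3⟩ := h
  exact ⟨m, h0, h1, h2.trans hY, hP m h0 h2 h3⟩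

theorem Tails_ev (n : ℕ) (K : ℝ) {b : ℝ} (hb : 0 < b) :
    ∀ᶠ x : ℝ in atTop, K * x ^ n ≤ Real.exp (b * x) := by
  have h := ((isLittleO_pow_exp_pos_mul_atTop n hb).const_mul_left K).bound zero_lt_one
  filter_upwards [h] with x hx
  rw [one_mul, Real.norm_eq_abs, Real.norm_eq_abs, abs_of_pos (Real.exp_pos _)] at hx
  exact (le_abs_self _).trans hx

theorem Tails_rcp_pred {p : ℕ} (hp : p.Prime) : rcp (p - 1) = 1 / ((p : ℝ) - 1) := by
  rw [rcp, Nat.cast_sub hp.one_le, Nat.cast_one]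

theorem Tails_yy0 (m : ℕ) : yy m 0 = th (gp m) := rfl

theorem Tails_tv_iter {Y : ℝ} {P : ℕ → Prop} {m : ℕ} (hm : 0 < m) (hY : (yy m 0 : ℝ) ≤ Y) (d : ℕ)
    (hP : P (tl^[d] m)) : TV Y P (tl^[d] m).totient := by
  refine ⟨_, iter_pos hm d, rfl, le_trans ?_ hY, hP⟩
  rw [yy_iter]
  exact_mod_cast yy_anti hm (Nat.zero_le _)

theorem Tails_exp_le {x : ℝ} (hx : 3 ≤ x) : Real.exp (-x) ≤ 1 / 4 := by
  rw [Real.exp_neg, ← one_div]
  exact one_div_le_one_div_of_le (by norm_num) (by linarith [Real.add_one_le_exp x])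

/-- `φ m = e φ (tl m)` with `e ∈ {1, p - 1, p}`, `th p ≤ Y`; `Bd.mul_nat`, `bd_th`, `yy_anti` -/
theorem F_step {Y C : ℝ} (hY : 0 ≤ Y) {P : ℕ → Prop} (h : Bd (TV Y P) rcp C) :
    Bd (TV Y fun m => P (tl m)) rcp ((2 * Y + 3) * C) := by
  have h1 : Bd (fun a : ℕ => a = 1) rcp 1 :=
    Bd.of_finset {1} (fun a ha => by simp [ha]) (fun a _ => rcp_nonneg a) (by simp [rcp])
  have h2 : Bd (fun a : ℕ => ∃ p : ℕ, p.Prime ∧ (th p : ℝ) ≤ Y ∧ a = p - 1) rcp (Y + 1) :=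
    (bd_th hY).of_map (fun p => p - 1) (by
      rintro a ⟨p, hp, hY, rfl⟩
      exact ⟨p, ⟨hp, hY⟩, rfl, (Tails_rcp_pred hp).le⟩)
  have h3 : Bd (fun a : ℕ => a.Prime ∧ (th a : ℝ) ≤ Y) rcp (Y + 1) :=
    (bd_th hY).mono (fun _ h => h) (fun a ha => by
      have : (2 : ℝ) ≤ a := by exact_mod_cast ha.1.two_le
      exact one_div_le_one_div_of_le (by linarith) (by linarith)) le_rfl
  refine (Bd.mul_nat id ((h1.or h2).or h3) h ?_).mono (fun _ h => h) (fun _ _ => le_rfl)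
    (le_of_eq (by ring))
  rintro w ⟨m, hm, rfl, hy, hP⟩
  have hb : TV Y P (tl m).totient := Tails_tv_iter hm hy 1 hP
  rcases (Nat.succ_le_of_lt hm).eq_or_lt with h0 | h0
  · refine ⟨1, _, Or.inl (Or.inl rfl), hb, ?_⟩
    rw [← h0]
    simp [tl_one]
  · by_cases hd : gp m ∣ tl m
    · exact ⟨gp m, _, Or.inr ⟨gp_prime h0, hy⟩, hb, totient_of_dvd h0 hd⟩
    · exact ⟨gp m - 1, _, Or.inl (Or.inr ⟨gp m, gp_prime h0, hy, rfl⟩), hb, totient_of_not_dvd h0 hd⟩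

theorem F_iter {Y C : ℝ} (hY : 0 ≤ Y) {P : ℕ → Prop} (h : Bd (TV Y P) rcp C) (d : ℕ) :
    Bd (TV Y fun m => P (tl^[d] m)) rcp ((2 * Y + 3) ^ d * C) := by
  induction d with
  | zero => simpa using h
  | succ d ih =>
    rw [pow_succ', mul_assoc]
    exact F_step hY ih

/-- repeated top prime: `totient_rep`, `bd_big_primes` with `u = ξ`; otherwise `totient_of_not_dvd`, `abn_sum` -/
theorem bad_mass : ∀ᶠ ξ : ℝ in atTop, ∀ F₀ : ℝ, Bd (TV (ξ ^ 9) fun _ => True) rcp F₀ →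
    Bd (TV (ξ ^ 9) (Bad ξ)) rcp (2 * Real.exp (-ξ ^ 2) * F₀) := by
  obtain ⟨C, hC⟩ := bd_big_primes
  filter_upwards [abn_sum, Tails_ev 2 (3 * Real.exp C) zero_lt_one, eventually_ge_atTop 1]
    with ξ ha hb h1 F₀ hF
  have a1 : Bd (fun p : ℕ => p.Prime ∧ (th p : ℝ) ≤ ξ ^ 9 ∧ ¬ Normal (ξ ^ 6) p)
      (fun p => rcp (p - 1)) (Real.exp (-ξ ^ 2)) :=
    ha.mono (fun _ h => h) (fun p hp => (Tails_rcp_pred hp.1).le) le_rfl
  have a2 : Bd (fun p : ℕ => p.Prime ∧ ξ ≤ th p) (fun p => rcp (p * (p - 1)))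
      (2 * Real.exp (-Real.exp (ξ - C))) :=
    (hC ξ).mono (fun _ h => h) (fun p hp => by
      rw [rcp, Nat.cast_mul, Nat.cast_sub hp.1.one_le, Nat.cast_one]) le_rfl
  have a3 : Bd (fun p : ℕ => p.Prime ∧ ξ ≤ th p) (fun p => rcp (p * p))
      (2 * Real.exp (-Real.exp (ξ - C))) :=
    (hC ξ).mono (fun _ h => h) (fun p hp => by
      have : (2 : ℝ) ≤ p := by exact_mod_cast hp.1.two_le
      rw [rcp, Nat.cast_mul]
      exact one_div_le_one_div_of_le (mul_pos (by linarith) (by linarith)) (by nlinarith)) le_rfl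
  have b1 := Bd.mul_nat _ a1 hF fun _ h => h
  have b2 := Bd.mul_nat _ a2 hF fun _ h => h
  have b3 := Bd.mul_nat _ a3 hF fun _ h => h
  refine (b1.or (b2.or b3)).mono ?_ (fun _ _ => le_rfl) ?_
  · rintro w ⟨m, hm, rfl, hy, hξ, hbad⟩
    have h0 : 1 < m := one_lt_of_yy_pos (i := 0) hm (by
      have : (0 : ℝ) < yy m 0 := by linarith
      exact_mod_cast this)
    by_cases hd : gp m ∣ tl m
    · have hb : TV (ξ ^ 9) (fun _ => True) (tl (tl m)).totient := Tails_tv_iter hm hy 2 trivial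
      rcases totient_rep h0 hd with e | e
      · exact Or.inr (Or.inl ⟨gp m, _, ⟨gp_prime h0, hξ.le⟩, hb, e⟩)
      · exact Or.inr (Or.inr ⟨gp m, _, ⟨gp_prime h0, hξ.le⟩, hb, e⟩)
    · exact Or.inl ⟨gp m, _, ⟨gp_prime h0, hy, hbad.resolve_right hd⟩,
        Tails_tv_iter hm hy 1 trivial, totient_of_not_dvd h0 hd⟩
  · have c1 : ξ ^ 2 + 3 * 1 - 1 ≤ Real.exp (ξ - C) := by
      rw [Real.exp_sub, le_div_iff₀ (Real.exp_pos C)]
      rw [one_mul] at hb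
      refine le_trans ?_ hb
      have : 1 ≤ ξ ^ 2 := one_le_pow₀ h1
      nlinarith [Real.exp_pos C]
    have c2 : Real.exp (-Real.exp (ξ - C)) ≤ Real.exp (-ξ ^ 2) * Real.exp (-2) := by
      rw [← Real.exp_add, Real.exp_le_exp]
      linarith
    have c3 : Real.exp (-2) ≤ 1 / 4 := by
      have e1 : Real.exp 2 = Real.exp 1 * Real.exp 1 := by rw [← Real.exp_add]; norm_num
      have e2 := Real.add_one_le_exp 1
      rw [Real.exp_neg, ← one_div]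
      exact one_div_le_one_div_of_le (by norm_num) (by nlinarith)
    have c4 := c2.trans (mul_le_mul_of_nonneg_left c3 (Real.exp_pos _).le)
    have := mul_le_mul_of_nonneg_right c4 hF.nonneg
    linarith

/-- `Bd.biUnion`, `F_iter`, `bad_mass`; `(D+1) (2ξ^9+3)^D 2 ≤ exp (ξ²/2)` -/
theorem T1 : ∀ᶠ ξ : ℝ in atTop, ∀ (D : ℕ) (F₀ : ℝ), ((D : ℝ) + 1) ^ 4 ≤ ξ →
    Bd (TV (ξ ^ 9) fun _ => True) rcp F₀ →
    Bd (TV (ξ ^ 9) fun m => ∃ d ≤ D, Bad ξ (tl^[d] m)) rcp (Real.exp (-(ξ ^ 2 / 2)) * F₀) := by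
  filter_upwards [bad_mass, Tails_ev 9 5 one_half_pos, eventually_ge_atTop 1]
    with ξ ha hb h1 D F₀ hD hF
  have h9 : 1 ≤ ξ ^ 9 := one_le_pow₀ h1
  have hu := Bd.biUnion (range (D + 1)) fun d _ => F_iter (by linarith) (ha F₀ hF) d
  refine hu.mono ?_ (fun _ _ => le_rfl) ?_
  · rintro w ⟨m, hm, rfl, hy, d, hd, hbad⟩
    exact ⟨d, mem_range.2 (by omega), m, hm, rfl, hy, hbad⟩
  · have hD1 : (D : ℝ) + 1 ≤ ξ :=
      (le_self_pow₀ (by linarith [(Nat.cast_nonneg D : (0 : ℝ) ≤ D)]) (by norm_num)).trans hD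
    have hq : 1 ≤ 2 * ξ ^ 9 + 3 := by linarith
    have h0 := hF.nonneg
    have c1 : ∑ d ∈ range (D + 1), (2 * ξ ^ 9 + 3) ^ d ≤ (D + 1) * (2 * ξ ^ 9 + 3) ^ D := by
      simpa using sum_le_card_nsmul (range (D + 1)) (fun d => (2 * ξ ^ 9 + 3) ^ d) _
        fun d hd => pow_le_pow_right₀ hq (Nat.lt_succ_iff.1 (mem_range.1 hd))
    have c2 : 2 * ((D + 1) * (2 * ξ ^ 9 + 3) ^ D) ≤ (2 * ξ ^ 9 + 3) ^ (D + 1) := by
      have : ξ ≤ ξ ^ 9 := le_self_pow₀ h1 (by norm_num)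
      rw [pow_succ' _ D, ← mul_assoc]
      exact mul_le_mul_of_nonneg_right (by linarith) (by positivity)
    have c3 : (2 * ξ ^ 9 + 3) ^ (D + 1) ≤ Real.exp (ξ ^ 2 / 2) := by
      refine (pow_le_pow_left₀ (by linarith) (show _ ≤ Real.exp (1 / 2 * ξ) by linarith) _).trans ?_
      rw [← Real.exp_nat_mul, Real.exp_le_exp]
      push_cast
      nlinarith
    have c4 : Real.exp (-(ξ ^ 2 / 2)) = Real.exp (ξ ^ 2 / 2) * Real.exp (-ξ ^ 2) := by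
      rw [← Real.exp_add]
      congr 1
      ring
    rw [← sum_mul, c4]
    have c5 : 2 * ∑ d ∈ range (D + 1), (2 * ξ ^ 9 + 3) ^ d ≤ Real.exp (ξ ^ 2 / 2) := by linarith
    have := mul_le_mul_of_nonneg_right c5 (mul_nonneg (Real.exp_pos (-ξ ^ 2)).le h0)
    linarith

theorem Tails_capSum_le {ξ : ℝ} (hξ : 0 ≤ ξ) {m D' D : ℕ} (hD : D' ≤ D)
    (h : ∀ d, D' < d → d ≤ D → (yy m d : ℝ) ≤ ξ) : capSum D m ≤ capSum D' m + (D : ℝ) ^ 2 * ξ := by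
  induction D, hD using Nat.le_induction with
  | base => exact le_add_of_nonneg_right (by positivity)
  | succ D hD ih =>
    have h1 := ih fun d h1 h2 => h d h1 (by omega)
    have h2 := h (D + 1) (by omega) le_rfl
    have h3 := mul_le_mul (aCoef_le_self (D + 1)) h2 (Nat.cast_nonneg _) (Nat.cast_nonneg _)
    unfold capSum at h1 ⊢
    rw [sum_Icc_succ_top (by omega)]
    push_cast at h3 ⊢
    have : 0 ≤ (D : ℝ) * ξ := by positivity
    nlinarith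

/-- Let `D'` be the largest `d ≤ D` with `ξ < yy m d` (exists, else `capSum D m ≤ D² ξ`); `Chain (D'+1) m`,
`decomp`, `Chain.totient`; `capSum D m ≤ capSum D' m + D² ξ`; take `a = ∏_{d ≤ D'} (pr m d - 1)`. -/
theorem cap_decomp : ∀ᶠ ξ : ℝ in atTop, ∀ D m : ℕ, ((D : ℝ) + 1) ^ 4 ≤ ξ → 0 < m →
    (yy m 0 : ℝ) ≤ ξ ^ 9 → yy m 0 + ξ ^ 7 / 2 < capSum D m → (∀ d ≤ D, ¬ Bad ξ (tl^[d] m)) →
    ∃ a b : ℕ, m.totient = a * b ∧ TV (ξ ^ 9) (fun _ => True) b ∧ CapBad ξ a ∧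
      (gp m - 1) ∣ a ∧
      ∀ a' r : ℕ, r.Prime → a = a' * r → CapBad ξ a' := by
  filter_upwards [eventually_ge_atTop 2] with ξ h2 D m hD hm hy hcap hbad
  classical
  have hD0 : (0 : ℝ) ≤ D := Nat.cast_nonneg D
  have hD2 : (D : ℝ) ^ 2 * ξ ≤ ξ ^ 7 / 6 := by
    have a1 : (D : ℝ) ^ 2 ≤ ξ := by
      refine le_trans ?_ hD
      calc (D : ℝ) ^ 2 ≤ ((D : ℝ) + 1) ^ 2 := by gcongr; linarith
        _ ≤ ((D : ℝ) + 1) ^ 4 := pow_le_pow_right₀ (by linarith) (by norm_num)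
    have a2 : (2 : ℝ) ^ 5 ≤ ξ ^ 5 := by gcongr
    have a3 := mul_le_mul_of_nonneg_right a1 (show 0 ≤ ξ by linarith)
    have a4 := mul_le_mul_of_nonneg_right a2 (sq_nonneg ξ)
    nlinarith [sq_nonneg ξ]
  have h7 : 0 ≤ ξ ^ 7 := by positivity
  have h0 : ξ < yy m 0 := by
    by_contra hc
    have a1 := Tails_capSum_le (m := m) (show 0 ≤ ξ by linarith) (Nat.zero_le D) fun d _ _ =>
      le_trans (by exact_mod_cast yy_anti hm (Nat.zero_le d)) (not_lt.1 hc)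
    have a2 : capSum 0 m = 0 := by simp [capSum]
    have a3 : (0 : ℝ) ≤ yy m 0 := Nat.cast_nonneg _
    linarith
  obtain ⟨D', hD', hs, hg⟩ : ∃ D' ≤ D, ξ < yy m D' ∧ ∀ d, D' < d → d ≤ D → (yy m d : ℝ) ≤ ξ :=
    ⟨Nat.findGreatest (fun d => ξ < yy m d) D, Nat.findGreatest_le D,
      Nat.findGreatest_spec (P := fun d => ξ < yy m d) (Nat.zero_le D) h0,
      fun d h1 h2 => not_lt.1 (Nat.findGreatest_is_greatest h1 h2)⟩
  have hlt : ∀ d ≤ D', ξ < yy m d := fun d hd =>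
    hs.trans_le (by exact_mod_cast yy_anti hm hd)
  have hgood : ∀ d ≤ D', Normal (ξ ^ 6) (pr m d) ∧ ¬ pr m d ∣ tl^[d + 1] m := by
    intro d hd
    have a1 := hbad d (hd.trans hD')
    rw [Bad, yy_iter, not_and, not_or, not_not, ← iter_succ] at a1
    exact a1 (hlt d hd)
  have hch : Chain (D' + 1) m := ⟨hm, fun i hi => ⟨one_lt_of_yy_pos hm (by
    have : (0 : ℝ) < yy m i := by linarith [hlt i (by omega)]
    exact_mod_cast this), (hgood i (by omega)).2⟩⟩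
  have hdec := decomp hch fun d hd => (hgood d hd).1
  have hcb : ∀ a, CapSet D' (yy m) ((D' + 1) * ξ ^ 6 + 1) a → CapBad ξ a := by
    intro a ha
    refine ⟨D', yy m, le_trans ?_ hD, fun d _ => yy_anti hm (Nat.le_succ d), hy, ?_, ha⟩
    · gcongr
    · have := Tails_capSum_le (show 0 ≤ ξ by linarith) hD' hg
      unfold capSum at this hcap
      linarith
  refine ⟨_, _, hch.totient, Tails_tv_iter hm hy _ trivial, hcb _ (hdec.mono (by linarith)),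
    dvd_prod_of_mem (fun d => pr m d - 1) (a := 0) (mem_range.2 (by omega)),
    fun a' r hr e => hcb _ (CapSet.div hr (e ▸ hdec))⟩

theorem Tails_rec : ∀ᶠ ξ : ℝ in atTop, ∀ C : ℝ, Bd (TV (0.9 * ξ ^ 9) fun _ => True) rcp C →
    Bd (TV (ξ ^ 9) fun _ => True) rcp (2 * (2 * ξ ^ 9 + 3) ^ 2 * C) := by
  filter_upwards [T1, cap_decomp, capBad_mass, eventually_ge_atTop 81] with ξ h1 h2 h3 hξ C hC
  have h9 : 0 ≤ ξ ^ 9 := by positivity
  have h81 : (((2 : ℕ) : ℝ) + 1) ^ 4 ≤ ξ := by norm_num; exact hξ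
  obtain ⟨F, hF, hmin⟩ := (F_triv h9).exists_least
  have a0 : Bd (TV (ξ ^ 9) fun n => (yy n 0 : ℝ) ≤ 0.9 * ξ ^ 9) rcp C :=
    hC.mono (fun w ⟨m, b1, b2, _, b4⟩ => ⟨m, b1, b2, b4, trivial⟩) (fun _ _ => le_rfl) le_rfl
  have a1 := F_iter h9 a0 2
  have a2 := h1 2 F h81 hF
  have a3 := Bd.mul_nat id h3 hF fun _ h => h
  have a4 : Bd (TV (ξ ^ 9) fun _ => True) rcp _ := (a1.or (a2.or a3)).mono (by
    rintro w ⟨m, hm, rfl, hy, -⟩
    by_cases c1 : (yy (tl^[2] m) 0 : ℝ) ≤ 0.9 * ξ ^ 9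
    · exact Or.inl ⟨m, hm, rfl, hy, c1⟩
    by_cases c2 : ∃ d ≤ 2, Bad ξ (tl^[d] m)
    · exact Or.inr (Or.inl ⟨m, hm, rfl, hy, c2⟩)
    push Not at c1 c2
    rw [yy_iter] at c1
    have c3 : (yy m 2 : ℝ) ≤ yy m 1 := by exact_mod_cast yy_anti hm one_le_two
    have c4 : capSum 2 m = aCoef 1 * yy m 1 + aCoef 2 * yy m 2 := by
      unfold capSum
      rw [sum_Icc_succ_top (by norm_num)]
      simp
    have c5 := mul_le_mul aCoef_one.1.le (c1.le.trans c3) (by positivity) (aCoef_pos le_rfl).le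
    have c6 := mul_le_mul aCoef_two.le c1.le (by positivity) (aCoef_pos one_le_two).le
    have c7 : (81 : ℝ) ^ 2 * ξ ^ 7 ≤ ξ ^ 2 * ξ ^ 7 := by gcongr
    have c8 : 0 < ξ ^ 7 := by positivity
    obtain ⟨a, b, e, hb, ha, -⟩ := h2 2 m h81 hm hy (by rw [c4]; nlinarith) c2
    exact Or.inr (Or.inr ⟨a, b, ha, hb, e⟩)) (fun _ _ => le_rfl) le_rfl
  have b1 := hmin _ a4
  have b2 := Tails_exp_le (x := ξ ^ 2 / 2) (by nlinarith)
  have b3 := Tails_exp_le (x := ξ ^ 7 / 4) (by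
    have : ξ ≤ ξ ^ 7 := le_self_pow₀ (by linarith) (by norm_num)
    linarith)
  have b4 := mul_le_mul_of_nonneg_right b2 hF.nonneg
  have b5 := mul_le_mul_of_nonneg_right b3 hF.nonneg
  exact hF.mono (fun _ h => h) (fun _ _ => le_rfl) (by linarith)

/-- Let `F` be the least bound at `Y = ξ^9` (`Bd.exists_least`, `F_triv`).  Either `yy m 2 ≤ 0.9 Y` (`F_iter` with
`d = 2`), or some level `d ≤ 2` is `Bad` (`T1`), or `capSum 2 m ≥ (a_1 + a_2) 0.9 Y > 1.16 Y` and `cap_decomp`,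
`capBad_mass` apply: `F ≤ (2Y+3)² C + F/2`. -/
theorem F_rec : ∀ᶠ Y : ℝ in atTop, ∀ C : ℝ, Bd (TV (0.9 * Y) fun _ => True) rcp C →
    Bd (TV Y fun _ => True) rcp (2 * (2 * Y + 3) ^ 2 * C) := by
  filter_upwards [(tendsto_rpow_atTop (y := ((9 : ℕ) : ℝ)⁻¹) (by norm_num)).eventually Tails_rec,
    eventually_ge_atTop 0] with Y h hY
  rwa [Real.rpow_inv_natCast_pow hY (by norm_num)] at h

/-- Choose `Y₁` with `2 (2Y+3)² ≤ exp ((1 - 0.9^{1/20}) Y^{1/20})` for `Y ≥ Y₁`; by induction on `n`,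
`F(Y) ≤ exp (Y₁ + 1) exp (Y^{1/20})` for `0 ≤ Y ≤ Y₁/0.9^n`. -/
theorem F_good : ∀ᶠ Y : ℝ in atTop,
    Bd (TV Y fun _ => True) rcp (Real.exp (Y ^ (1 / 18 : ℝ))) := by
  have hc : (0.9 : ℝ) ^ (1 / 20 : ℝ) < 1 := Real.rpow_lt_one (by norm_num) (by norm_num) (by norm_num)
  have h20 := tendsto_rpow_atTop (y := (1 / 20 : ℝ)) (by norm_num)
  obtain ⟨Y₁, hY₁⟩ := eventually_atTop.1 (F_rec.and ((h20.eventually
    (Tails_ev 40 50 (sub_pos.2 hc))).and (eventually_ge_atTop 1)))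
  have hY0 : 1 ≤ Y₁ := (hY₁ Y₁ le_rfl).2.2
  have base : ∀ Y : ℝ, 0 ≤ Y → Y ≤ Y₁ →
      Bd (TV Y fun _ => True) rcp (Real.exp (Y₁ + 1 + Y ^ (1 / 20 : ℝ))) := fun Y h0 h1 =>
    (F_triv h0).mono (fun _ h => h) (fun _ _ => le_rfl)
      (Real.exp_le_exp.2 (by linarith [Real.rpow_nonneg h0 (1 / 20 : ℝ)]))
  have key : ∀ n : ℕ, ∀ Y : ℝ, 0 ≤ Y → 0.9 ^ n * Y ≤ Y₁ →
      Bd (TV Y fun _ => True) rcp (Real.exp (Y₁ + 1 + Y ^ (1 / 20 : ℝ))) := by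
    intro n
    induction n with
    | zero => intro Y h0 h1; exact base Y h0 (by simpa using h1)
    | succ n ih =>
      intro Y h0 h1
      rcases le_total Y Y₁ with h | h
      · exact base Y h0 h
      obtain ⟨a1, a2, a3⟩ := hY₁ Y h
      refine (a1 _ (ih (0.9 * Y) (by positivity) (by rwa [← mul_assoc, ← pow_succ]))).mono
        (fun _ h => h) (fun _ _ => le_rfl) ?_
      have e1 : (Y ^ (1 / 20 : ℝ)) ^ 40 = Y ^ 2 := by
        rw [← Real.rpow_natCast, ← Real.rpow_mul h0]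
        norm_num
      rw [e1] at a2
      have a4 : 2 * (2 * Y + 3) ^ 2 ≤ Real.exp ((1 - 0.9 ^ (1 / 20 : ℝ)) * Y ^ (1 / 20 : ℝ)) := by
        refine le_trans ?_ a2
        nlinarith
      refine (mul_le_mul_of_nonneg_right a4 (Real.exp_pos _).le).trans_eq ?_
      rw [← Real.exp_add, Real.mul_rpow (by norm_num) h0]
      congr 1
      ring
  filter_upwards [h20.eventually_ge_atTop (Y₁ + 1),
    (tendsto_rpow_atTop (y := (1 / 180 : ℝ)) (by norm_num)).eventually_ge_atTop 2,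
    eventually_gt_atTop 0] with Y h1 h2 h0
  obtain ⟨n, hn⟩ := exists_pow_lt_of_lt_one (div_pos (show 0 < Y₁ by linarith) h0)
    (show (0.9 : ℝ) < 1 by norm_num)
  refine (key n Y h0.le ((lt_div_iff₀ h0).1 hn).le).mono (fun _ h => h) (fun _ _ => le_rfl) ?_
  have e : Y ^ (1 / 18 : ℝ) = Y ^ (1 / 20 : ℝ) * Y ^ (1 / 180 : ℝ) := by
    rw [← Real.rpow_add h0]
    norm_num
  rw [Real.exp_le_exp, e]
  nlinarith

theorem F_xi : ∀ᶠ ξ : ℝ in atTop, Bd (TV (ξ ^ 9) fun _ => True) rcp (Real.exp ξ) := by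
  filter_upwards [(tendsto_pow_atTop (n := 9) (by norm_num)).eventually F_good,
    eventually_ge_atTop 1] with ξ h h1
  refine h.mono (fun _ h => h) (fun _ _ => le_rfl) ?_
  rw [Real.exp_le_exp, ← Real.rpow_natCast, ← Real.rpow_mul (by linarith)]
  simpa using Real.rpow_le_rpow_of_exponent_le h1
    (show ((9 : ℕ) : ℝ) * (1 / 18) ≤ 1 by norm_num)

end Crest.Agent.R20
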