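import Crest.Agent.R20.Bd
import Crest.Agent.R29.Primes

/-!
# R20/Theta: the level function `th`
-/

set_option autoImplicit false

open Finset Filter Topology Crest.NumberTheoryR.TotientScale

namespace Crest.Agent.R20

theorem Theta_m2 (n : ℕ) :
    ∑ p ∈ (range (n + 3)).filter Nat.Prime, 1 / (p : ℝ) -
      (∑ p ∈ (range (n + 3)).filter Nat.Prime, Real.log p / p) / Real.log ((n : ℝ) + 2) ≤
      Real.log (Real.log ((n : ℝ) + 2)) - 2 / Real.log ((n : ℝ) + 2) +
        (2 / Real.log 2 - Real.log (Real.log 2)) := by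
  induction n with
  | zero =>
    have h : (range (0 + 3)).filter Nat.Prime = {2} := by decide
    have h2 : 0 < Real.log 2 := Real.log_pos (by norm_num)
    rw [h]
    simp only [sum_singleton, Nat.cast_ofNat, CharP.cast_eq_zero, zero_add]
    have : Real.log 2 / 2 / Real.log 2 = 1 / 2 := by field_simp
    rw [this]; linarith
  | succ n ih =>
    have hA := R29.primes_mertens_upper_nat (n := n + 2) (by omega)
    have hA' : ∑ p ∈ (range (n + 3)).filter Nat.Prime, Real.log p / p ≤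
        Real.log ((n : ℝ) + 2) + 2 := by
      have : ((n + 2 : ℕ) : ℝ) = (n : ℝ) + 2 := by push_cast; ring
      rw [this] at hA
      exact hA
    set A := ∑ p ∈ (range (n + 3)).filter Nat.Prime, Real.log p / p with hAdef
    set S := ∑ p ∈ (range (n + 3)).filter Nat.Prime, 1 / (p : ℝ) with hSdef
    have hn0 : (0 : ℝ) ≤ n := Nat.cast_nonneg n
    set a := Real.log ((n : ℝ) + 2) with ha
    have hcast : ((n + 1 : ℕ) : ℝ) + 2 = (n : ℝ) + 3 := by push_cast; ring
    rw [hcast]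
    set b := Real.log ((n : ℝ) + 3) with hb
    have ha0 : 0 < a := Real.log_pos (by linarith)
    have hab : a ≤ b := Real.log_le_log (by linarith) (by linarith)
    have hb0 : 0 < b := lt_of_lt_of_le ha0 hab
    have key : ∑ p ∈ (range (n + 1 + 3)).filter Nat.Prime, 1 / (p : ℝ) -
        (∑ p ∈ (range (n + 1 + 3)).filter Nat.Prime, Real.log p / p) / b = S - A / b := by
      have e : n + 1 + 3 = (n + 3) + 1 := by ring
      rw [e, range_add_one, filter_insert]
      split_ifs with hp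
      · rw [sum_insert (by simp), sum_insert (by simp)]
        have e2 : ((n + 3 : ℕ) : ℝ) = (n : ℝ) + 3 := by push_cast; ring
        rw [e2, ← hb, ← hAdef, ← hSdef]
        field_simp
        ring
      · rfl
    rw [key]
    have h1 : 0 ≤ 1 / a - 1 / b := sub_nonneg.2 (one_div_le_one_div_of_le ha0 hab)
    have h2 : A * (1 / a - 1 / b) ≤ (a + 2) * (1 / a - 1 / b) := mul_le_mul_of_nonneg_right hA' h1
    have h3 : Real.log (a / b) ≤ a / b - 1 := Real.log_le_sub_one_of_pos (div_pos ha0 hb0)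
    rw [Real.log_div ha0.ne' hb0.ne'] at h3
    have h4 : (a + 2) * (1 / a - 1 / b) = 1 - a / b + 2 / a - 2 / b := by field_simp; ring
    have h5 : A * (1 / a - 1 / b) = A / a - A / b := by ring
    linarith

/-- Mertens' second theorem, upper bound.  With `N = ⌊y⌋₊`,
`1/log p = 1/log N + ∑_{n ∈ Ico p N} (1/log n - 1/log (n+1))`; exchange the sums, use `R29.mertens_upper`
and `log n (1/log n - 1/log (n+1)) = 1 - log n/log (n+1) ≤ log log (n+1) - log log n`; telescope. -/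
theorem mertens2_upper : ∃ C : ℝ, ∀ y : ℝ, 2 ≤ y →
    ∑ p ∈ R29.primesUpTo y, 1 / (p : ℝ) ≤ Real.log (Real.log y) + C := by
  refine ⟨2 / Real.log 2 - Real.log (Real.log 2) + 1, fun y hy => ?_⟩
  have hN : 2 ≤ ⌊y⌋₊ := Nat.le_floor (by exact_mod_cast hy)
  obtain ⟨n, hn⟩ : ∃ n, ⌊y⌋₊ = n + 2 := ⟨⌊y⌋₊ - 2, by omega⟩
  have h1 := Theta_m2 n
  have hA := R29.primes_mertens_upper_nat (n := n + 2) (by omega)
  have hA' : ∑ p ∈ (range (n + 3)).filter Nat.Prime, Real.log p / p ≤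
      Real.log ((n : ℝ) + 2) + 2 := by
    have : ((n + 2 : ℕ) : ℝ) = (n : ℝ) + 2 := by push_cast; ring
    rw [this] at hA
    exact hA
  have hn0 : (0 : ℝ) ≤ n := Nat.cast_nonneg n
  have ha0 : 0 < Real.log ((n : ℝ) + 2) := Real.log_pos (by linarith)
  have h2 : (∑ p ∈ (range (n + 3)).filter Nat.Prime, Real.log p / p) / Real.log ((n : ℝ) + 2) ≤
      1 + 2 / Real.log ((n : ℝ) + 2) := by
    rw [div_le_iff₀ ha0]
    have : (1 + 2 / Real.log ((n : ℝ) + 2)) * Real.log ((n : ℝ) + 2) =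
        Real.log ((n : ℝ) + 2) + 2 := by field_simp
    rw [this]; exact hA'
  have h3 : (n : ℝ) + 2 ≤ y := by
    have := Nat.floor_le (a := y) (by linarith)
    rw [hn] at this
    push_cast at this
    exact this
  have h4 : Real.log (Real.log ((n : ℝ) + 2)) ≤ Real.log (Real.log y) :=
    Real.log_le_log ha0 (Real.log_le_log (by linarith) h3)
  have h5 : R29.primesUpTo y = (range (n + 3)).filter Nat.Prime := by
    unfold R29.primesUpTo; rw [hn]
  rw [h5]
  linarith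

theorem Theta_inv_nonneg {q : ℕ} (hq : q.Prime) : 0 ≤ 1 / ((q : ℝ) - 1) := by
  have : (2 : ℝ) ≤ q := by exact_mod_cast hq.two_le
  exact div_nonneg zero_le_one (by linarith)

theorem Theta_inv_le_one {q : ℕ} (hq : q.Prime) : 1 / ((q : ℝ) - 1) ≤ 1 := by
  have : (2 : ℝ) ≤ q := by exact_mod_cast hq.two_le
  rw [div_le_one (by linarith)]
  linarith

theorem Theta_uu_nonneg (n : ℕ) : 0 ≤ uu n :=
  sum_nonneg fun _ hq => Theta_inv_nonneg (mem_filter.1 hq).2

theorem Theta_uu_mono : Monotone uu := by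
  intro m n hmn
  refine sum_le_sum_of_subset_of_nonneg (filter_subset_filter _ (range_mono hmn)) ?_
  intro q hq _
  exact Theta_inv_nonneg (mem_filter.1 hq).2

theorem Theta_th_eq {n : ℕ} (hn : 2 ≤ n) : th n = ⌊uu n⌋₊ + 1 := by
  unfold th
  rw [if_neg (by omega)]

theorem Theta_uu_lt {n : ℕ} (hn : 2 ≤ n) : uu n < th n := by
  rw [Theta_th_eq hn]
  push_cast
  exact Nat.lt_floor_add_one _

theorem Theta_th_le {n : ℕ} (hn : 2 ≤ n) : (th n : ℝ) ≤ uu n + 1 := by
  rw [Theta_th_eq hn]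
  push_cast
  linarith [Nat.floor_le (Theta_uu_nonneg n)]

theorem th_mono : Monotone th := by
  intro m n hmn
  by_cases hm : m < 2
  · have : th m = 0 := by unfold th; rw [if_pos hm]
    rw [this]; exact Nat.zero_le _
  · rw [Theta_th_eq (by omega), Theta_th_eq (n := n) (by omega)]
    exact Nat.succ_le_succ (Nat.floor_le_floor (Theta_uu_mono hmn))

theorem th_zero : th 0 = 0 := by
  simp [th]

theorem th_one : th 1 = 0 := by
  simp [th]

theorem th_pos {n : ℕ} (hn : 2 ≤ n) : 1 ≤ th n := by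
  rw [Theta_th_eq hn]; omega

theorem Theta_uu_le (n : ℕ) : uu (n + 2) ≤ n := by
  induction n with
  | zero =>
    have h : (range (0 + 2)).filter Nat.Prime = ∅ := by decide
    unfold uu
    rw [h]; simp
  | succ n ih =>
    unfold uu at ih ⊢
    have e : n + 1 + 2 = (n + 2) + 1 := by ring
    rw [e, range_add_one, filter_insert]
    push_cast
    split_ifs with hp
    · rw [sum_insert (by simp)]
      linarith [Theta_inv_le_one hp]
    · linarith

/-- `uu n ≤ #{primes < n} ≤ n - 2` -/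
theorem th_lt_self {n : ℕ} (hn : 0 < n) : th n < n := by
  by_cases h2 : n < 2
  · have : th n = 0 := by unfold th; rw [if_pos h2]
    omega
  · obtain ⟨m, rfl⟩ : ∃ m, n = m + 2 := ⟨n - 2, by omega⟩
    rw [Theta_th_eq (by omega)]
    have : ⌊uu (m + 2)⌋₊ ≤ m := Nat.floor_le_of_le (Theta_uu_le m)
    omega

/-- `1/(q-1) - 1/q = 1/(q(q-1))` sums to at most `1`; `mertens2_upper`, `R29.sum_inv_primes_ge`;
the prime `q = n` itself contributes at most `1/2`. -/
theorem th_loglog : ∃ C : ℝ, 0 ≤ C ∧ ∀ n : ℕ, 2 ≤ n → |(th n : ℝ) - Real.log (Real.log n)| ≤ C := by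
  obtain ⟨C, hC⟩ := mertens2_upper
  refine ⟨|C| + 3, by positivity, fun n hn => ?_⟩
  have hn' : (2 : ℝ) ≤ n := by exact_mod_cast hn
  have h1 := hC n hn'
  have h2 := R29.sum_inv_primes_ge hn'
  have h3 : R29.primesUpTo n = (range (n + 1)).filter Nat.Prime := by
    unfold R29.primesUpTo; rw [Nat.floor_natCast]
  rw [h3] at h1 h2
  set S := ∑ p ∈ (range n).filter Nat.Prime, 1 / (p : ℝ) with hS
  have h4 : S ≤ ∑ p ∈ (range (n + 1)).filter Nat.Prime, 1 / (p : ℝ) :=
    sum_le_sum_of_subset_of_nonneg (filter_subset_filter _ (range_mono (Nat.le_succ n)))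
      fun p _ _ => by positivity
  have h5 : ∑ p ∈ (range (n + 1)).filter Nat.Prime, 1 / (p : ℝ) ≤ S + 1 := by
    rw [range_add_one, filter_insert]
    split_ifs with hp
    · rw [sum_insert (by simp)]
      have : 1 / (n : ℝ) ≤ 1 := by rw [div_le_one (by linarith)]; linarith
      linarith
    · linarith
  have h6 : uu n = S + ∑ p ∈ (range n).filter Nat.Prime, 1 / ((p : ℝ) * (p - 1)) := by
    unfold uu
    rw [hS, ← sum_add_distrib]
    refine sum_congr rfl fun p hp => ?_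
    have : (2 : ℝ) ≤ p := by exact_mod_cast (mem_filter.1 hp).2.two_le
    have h1 : (p : ℝ) - 1 ≠ 0 := by linarith
    have h2 : (p : ℝ) ≠ 0 := by linarith
    field_simp
    ring
  have hnn : ∀ k : ℕ, 2 ≤ k → 0 ≤ 1 / ((k : ℝ) * (k - 1)) := fun k hk => by
    have : (2 : ℝ) ≤ k := by exact_mod_cast hk
    exact div_nonneg zero_le_one (mul_nonneg (by linarith) (by linarith))
  have h7 : 0 ≤ ∑ p ∈ (range n).filter Nat.Prime, 1 / ((p : ℝ) * (p - 1)) :=
    sum_nonneg fun p hp => hnn p (mem_filter.1 hp).2.two_le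
  have h8 : ∑ p ∈ (range n).filter Nat.Prime, 1 / ((p : ℝ) * (p - 1)) ≤ 1 := by
    have h9 := R29.primes_sum_inv_mul_le n
    have hsub : (range n).filter Nat.Prime ⊆ Ico 2 (n + 2) := by
      intro p hp
      rw [mem_filter, mem_range] at hp
      exact mem_Ico.2 ⟨hp.2.two_le, by omega⟩
    have h10 := sum_le_sum_of_subset_of_nonneg hsub
      (f := fun k : ℕ => 1 / ((k : ℝ) * (k - 1))) fun k hk _ => hnn k (mem_Ico.1 hk).1
    have : 0 ≤ 1 / ((n : ℝ) + 1) := by positivity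
    linarith
  have h11 := Theta_uu_lt hn
  have h12 := Theta_th_le hn
  rw [abs_le]
  constructor <;> linarith [le_abs_self C, abs_nonneg C]

theorem log_le_exp_th : ∃ C : ℝ, 0 ≤ C ∧ ∀ n : ℕ, 2 ≤ n →
    Real.log n ≤ Real.exp (th n + C) ∧ Real.exp (th n - C) ≤ Real.log n := by
  obtain ⟨C, hC0, hC⟩ := th_loglog
  refine ⟨C, hC0, fun n hn => ?_⟩
  have hn' : (2 : ℝ) ≤ n := by exact_mod_cast hn
  have h0 : 0 < Real.log n := Real.log_pos (by linarith)
  have h1 := abs_le.1 (hC n hn)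
  rw [← Real.exp_log h0]
  exact ⟨Real.exp_le_exp.2 (by linarith [h1.1]), Real.exp_le_exp.2 (by linarith [h1.2])⟩

theorem mem_PP {t q : ℕ} : q ∈ PP t ↔ q.Prime ∧ th q ≤ t := by
  have hfin : {q : ℕ | q.Prime ∧ th q ≤ t}.Finite := by
    obtain ⟨C, -, hC⟩ := log_le_exp_th
    refine (Set.finite_le_nat ⌊Real.exp (Real.exp (t + C))⌋₊).subset ?_
    rintro p ⟨hp, hpt⟩
    have h1 := (hC p hp.two_le).1
    have h2 : (th p : ℝ) ≤ t := by exact_mod_cast hpt
    have h3 : (0 : ℝ) < p := by exact_mod_cast hp.pos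
    refine Nat.le_floor ?_
    rw [← Real.exp_log h3]
    exact Real.exp_le_exp.2 (h1.trans (Real.exp_le_exp.2 (by linarith)))
  unfold PP
  rw [dif_pos hfin, Set.Finite.mem_toFinset]
  rfl

/-- `PP t` is the set of primes below the least prime `q*` with `t ≤ uu q*`, so the sum is `uu q*`. -/
theorem sum_PP_ge (t : ℕ) : (t : ℝ) ≤ ∑ q ∈ PP t, 1 / ((q : ℝ) - 1) := by
  classical
  have hex : ∃ q : ℕ, q.Prime ∧ q ∉ PP t := by
    obtain ⟨q, hq, hq'⟩ := Nat.infinite_setOfPred_prime.exists_notMem_finset (PP t)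
    exact ⟨q, hq, hq'⟩
  obtain ⟨hq, hq'⟩ := Nat.find_spec hex
  set q := Nat.find hex with hqdef
  have h1 : t + 1 ≤ th q := by
    by_contra h
    exact hq' (mem_PP.2 ⟨hq, by omega⟩)
  rw [Theta_th_eq hq.two_le] at h1
  have h2 : (t : ℝ) ≤ uu q := (Nat.le_floor_iff (Theta_uu_nonneg q)).1 (by omega)
  refine h2.trans (sum_le_sum_of_subset_of_nonneg ?_ fun p hp _ => Theta_inv_nonneg (mem_PP.1 hp).1)
  intro p hp
  rw [mem_filter, mem_range] at hp
  by_contra h
  exact Nat.find_min hex hp.1 ⟨hp.2, h⟩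

/-- if `q'` is the largest element of `PP t`, the sum is `uu q' + 1/(q'-1) < t + 1` -/
theorem sum_PP_le (t : ℕ) : ∑ q ∈ PP t, 1 / ((q : ℝ) - 1) ≤ t + 1 := by
  rcases (PP t).eq_empty_or_nonempty with h | h
  · rw [h, sum_empty]; positivity
  · set q := (PP t).max' h with hqdef
    have hq := mem_PP.1 ((PP t).max'_mem h)
    rw [← hqdef] at hq
    have hsub : PP t ⊆ insert q ((range q).filter Nat.Prime) := by
      intro p hp
      have h1 : p ≤ q := (PP t).le_max' p hp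
      rcases h1.eq_or_lt with h1 | h1
      · rw [h1]; exact mem_insert_self _ _
      · exact mem_insert_of_mem (mem_filter.2 ⟨mem_range.2 h1, (mem_PP.1 hp).1⟩)
    have h2 : ∑ p ∈ PP t, 1 / ((p : ℝ) - 1) ≤
        ∑ p ∈ insert q ((range q).filter Nat.Prime), 1 / ((p : ℝ) - 1) := by
      refine sum_le_sum_of_subset_of_nonneg hsub fun p hp _ => Theta_inv_nonneg ?_
      rcases mem_insert.1 hp with rfl | hp
      · exact hq.1
      · exact (mem_filter.1 hp).2
    rw [sum_insert (by simp)] at h2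
    have h3 := Theta_uu_lt hq.1.two_le
    have h4 : (th q : ℝ) ≤ t := by exact_mod_cast hq.2
    have h5 := Theta_inv_le_one hq.1
    unfold uu at h3
    linarith

theorem bd_th {Y : ℝ} (hY : 0 ≤ Y) :
    Bd (fun q : ℕ => q.Prime ∧ (th q : ℝ) ≤ Y) (fun q => 1 / ((q : ℝ) - 1)) (Y + 1) := by
  refine Bd.of_finset (PP ⌊Y⌋₊) (fun q hq => mem_PP.2 ⟨hq.1, Nat.le_floor hq.2⟩)
    (fun q hq => Theta_inv_nonneg (mem_PP.1 hq).1) ?_
  linarith [sum_PP_le ⌊Y⌋₊, Nat.floor_le hY]

/-- the mass of level `t` -/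
noncomputable def Theta_m (t : ℕ) : ℝ := ∑ q ∈ (PP t).filter (fun q => th q = t), 1 / ((q : ℝ) - 1)

theorem Theta_split (g : ℕ → ℝ) {t₀ T : ℕ} (h : t₀ ≤ T + 1) :
    ∑ q ∈ (PP (T + 1)).filter (fun q => t₀ ≤ th q), g (th q) / ((q : ℝ) - 1) =
      ∑ q ∈ (PP T).filter (fun q => t₀ ≤ th q), g (th q) / ((q : ℝ) - 1) +
        g (T + 1) * Theta_m (T + 1) := by
  rw [← sum_filter_add_sum_filter_not ((PP (T + 1)).filter (fun q => t₀ ≤ th q))
    (fun q => th q ≤ T)]
  congr 1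
  · refine sum_congr ?_ fun _ _ => rfl
    ext q
    simp only [mem_filter, mem_PP]
    constructor
    · rintro ⟨⟨⟨h1, -⟩, h2⟩, h3⟩
      exact ⟨⟨h1, h3⟩, h2⟩
    · rintro ⟨⟨h1, h3⟩, h2⟩
      exact ⟨⟨⟨h1, by omega⟩, h2⟩, h3⟩
  · unfold Theta_m
    rw [mul_sum]
    refine sum_congr ?_ fun q hq => ?_
    · ext q
      simp only [mem_filter, mem_PP]
      constructor
      · rintro ⟨⟨⟨h1, h4⟩, h2⟩, h3⟩
        exact ⟨⟨h1, h4⟩, by omega⟩
      · rintro ⟨⟨h1, h3⟩, h2⟩
        exact ⟨⟨⟨h1, h3⟩, by omega⟩, by omega⟩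
    · rw [(mem_filter.1 hq).2]; ring

theorem Theta_empty {t₀ T : ℕ} (h : T < t₀) : (PP T).filter (fun q => t₀ ≤ th q) = ∅ := by
  refine filter_eq_empty_iff.2 fun q hq h2 => ?_
  have := (mem_PP.1 hq).2
  omega

theorem Theta_mass {s T : ℕ} (h : s ≤ T) :
    (T : ℝ) - (s + 1) ≤ ∑ q ∈ (PP T).filter (fun q => s + 1 ≤ th q), 1 / ((q : ℝ) - 1) ∧
      ∑ q ∈ (PP T).filter (fun q => s + 1 ≤ th q), 1 / ((q : ℝ) - 1) ≤ (T : ℝ) - (s + 1) + 2 := by
  have h1 := sum_filter_add_sum_filter_not (PP T) (fun q => s + 1 ≤ th q)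
    (fun q : ℕ => 1 / ((q : ℝ) - 1))
  have h2 : (PP T).filter (fun q => ¬ s + 1 ≤ th q) = PP s := by
    ext q
    simp only [mem_filter, mem_PP]
    constructor
    · rintro ⟨⟨h1, -⟩, h2⟩
      exact ⟨h1, by omega⟩
    · rintro ⟨h1, h2⟩
      exact ⟨⟨h1, by omega⟩, by omega⟩
  rw [h2] at h1
  constructor <;> linarith [sum_PP_ge s, sum_PP_le s, sum_PP_ge T, sum_PP_le T]

/-- Abel summation: the masses `m_t = ∑_{th q = t} 1/(q-1)` have `∑_{t₀ ≤ t ≤ T'} m_t ≤ T' - t₀ + 2`.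
(Induct on `T` with the stronger claim
`LHS + f T (T - t₀ + 2 - ∑_{t₀ ≤ t ≤ T} m_t) ≤ RHS` for `t₀ ≤ T`.) -/
theorem sum_th_anti_le {f : ℕ → ℝ} {t₀ : ℕ} (ht : 1 ≤ t₀) (hf : ∀ t, t₀ ≤ t → f (t + 1) ≤ f t)
    (h0 : ∀ t, t₀ ≤ t → 0 ≤ f t) (T : ℕ) :
    ∑ q ∈ (PP T).filter (fun q => t₀ ≤ th q), f (th q) / ((q : ℝ) - 1) ≤
      f t₀ + ∑ t ∈ Icc t₀ T, f t := by
  obtain ⟨s, rfl⟩ : ∃ s, t₀ = s + 1 := ⟨t₀ - 1, by omega⟩
  rcases lt_or_ge T (s + 1) with hT | hT
  · rw [Theta_empty hT, Icc_eq_empty (by omega), sum_empty, sum_empty, add_zero]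
    exact h0 _ le_rfl
  have key : ∑ q ∈ (PP T).filter (fun q => s + 1 ≤ th q), f (th q) / ((q : ℝ) - 1) +
      f T * ((T : ℝ) - (s + 1) + 2 -
        ∑ q ∈ (PP T).filter (fun q => s + 1 ≤ th q), 1 / ((q : ℝ) - 1)) ≤
      f (s + 1) + ∑ t ∈ Icc (s + 1) T, f t := by
    induction T, hT using Nat.le_induction with
    | base =>
      have e1 := Theta_split f (t₀ := s + 1) (T := s) le_rfl
      have e2 := Theta_split (fun _ => 1) (t₀ := s + 1) (T := s) le_rfl
      rw [Theta_empty (Nat.lt_succ_self s), sum_empty] at e1 e2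
      rw [e1, e2, Icc_self, sum_singleton]
      push_cast
      linarith
    | succ T hT ih =>
      have e1 := Theta_split f (t₀ := s + 1) (T := T) (by omega)
      have e2 := Theta_split (fun _ => 1) (t₀ := s + 1) (T := T) (by omega)
      rw [e1, e2, sum_Icc_succ_top (by omega)]
      have h1 := (Theta_mass (s := s) (T := T) (by omega)).2
      have h2 := mul_le_mul_of_nonneg_right (hf T hT) (sub_nonneg.2 h1)
      push_cast
      linarith
  have h1 := (Theta_mass (s := s) (T := T) (by omega)).2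
  have h2 := mul_nonneg (h0 T hT) (sub_nonneg.2 h1)
  linarith

/-- Abel summation with `∑_{t₀ ≤ t ≤ T'} m_t ≥ T' - t₀` -/
theorem sum_th_anti_ge {f : ℕ → ℝ} {t₀ : ℕ} (ht : 1 ≤ t₀) (hf : ∀ t, t₀ ≤ t → f (t + 1) ≤ f t)
    (h0 : ∀ t, t₀ ≤ t → 0 ≤ f t) (T : ℕ) :
    ∑ t ∈ Icc (t₀ + 1) T, f t ≤
      ∑ q ∈ (PP T).filter (fun q => t₀ ≤ th q), f (th q) / ((q : ℝ) - 1) := by
  obtain ⟨s, rfl⟩ : ∃ s, t₀ = s + 1 := ⟨t₀ - 1, by omega⟩
  rcases lt_or_ge T (s + 1) with hT | hT
  · rw [Theta_empty hT, Icc_eq_empty (by omega), sum_empty, sum_empty]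
  have key : ∑ t ∈ Icc (s + 1 + 1) T, f t +
      f T * (∑ q ∈ (PP T).filter (fun q => s + 1 ≤ th q), 1 / ((q : ℝ) - 1) -
        ((T : ℝ) - (s + 1))) ≤
      ∑ q ∈ (PP T).filter (fun q => s + 1 ≤ th q), f (th q) / ((q : ℝ) - 1) := by
    induction T, hT using Nat.le_induction with
    | base =>
      have e1 := Theta_split f (t₀ := s + 1) (T := s) le_rfl
      have e2 := Theta_split (fun _ => 1) (t₀ := s + 1) (T := s) le_rfl
      rw [Theta_empty (Nat.lt_succ_self s), sum_empty] at e1 e2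
      rw [e1, e2, Icc_eq_empty (by omega), sum_empty]
      push_cast
      linarith
    | succ T hT ih =>
      have e1 := Theta_split f (t₀ := s + 1) (T := T) (by omega)
      have e2 := Theta_split (fun _ => 1) (t₀ := s + 1) (T := T) (by omega)
      rw [e1, e2, sum_Icc_succ_top (by omega)]
      have h1 := (Theta_mass (s := s) (T := T) (by omega)).1
      have h2 := mul_le_mul_of_nonneg_right (hf T hT) (sub_nonneg.2 h1)
      push_cast
      linarith
  have h1 := (Theta_mass (s := s) (T := T) (by omega)).1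
  have h2 := mul_nonneg (h0 T hT) (sub_nonneg.2 h1)
  linarith

theorem Theta_tele {m : ℕ} (hm : 2 ≤ m) (n : ℕ) :
    ∑ k ∈ Ico m (m + n), 1 / ((k : ℝ) * (k - 1)) = 1 / ((m : ℝ) - 1) - 1 / ((m : ℝ) + n - 1) := by
  have hm' : (2 : ℝ) ≤ m := by exact_mod_cast hm
  induction n with
  | zero => simp
  | succ n ih =>
    rw [← add_assoc, sum_Ico_succ_top (by omega), ih]
    have hn : (0 : ℝ) ≤ n := Nat.cast_nonneg n
    have h1 : (m : ℝ) + n - 1 ≠ 0 := by linarith
    have h2 : (m : ℝ) + n ≠ 0 := by linarith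
    have h3 : (m : ℝ) + ((n : ℝ) + 1) - 1 = m + n := by ring
    push_cast
    rw [h3]
    field_simp
    ring

/-- all these primes are `≥ P := exp (exp (u - C))`, and `∑_{n ≥ P} 1/(n(n-1)) ≤ 2/P` -/
theorem bd_big_primes : ∃ C : ℝ, ∀ u : ℝ, Bd (fun p : ℕ => p.Prime ∧ u ≤ th p)
    (fun p => 1 / ((p : ℝ) * ((p : ℝ) - 1))) (2 * Real.exp (-Real.exp (u - C))) := by
  obtain ⟨C, -, hC⟩ := log_le_exp_th
  refine ⟨C, fun u S hS => ?_⟩
  rcases S.eq_empty_or_nonempty with rfl | hne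
  · rw [sum_empty]; positivity
  set m := S.min' hne with hm
  have hmS : m ∈ S := S.min'_mem hne
  obtain ⟨hmp, hmu⟩ := hS m hmS
  have hm2 : (2 : ℝ) ≤ m := by exact_mod_cast hmp.two_le
  have hsub : S ⊆ Ico m (m + (S.sup id + 1)) := by
    intro p hp
    have : p ≤ S.sup id := le_sup (f := id) hp
    exact mem_Ico.2 ⟨S.min'_le p hp, by omega⟩
  have h1 := sum_le_sum_of_subset_of_nonneg hsub
    (f := fun k : ℕ => 1 / ((k : ℝ) * (k - 1))) fun k hk _ => by
      have : (m : ℝ) ≤ k := by exact_mod_cast (mem_Ico.1 hk).1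
      exact div_nonneg zero_le_one (mul_nonneg (by linarith) (by linarith))
  rw [Theta_tele hmp.two_le] at h1
  have h2 : 0 ≤ 1 / ((m : ℝ) + (S.sup id + 1 : ℕ) - 1) :=
    div_nonneg zero_le_one (by linarith [(Nat.cast_nonneg (S.sup id + 1) : (0 : ℝ) ≤ _)])
  have h3 : Real.exp (Real.exp (u - C)) ≤ m := by
    have h4 : (0 : ℝ) < m := by linarith
    rw [← Real.exp_log h4]
    exact Real.exp_le_exp.2 ((Real.exp_le_exp.2 (by linarith)).trans (hC m hmp.two_le).2)
  have h4 : 1 / ((m : ℝ) - 1) ≤ 2 * Real.exp (-Real.exp (u - C)) := by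
    rw [Real.exp_neg, ← div_eq_mul_inv, div_le_div_iff₀ (by linarith) (Real.exp_pos _)]
    linarith
  linarith

/-- `exp (th p) ≤ e^C log p` and `R29.primes_sum_term_le` -/
theorem bd_rep : ∃ C : ℝ, Bd (fun p : ℕ => p.Prime)
    (fun p => Real.exp (th p) / ((p : ℝ) * ((p : ℝ) - 1))) C := by
  obtain ⟨C, -, hC⟩ := log_le_exp_th
  refine ⟨Real.exp C * 5, fun S hS => ?_⟩
  refine le_trans ?_ (mul_le_mul_of_nonneg_left (R29.primes_sum_term_le S hS) (Real.exp_pos C).le)
  rw [mul_sum]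
  refine sum_le_sum fun p hp => ?_
  have hp2 : (2 : ℝ) ≤ p := by exact_mod_cast (hS p hp).two_le
  rw [← mul_div_assoc]
  refine div_le_div_of_nonneg_right ?_ (mul_nonneg (by linarith) (by linarith))
  have h1 := mul_le_mul_of_nonneg_left (hC p (hS p hp).two_le).2 (Real.exp_pos C).le
  rw [← Real.exp_add] at h1
  have : C + ((th p : ℝ) - C) = th p := by ring
  rwa [this] at h1

/-- primes `q ≤ log a` have level `≤ log log log a + C ≤ log (th a + 1) + C'` (use `bd_th`); there are at most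
`log a / log 2` primes `q > log a` dividing `a`, each contributing `≤ 2 / log a`.  Small `a` separately. -/
theorem sum_dvd_le : ∃ C : ℝ, ∀ a : ℕ, 0 < a →
    ∑ q ∈ a.primeFactors, 1 / ((q : ℝ) - 1) ≤ Real.log (th a + 1) + C := by
  obtain ⟨C, hC0, hC⟩ := th_loglog
  have hl0 : 0 ≤ Real.log (C + 1) := Real.log_nonneg (by linarith)
  refine ⟨Real.log (C + 1) + C + 1 + 4, fun a ha => ?_⟩
  have hth : (0 : ℝ) ≤ th a := Nat.cast_nonneg _
  have hl1 : 0 ≤ Real.log ((th a : ℝ) + 1) := Real.log_nonneg (by linarith)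
  rcases Nat.lt_or_ge a 2 with h2 | h2
  · have : a = 1 := by omega
    subst this
    rw [Nat.primeFactors_one, sum_empty]
    linarith
  have ha2 : (2 : ℝ) ≤ a := by exact_mod_cast h2
  have hL : 0 < Real.log a := Real.log_pos (by linarith)
  rw [← sum_filter_add_sum_filter_not a.primeFactors (fun q : ℕ => (q : ℝ) ≤ Real.log a)]
  have hs : ∑ q ∈ a.primeFactors.filter (fun q : ℕ => (q : ℝ) ≤ Real.log a), 1 / ((q : ℝ) - 1) ≤
      Real.log ((th a : ℝ) + 1) + Real.log (C + 1) + C + 1 := by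
    refine bd_th (by linarith) _ fun q hq => ?_
    obtain ⟨hq1, hq2⟩ := mem_filter.1 hq
    have hqp := Nat.prime_of_mem_primeFactors hq1
    refine ⟨hqp, ?_⟩
    have hq3 : (2 : ℝ) ≤ q := by exact_mod_cast hqp.two_le
    have h1 : Real.log q ≤ Real.log (Real.log a) := Real.log_le_log (by linarith) hq2
    have h3 := (abs_le.1 (hC a h2)).1
    have h4 := (abs_le.1 (hC q hqp.two_le)).2
    have h5 : Real.log q ≤ ((th a : ℝ) + 1) * (C + 1) := by nlinarith
    have h6 := Real.log_le_log (Real.log_pos (by linarith)) h5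
    rw [Real.log_mul (by linarith) (by linarith)] at h6
    linarith
  have hcard : (a.primeFactors.card : ℝ) * Real.log 2 ≤ Real.log a := by
    have h1 : 2 ^ a.primeFactors.card ≤ a :=
      (Finset.pow_card_le_prod a.primeFactors (fun q => q) 2 fun q hq =>
        (Nat.prime_of_mem_primeFactors hq).two_le).trans
        (Nat.le_of_dvd ha (Nat.prod_primeFactors_dvd a))
    have h3 : (2 : ℝ) ^ a.primeFactors.card ≤ a := by exact_mod_cast h1
    have h4 := Real.log_le_log (by positivity) h3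
    rwa [Real.log_pow] at h4
  have hb : ∑ q ∈ a.primeFactors.filter (fun q : ℕ => ¬ (q : ℝ) ≤ Real.log a),
      1 / ((q : ℝ) - 1) ≤ 4 := by
    have h1 : ∑ q ∈ a.primeFactors.filter (fun q : ℕ => ¬ (q : ℝ) ≤ Real.log a),
        1 / ((q : ℝ) - 1) ≤
        (a.primeFactors.filter (fun q : ℕ => ¬ (q : ℝ) ≤ Real.log a)).card • (2 / Real.log a) := by
      refine sum_le_card_nsmul _ _ _ fun q hq => ?_
      obtain ⟨hq1, hq2⟩ := mem_filter.1 hq
      have hq3 : (2 : ℝ) ≤ q := by exact_mod_cast (Nat.prime_of_mem_primeFactors hq1).two_le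
      rw [div_le_div_iff₀ (by linarith) hL]
      linarith [not_le.1 hq2]
    have h3 : ((a.primeFactors.filter (fun q : ℕ => ¬ (q : ℝ) ≤ Real.log a)).card : ℝ) ≤
        a.primeFactors.card := by exact_mod_cast card_filter_le _ _
    have h4 : (1 / 2 : ℝ) ≤ Real.log 2 := by linarith [Real.log_two_gt_d9]
    have h5 : (0 : ℝ) ≤ a.primeFactors.card := Nat.cast_nonneg _
    rw [nsmul_eq_mul] at h1
    refine h1.trans ?_
    rw [← mul_div_assoc, div_le_iff₀ hL]
    nlinarith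
  linarith

theorem th_le_bigB : ∃ C : ℝ, ∀ᶠ x : ℝ in atTop, ∀ p : ℕ, (p : ℝ) - 1 ≤ x → (th p : ℝ) ≤ bigB x + C := by
  obtain ⟨C, hC0, hC⟩ := th_loglog
  refine ⟨C + 1, ?_⟩
  filter_upwards [eventually_ge_atTop (3 : ℝ)] with x hx p hp
  have h1 : 1 ≤ Real.log x := by
    rw [Real.le_log_iff_exp_le (by linarith)]
    linarith [Real.exp_one_lt_d9]
  have h2 : 0 ≤ bigB x := Real.log_nonneg h1
  rcases Nat.lt_or_ge p 2 with h | h
  · have : th p = 0 := by unfold th; rw [if_pos h]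
    rw [this]; push_cast; linarith
  have hp2 : (2 : ℝ) ≤ p := by exact_mod_cast h
  have h3 : Real.log p ≤ 2 * Real.log x := by
    have h4 : (p : ℝ) ≤ x ^ 2 := by nlinarith
    have h5 := Real.log_le_log (by linarith) h4
    rw [Real.log_pow] at h5
    exact_mod_cast h5
  have h4 := Real.log_le_log (Real.log_pos (by linarith)) h3
  rw [Real.log_mul (by norm_num) (by linarith)] at h4
  have h5 := (abs_le.1 (hC p h)).2
  unfold bigB
  linarith [Real.log_two_lt_d9]

theorem th_ge_bigB : ∃ C : ℝ, ∀ᶠ x : ℝ in atTop, ∀ p : ℕ, √x < p → bigB x - C ≤ th p := by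
  obtain ⟨C, hC0, hC⟩ := th_loglog
  refine ⟨C + 1, ?_⟩
  filter_upwards [eventually_ge_atTop (4 : ℝ)] with x hx p hp
  have h1 : (2 : ℝ) ≤ √x := Real.le_sqrt_of_sq_le (by linarith)
  have hp2 : (2 : ℝ) ≤ p := by linarith
  have h : 2 ≤ p := by exact_mod_cast hp2
  have h3 : Real.log x ≤ 2 * Real.log p := by
    have h4 : x ≤ (p : ℝ) ^ 2 := by
      have := Real.sq_sqrt (x := x) (by linarith)
      nlinarith
    have h5 := Real.log_le_log (by linarith) h4
    rw [Real.log_pow] at h5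
    exact_mod_cast h5
  have h4 := Real.log_le_log (Real.log_pos (by linarith)) h3
  rw [Real.log_mul (by norm_num) (Real.log_pos (by linarith)).ne'] at h4
  have h5 := (abs_le.1 (hC p h)).1
  unfold bigB
  linarith [Real.log_two_lt_d9]

end Crest.Agent.R20
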