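import Crest.Agent.R20.Level

/-!
# R20/UpA: upper bound: the first violation
-/

set_option autoImplicit false

open Finset Filter Topology Crest.NumberTheoryR.TotientScale

namespace Crest.Agent.R20

variable {ρ : ℝ}

theorem UpA_pos (ρ : ℝ) : ∀ᶠ z : ℝ × ℕ in FA ρ,
    0 ≤ z.1 ∧ 1 ≤ bigB z.1 ∧ 0 ≤ z.1 / Real.log z.1 := by
  filter_upwards [(tendsto_fst_FA ρ).eventually (eventually_ge_atTop 1),
    (tendsto_fst_FA ρ).eventually (tendsto_bigB.eventually (eventually_ge_atTop 1))] with z h1 h2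
  exact ⟨by linarith, h2, div_nonneg (by linarith) (Real.log_nonneg h1)⟩

/-- The values `φ n` are distinct (`card_image_of_injOn`).  Non-rough values: `nonrough`.  Rough values: `lev0` with
`ξ = ξ_M`, `D = M - K'`, `X = x`, `u₀ = u0 x` (`Rough.u0_lt`, `gp_totient_le`; `n = 1` satisfies
`gp n ∣ tl n`; `yy n 0 ≤ B + C ≤ ξ_M^9`; `sc_small`, `sc_auto`, `xi_big`); `x e^{-u0} e^{-ξ_M} ≤ x / log x`. -/
theorem up_lev0 (hρ : IsRho ρ) : ∀ᶠ z : ℝ × ℕ in FA ρ, ∀ (K' : ℕ) (N : Finset ℕ),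
    Set.InjOn Nat.totient N →
    (∀ n ∈ N, 0 < n ∧ (n.totient : ℝ) ≤ z.1 ∧
      ¬ (Rough z.1 n.totient ∧ Good0 (xi ρ z.2) (bigB z.1) (z.2 - K') n)) →
    (N.card : ℝ) ≤ 2 * (z.1 / Real.log z.1) := by
  obtain ⟨C, hC⟩ := th_le_bigB
  filter_upwards [UpA_pos ρ, (tendsto_fst_FA ρ).eventually hC, (tendsto_fst_FA ρ).eventually nonrough,
    (tendsto_fst_FA ρ).eventually exp_neg_bigB, (tendsto_xiM hρ).eventually lev0,
    (tendsto_M hρ).eventually (xi_big hρ), sc_small hρ (2 * |C|), sc_auto hρ |C|]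
    with z hpos hth hnr hexp hl0 hbig hsm hauto K' N hinj hN
  obtain ⟨hx0, hB1, hX⟩ := hpos
  obtain ⟨hs1, hs2⟩ := hsm
  set ξ := xi ρ z.2 with hξ
  have hξ1 : 1 ≤ ξ := one_le_xi hρ _
  have hlogB : 0 ≤ Real.log (bigB z.1) := Real.log_nonneg hB1
  have hCa : C ≤ |C| := le_abs_self C
  have hC0 : 0 ≤ |C| := abs_nonneg C
  have h7 : ξ ≤ ξ ^ 7 := le_self_pow₀ hξ1 (by norm_num)
  have h9 : bigB z.1 + |C| ≤ ξ ^ 9 := hauto z.2 (by omega)
  have hD : (((z.2 - K' : ℕ) : ℝ) + 1) ^ 4 ≤ ξ := by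
    refine le_trans ?_ hbig
    have : ((z.2 - K' : ℕ) : ℝ) ≤ z.2 := by exact_mod_cast Nat.sub_le _ _
    gcongr
    linarith
  have hu1 : ξ ≤ u0 z.1 := by unfold u0; linarith
  have hu2 : u0 z.1 ≤ ξ ^ 9 := by unfold u0; linarith
  have h1 := (hnr.or (hl0 (z.2 - K') z.1 (u0 z.1) hD hx0 hu1 hu2))
  have h2 : Bd (fun n : ℕ => n ∈ N) (fun _ => (1 : ℝ)) _ :=
    h1.of_inj (fun n => n.totient) (fun n hn => by
      obtain ⟨hn0, hnx, hng⟩ := hN n hn
      refine ⟨?_, le_rfl⟩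
      by_cases hr : Rough z.1 n.totient
      · right
        have hy : (yy n 0 : ℝ) ≤ bigB z.1 + C := by
          apply hth
          have := gp_sub_one_le hn0
          have h1 := gp_pos n
          have h2 : ((gp n - 1 : ℕ) : ℝ) ≤ n.totient := by exact_mod_cast this
          rw [Nat.cast_sub h1] at h2
          simp only [pr, Function.iterate_zero, id]
          push_cast at h2
          linarith
        refine ⟨hnx, n, hn0, rfl, by linarith, ?_, ?_⟩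
        · have h3 := hr.u0_lt
          have h4 : th (gp n.totient) ≤ yy n 0 := th_mono (gp_totient_le hn0)
          have h5 : (th (gp n.totient) : ℝ) ≤ yy n 0 := by exact_mod_cast h4
          linarith
        · by_cases hd : gp n ∣ tl n
          · exact Or.inl hd
          · right
            have h1n : 1 < n := by
              rcases Nat.lt_or_ge 1 n with h | h
              · exact h
              · obtain rfl : n = 1 := by omega
                exact absurd (by rw [gp_one]; exact one_dvd _) hd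
            have : ¬ (capSum (z.2 - K') n - ξ ^ 7 ≤ bigB z.1) := fun h => hng ⟨hr, h1n, hd, h⟩
            push Not at this
            linarith
      · exact Or.inl ⟨Nat.totient_pos.2 hn0, hnx, hr⟩)
      (fun a a' ha ha' h => hinj ha ha' h)
  have h3 := h2.card_le (S := N) (fun a ha => ha)
  have h4 : z.1 * Real.exp (-u0 z.1) * Real.exp (-ξ) ≤ z.1 / Real.log z.1 := by
    rw [mul_assoc, ← Real.exp_add, div_eq_mul_one_div, ← hexp]
    gcongr
    unfold u0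
    linarith
  linarith

/-- `τ n = φ (tl^[l+1] n)`, `vl = id`, `inj_of_totient`, `W1`, `PG.chain`, `PG.hc`, `HC.mono`.  Split `N` by
`ξ_j^9 < yy n (l+1)`: `LB2` with `T t = TV t (fun _ => True)` and `F_good`; otherwise `LB1` with `viol`. -/
theorem up_level (hρ : IsRho ρ) : ∃ (C : ℝ) (K₀ : ℕ), 0 < C ∧ ∀ᶠ z : ℝ × ℕ in FA ρ, ∀ K' l : ℕ,
    K₀ ≤ K' → K' + 2 ≤ z.2 → l + 1 ≤ z.2 - K' → ∀ N : Finset ℕ, Set.InjOn Nat.totient N →
    (∀ n ∈ N, (n.totient : ℝ) ≤ z.1 ∧ PG ρ z.1 z.2 K' (l + 1) n ∧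
      ¬ GoodAt (xi ρ (z.2 - (l + 1))) (z.2 - K' - (l + 1)) (tl^[l + 1] n)) →
    (N.card : ℝ) ≤ C * (z.1 / Real.log z.1 * GG l (bigB z.1)) := by
  obtain ⟨C1, hC1, h1⟩ := LB1 hρ
  obtain ⟨C2, K2, hC2, h2⟩ := LB2 hρ
  obtain ⟨C3, h3⟩ := viol
  obtain ⟨Y0, hY0⟩ := eventually_atTop.1 F_good
  obtain ⟨K1, hK1⟩ := eventually_atTop.1 (((tendsto_xi hρ).eventually h3).and
    (((tendsto_xi hρ).eventually (eventually_ge_atTop Y0)).and (xi_big hρ)))
  refine ⟨C2 + C1 * |C3|, max K1 K2, by positivity, ?_⟩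
  filter_upwards [UpA_pos ρ, h1, h2, W1 hρ] with z hpos hL1 hL2 hW K' l hK hK2 hl N hinj hN
  obtain ⟨hx0, hB1, hX⟩ := hpos
  set j := z.2 - (l + 1) with hj
  have hjK : K' ≤ j := by omega
  have hj1 : K1 ≤ j := le_trans (le_trans (le_max_left _ _) hK) hjK
  have hj2 : K2 ≤ j := le_trans (le_trans (le_max_right _ _) hK) hjK
  obtain ⟨hv, hY, hbig⟩ := hK1 j hj1
  have hξ1 : 1 ≤ xi ρ j := one_le_xi hρ _
  have hG : 0 ≤ z.1 / Real.log z.1 * GG l (bigB z.1) :=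
    mul_nonneg hX (GG_pos l (by linarith)).le
  have hbase : ∀ n ∈ N, Chain (l + 1) n ∧ (n.totient : ℝ) ≤ z.1 ∧
      ((tl n).totient : ℝ) ≤ z.1 ^ (3 / 5 : ℝ) ∧ HC ρ (bigB z.1) z.2 (l + 1) (l + 1) n := by
    intro n hn
    obtain ⟨hnx, hpg, -⟩ := hN n hn
    exact ⟨hpg.chain, hnx, (hW K' n hK2 hnx hpg.1 hpg.2.1).1,
      (hpg.hc (by omega)).mono le_rfl hl⟩
  have hI := inj_of_totient hinj fun n hn => (hbase n hn).1
  classical
  have e := card_filter_add_card_filter_not (s := N) (fun n => xi ρ j ^ 9 < yy n (l + 1))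
  have a1 := hL2 l j (by omega) hj2 (N.filter fun n => xi ρ j ^ 9 < yy n (l + 1))
    (fun n => (tl^[l + 1] n).totient) id (fun t => TV t fun _ => True)
    (fun n hn => by
      obtain ⟨hn, hy⟩ := mem_filter.1 hn
      obtain ⟨b1, b2, b3, b4⟩ := hbase n hn
      refine ⟨b1, b2, b3, b4, rfl, hy, tl^[l + 1] n, iter_pos b1.1 _, rfl, ?_, trivial⟩
      rw [yy_iter])
    (fun n hn n' hn' => hI n (mem_filter.1 hn).1 n' (mem_filter.1 hn').1)
    (fun t ht => by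
      have h9 : xi ρ j ≤ xi ρ j ^ 9 := le_self_pow₀ hξ1 (by norm_num)
      refine (hY0 t (by linarith)).mono (fun _ h => h) (fun _ _ => le_rfl) ?_
      have b1 : (1 : ℝ) ≤ ((t : ℝ) + 1) ^ (j + 1) :=
        one_le_pow₀ (by linarith [Nat.cast_nonneg (α := ℝ) t])
      have b2 : (1 : ℝ) ≤ ((t : ℝ) + 1) ^ (j + 1) * xi ρ j := one_le_mul_of_one_le_of_one_le b1 hξ1
      exact le_mul_of_one_le_left (Real.exp_pos _).le b2)
  have hD : (((z.2 - K' - (l + 1) : ℕ) : ℝ) + 1) ^ 4 ≤ xi ρ j := by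
    refine le_trans ?_ hbig
    have : ((z.2 - K' - (l + 1) : ℕ) : ℝ) ≤ j := by exact_mod_cast (by omega)
    gcongr
    linarith
  have a2 := hL1 l (by omega) (N.filter fun n => ¬ xi ρ j ^ 9 < yy n (l + 1))
    (fun n => (tl^[l + 1] n).totient) id
    (TV (xi ρ j ^ 9) fun m => ¬ GoodAt (xi ρ j) (z.2 - K' - (l + 1)) m) |C3|
    (fun n hn => by
      obtain ⟨hn, hy⟩ := mem_filter.1 hn
      obtain ⟨b1, b2, b3, b4⟩ := hbase n hn
      refine ⟨b1, b2, b3, b4.mono le_rfl (Nat.le_succ l), rfl, tl^[l + 1] n, iter_pos b1.1 _, rfl,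
        ?_, (hN n hn).2.2⟩
      rw [yy_iter]
      exact not_lt.1 hy)
    (fun n hn n' hn' => hI n (mem_filter.1 hn).1 n' (mem_filter.1 hn').1)
    ((hv _ hD).mono (fun _ h => h) (fun _ _ => le_rfl) (le_abs_self C3))
  rw [← e, Nat.cast_add, add_mul]
  exact add_le_add a1 a2

/-- cover `N` by the class of `up_lev0` and the classes of `up_level`, `l < M - K'` (first bad level, `Nat.find`);
`GG_zero`, `sc_GG_sum` with `L = M - K'`, `sc_GG_le` -/
theorem up_viol (hρ : IsRho ρ) {ε : ℝ} (hε : 0 < ε) : ∃ K₀ : ℕ, ∀ K', K₀ ≤ K' →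
    ∀ᶠ z : ℝ × ℕ in FA ρ, ∀ N : Finset ℕ, Set.InjOn Nat.totient N →
    (∀ n ∈ N, 0 < n ∧ (n.totient : ℝ) ≤ z.1 ∧ ¬ PG ρ z.1 z.2 K' (z.2 - K' + 1) n) →
    (N.card : ℝ) ≤ ε * (z.1 / Real.log z.1 * GG z.2 (bigB z.1)) := by
  obtain ⟨C, K0, hC, h1⟩ := up_level hρ
  obtain ⟨C', hC', h2⟩ := sc_GG_le hρ
  obtain ⟨K1, h3⟩ := sc_GG_sum hρ (ε := ε / ((2 + C) * C')) (by positivity)
  refine ⟨max K0 K1, fun K' hK => ?_⟩
  filter_upwards [UpA_pos ρ, h1, h2, h3, up_lev0 hρ,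
    (tendsto_M hρ).eventually (eventually_ge_atTop (K' + 2))] with z hpos hl hle hsum h0 hM N hinj hN
  obtain ⟨hx0, hB1, hX⟩ := hpos
  have hK0 : K0 ≤ K' := le_trans (le_max_left _ _) hK
  have hK1 : K1 ≤ K' := le_trans (le_max_right _ _) hK
  classical
  set L := z.2 - K' with hL
  set X := z.1 / Real.log z.1 with hXd
  let N0 := N.filter fun n => ¬ (Rough z.1 n.totient ∧ Good0 (xi ρ z.2) (bigB z.1) L n)
  let Nl := fun l : ℕ => N.filter fun n => PG ρ z.1 z.2 K' (l + 1) n ∧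
    ¬ GoodAt (xi ρ (z.2 - (l + 1))) (L - (l + 1)) (tl^[l + 1] n)
  have hsub : N ⊆ N0 ∪ (range L).biUnion Nl := by
    intro n hn
    obtain ⟨-, -, hng⟩ := hN n hn
    by_cases hg : Rough z.1 n.totient ∧ Good0 (xi ρ z.2) (bigB z.1) L n
    · refine mem_union_right _ ?_
      have hex : ∃ i, 1 ≤ i ∧ i < L + 1 ∧ ¬ GoodAt (xi ρ (z.2 - i)) (L - i) (tl^[i] n) := by
        by_contra hc
        push Not at hc
        exact hng ⟨hg.1, hg.2, hc⟩
      obtain ⟨b1, b2, b3⟩ := Nat.find_spec hex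
      obtain ⟨l, hl'⟩ : ∃ l, Nat.find hex = l + 1 := ⟨Nat.find hex - 1, by omega⟩
      rw [hl'] at b2 b3
      refine mem_biUnion.2 ⟨l, mem_range.2 (by omega), mem_filter.2 ⟨hn, ⟨hg.1, hg.2, ?_⟩, b3⟩⟩
      intro i hi1 hi2
      by_contra hc
      exact Nat.find_min hex (m := i) (by omega) ⟨hi1, by omega, hc⟩
    · exact mem_union_left _ (mem_filter.2 ⟨hn, hg⟩)
  have a0 : (N0.card : ℝ) ≤ 2 * X :=
    h0 K' N0 (hinj.mono (coe_subset.2 (filter_subset _ _))) fun n hn =>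
      ⟨(hN n (mem_filter.1 hn).1).1, (hN n (mem_filter.1 hn).1).2.1, (mem_filter.1 hn).2⟩
  have a1 : ∀ l ∈ range L, ((Nl l).card : ℝ) ≤ C * (X * GG l (bigB z.1)) := fun l hl' =>
    hl K' l hK0 hM (by have := mem_range.1 hl'; omega) (Nl l)
      (hinj.mono (coe_subset.2 (filter_subset _ _))) fun n hn =>
      ⟨(hN n (mem_filter.1 hn).1).2.1, (mem_filter.1 hn).2⟩
  have a2 : (N.card : ℝ) ≤ N0.card + ∑ l ∈ range L, ((Nl l).card : ℝ) := by
    have := (card_le_card hsub).trans ((card_union_le _ _).trans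
      (Nat.add_le_add_left card_biUnion_le _))
    exact_mod_cast this
  have hGp : ∀ l, 0 < GG l (bigB z.1) := fun l => GG_pos l (by linarith)
  have a3 : (1 : ℝ) ≤ ∑ l ∈ range L, GG l (bigB z.1) := by
    rw [← GG_zero (bigB z.1)]
    exact single_le_sum (f := fun l => GG l (bigB z.1)) (fun l _ => (hGp l).le)
      (mem_range.2 (by omega))
  have a4 := hsum L (by omega)
  have a5 := hle L (by omega)
  have a6 : ∑ l ∈ range L, ((Nl l).card : ℝ) ≤ C * (X * ∑ l ∈ range L, GG l (bigB z.1)) := by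
    rw [mul_sum, mul_sum]
    exact sum_le_sum a1
  set S := ∑ l ∈ range L, GG l (bigB z.1) with hS
  have a7 : (2 + C) * S ≤ ε * GG z.2 (bigB z.1) := by
    calc (2 + C) * S ≤ (2 + C) * (ε / ((2 + C) * C') * (C' * GG z.2 (bigB z.1))) := by
          gcongr
          refine a4.trans ?_
          gcongr
      _ = ε * GG z.2 (bigB z.1) := by field_simp
  calc (N.card : ℝ) ≤ 2 * (X * S) + C * (X * S) := by
        have : X ≤ X * S := le_mul_of_one_le_right hX a3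
        linarith
    _ = X * ((2 + C) * S) := by ring
    _ ≤ X * (ε * GG z.2 (bigB z.1)) := by gcongr
    _ = _ := by ring

/-- `LB1` with `l = M - K'`, `T w = Sm ⌊ξ_{K'}^9⌋₊ w ∧ log W ≤ log w` (`GoodAt` at the level `M - K'`, `yy_anti`,
`sm_totient`), `sm_tail`, `sc_GG_le` -/
theorem up_end (hρ : IsRho ρ) {ε : ℝ} (hε : 0 < ε) (K' : ℕ) : ∃ W₀ : ℕ, ∀ W, W₀ ≤ W →
    ∀ᶠ z : ℝ × ℕ in FA ρ, ∀ N : Finset ℕ, Set.InjOn Nat.totient N →
    (∀ n ∈ N, (n.totient : ℝ) ≤ z.1 ∧ PG ρ z.1 z.2 K' (z.2 - K' + 1) n ∧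
      W < (tl^[z.2 - K' + 1] n).totient) →
    (N.card : ℝ) ≤ ε * (z.1 / Real.log z.1 * GG z.2 (bigB z.1)) := by
  obtain ⟨C, hC, h1⟩ := LB1 hρ
  obtain ⟨C', hC', h2⟩ := sc_GG_le hρ
  obtain ⟨C2, -, h3⟩ := sm_tail
  set t := ⌊xi ρ K' ^ 9⌋₊ with ht
  have hlim : Tendsto (fun W : ℕ => Real.exp (-(Real.log W * Real.exp (-(t + C2))) + 3 * t + C2))
      atTop (𝓝 0) := by
    refine Real.tendsto_exp_atBot.comp ?_
    refine tendsto_atBot_add_const_right _ _ (tendsto_atBot_add_const_right _ _ ?_)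
    refine tendsto_neg_atTop_atBot.comp ?_
    exact (Real.tendsto_log_atTop.comp tendsto_natCast_atTop_atTop).atTop_mul_const (Real.exp_pos _)
  obtain ⟨W0, hW0⟩ := eventually_atTop.1 ((hlim.eventually
    (ge_mem_nhds (show (0 : ℝ) < ε / (C * C') by positivity))).and (eventually_ge_atTop 1))
  refine ⟨W0, fun W hW => ?_⟩
  obtain ⟨hWe, hW1⟩ := hW0 W hW
  filter_upwards [UpA_pos ρ, h1, h2, W1 hρ,
    (tendsto_M hρ).eventually (eventually_ge_atTop (K' + 2))] with z hpos hL1 hle hW' hM N hinj hN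
  obtain ⟨hx0, hB1, hX⟩ := hpos
  set L := z.2 - K' with hL
  have hI := inj_of_totient hinj fun n hn => (hN n hn).2.1.chain
  have a1 := hL1 L (by omega) N (fun n => (tl^[L + 1] n).totient) id
    (fun w => Sm t w ∧ Real.log W ≤ Real.log w) (ε / (C * C'))
    (fun n hn => by
      obtain ⟨hnx, hpg, hw⟩ := hN n hn
      have hn0 := hpg.chain.1
      refine ⟨hpg.chain, hnx, (hW' K' n hM hnx hpg.1 hpg.2.1).1, hpg.hc le_rfl, rfl, ?_, ?_⟩
      · refine (sm_totient (iter_pos hn0 _)).mono ?_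
        have b1 := (hpg.2.2 L (by omega) (Nat.lt_succ_self L)).1
        rw [show z.2 - L = K' by omega, yy_iter] at b1
        rw [yy_iter]
        exact (yy_anti hn0 (by omega)).trans (Nat.le_floor b1)
      · exact Real.log_le_log (by exact_mod_cast hW1) (by exact_mod_cast hw.le))
    hI ((h3 t (Real.log W)).mono (fun _ h => h) (fun _ _ => le_rfl) hWe)
  have a2 := hle L (by omega)
  calc (N.card : ℝ) ≤ _ := a1
    _ ≤ C * (ε / (C * C')) * (z.1 / Real.log z.1 * (C' * GG z.2 (bigB z.1))) := by gcongr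
    _ = _ := by field_simp

end Crest.Agent.R20
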