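import Crest.Agent.R20.UpA

/-!
# R20/Upper: the upper bound
-/

set_option autoImplicit false

open Finset Filter Topology Crest.NumberTheoryR.TotientScale

namespace Crest.Agent.R20

variable {ρ : ℝ}

/-- `head_count` with `l = M - K'`, `pc_up`, `H3` with `i = 0` (`B ≤ yy n 1 + 3 log B ≤ yy n 1 + sl ρ M 0`),
`bd_rcp_le`; `κ^(l-1) → ∞` along `FA ρ` -/
theorem up_gap (hρ : IsRho ρ) {ε : ℝ} (hε : 0 < ε) (K' W : ℕ) :
    ∀ᶠ z : ℝ × ℕ in FA ρ, ∀ N : Finset ℕ, Set.InjOn Nat.totient N →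
    (∀ n ∈ N, (n.totient : ℝ) ≤ z.1 ∧ PG ρ z.1 z.2 K' (z.2 - K' + 1) n ∧
      (tl^[z.2 - K' + 1] n).totient ≤ W ∧ u0 z.1 < yy n 1) →
    (N.card : ℝ) ≤ ε * (z.1 / Real.log z.1 * GG z.2 (bigB z.1)) := by
  obtain ⟨C₀, hC₀, hpc⟩ := pc_up
  obtain ⟨C₁, κ, hC₁, hκ, hH⟩ := H3 hρ
  obtain ⟨C₂, hC₂, hG⟩ := sc_GG_le hρ
  have hκt : Tendsto (fun z : ℝ × ℕ => κ ^ (z.2 - K' - 0 - 1)) (FA ρ) atTop :=
    (tendsto_pow_atTop_atTop_of_one_lt hκ).comp
      ((tendsto_sub_atTop_nat 1).comp ((tendsto_sub_atTop_nat 0).comp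
        ((tendsto_sub_atTop_nat K').comp (tendsto_M hρ))))
  filter_upwards [(tendsto_fst_FA ρ).eventually hpc, hH, hG, W1 hρ, sc_small hρ 0,
    (tendsto_M hρ).eventually_ge_atTop (K' + 2), hκt.eventually_ge_atTop (C₀ * C₁ * C₂ * W / ε),
    (tendsto_fst_FA ρ).eventually_ge_atTop 1,
    (tendsto_bigB.comp (tendsto_fst_FA ρ)).eventually_gt_atTop 0]
    with ⟨x, M⟩ hpc hH hG hW1 hsm hM hκM hx hB N hinj hN
  simp only [Function.comp] at hpc hH hG hW1 hsm hM hκM hx hB hN ⊢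
  have hxl : 0 ≤ x / Real.log x := div_nonneg (by linarith) (Real.log_nonneg hx)
  have hl : 0 < M - K' := by omega
  have hch : ∀ n ∈ N, Chain (M - K' + 1) n := fun n hn => (hN n hn).2.1.chain
  have h1 := head_count (c := C₀ * (x / Real.log x)) (by positivity) hpc (M - K') N
    (fun n => (tl^[M - K' + 1] n).totient) id _
    ((hH (M - K') (Nat.sub_le _ _) 0 hl).prod (bd_rcp_le (W := W) (Nat.cast_nonneg _))
      fun h hh => wt_nonneg hh.1)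
    (fun n hn => by
      obtain ⟨a1, a2, a3, a4⟩ := hN n hn
      refine ⟨hch n hn, a1, (hW1 K' n hM a1 a2.1 a2.2.1).1, rfl, ⟨(hch n hn).head, ?_, ?_⟩,
        Nat.totient_pos.2 (iter_pos (hch n hn).1 _), by exact_mod_cast a3⟩
      · simpa [tb] using HC.cons 0 (a2.hc le_rfl)
      · have e1 : hd (M - K') n (0 + 1) = pr n 1 := if_pos (mem_Icc.2 ⟨le_rfl, hl⟩)
        have e2 : xi ρ M ≤ sl ρ M 0 := le_self_pow₀ (one_le_xi hρ M) (by norm_num)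
        have e3 := hsm.2
        rw [u0, yy] at a4
        simp only [lev, if_true, e1]
        linarith)
    (inj_of_totient hinj hch)
  have h2 := hG (M - K') (Nat.sub_le _ _)
  have h3 := GG_pos M hB
  have h4 : 0 < κ ^ (M - K' - 0 - 1) := by positivity
  rw [div_le_iff₀ hε] at hκM
  refine h1.trans ?_
  have h5 : C₀ * (C₁ * GG (M - K') (bigB x) / κ ^ (M - K' - 0 - 1) * W) ≤ ε * GG M (bigB x) := by
    rw [div_mul_eq_mul_div, mul_div_assoc', div_le_iff₀ h4]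
    calc C₀ * (C₁ * GG (M - K') (bigB x) * W) ≤ C₀ * (C₁ * (C₂ * GG M (bigB x)) * W) := by gcongr
      _ = C₀ * C₁ * C₂ * W * GG M (bigB x) := by ring
      _ ≤ κ ^ (M - K' - 0 - 1) * ε * GG M (bigB x) := by gcongr
      _ = _ := by ring
  calc _ = x / Real.log x * (C₀ * (C₁ * GG (M - K') (bigB x) / κ ^ (M - K' - 0 - 1) * W)) := by ring
    _ ≤ x / Real.log x * (ε * GG M (bigB x)) := mul_le_mul_of_nonneg_left h5 hxl
    _ = _ := by ring

theorem PG.goodTail {x : ℝ} {M K' W K n : ℕ} (hK : K' < K) (hM : K ≤ M)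
    (h : PG ρ x M K' (M - K' + 1) n) (hW : (tl^[M - K' + 1] n).totient ≤ W) :
    GoodTail ρ K' W K (tl^[M - K + 1] n) := by
  refine ⟨iter_pos (by have := h.2.1.1; omega) _, fun e he => ?_, ?_⟩
  · have := h.2.2 (M - K + 1 + e) (by omega) (by omega)
    rwa [show M - (M - K + 1 + e) = K - 1 - e by omega,
      show M - K' - (M - K + 1 + e) = K - 1 - e - K' by omega, ← iter_iter] at this
  · rwa [iter_iter, show M - K + 1 + (K - K') = M - K' + 1 by omega]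

/-- `head_count` with `l = L = M - K`, `τ = tl^[L+1]`, `vl = φ` (`eq_of_pr_eq`), `pc_up'`, `W1`;
`P s = s.2 ∈ Rfin ∧ Head ∧ Cons (tb - sl)` (`HC.cons` with `D = K - K'`), `Bd.fiber` along `s ↦ s.2` and `vol_g_up`:
`B - ∑ g (tb - sl) + 2 ∑ g = B - TT + Sig`. -/
theorem up_main (hρ : IsRho ρ) {ε : ℝ} (hε : 0 < ε) {K' K : ℕ} (W : ℕ) (hK : K' < K) :
    ∀ᶠ z : ℝ × ℕ in FA ρ, ∀ N : Finset ℕ,
    (∀ n ∈ N, (n.totient : ℝ) ≤ z.1 ∧ PG ρ z.1 z.2 K' (z.2 - K' + 1) n ∧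
      (tl^[z.2 - K' + 1] n).totient ≤ W ∧ (yy n 1 : ℝ) ≤ u0 z.1 ∧ Canon (tl^[z.2 - K + 1] n)) →
    (N.card : ℝ) ≤
      (1 + ε) * (z.1 / Real.log z.1) * MT 1 ρ z.1 z.2 K (K - K') (Rfin ρ K' W K) := by
  filter_upwards [(tendsto_fst_FA ρ).eventually (pc_up' hε), W1 hρ,
    (tendsto_M hρ).eventually_ge_atTop (K + 2), (tendsto_fst_FA ρ).eventually_ge_atTop 1]
    with ⟨x, M⟩ hpc hW1 hM hx N hN
  simp only at hpc hW1 hM hx hN ⊢
  have hxl : 0 ≤ x / Real.log x := div_nonneg (by linarith) (Real.log_nonneg hx)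
  have hP : Bd (fun s : (ℕ → ℕ) × ℕ => s.2 ∈ Rfin ρ K' W K ∧ Head 1 (M - K) s.1 ∧
      Cons (M - K) aA (fun i => tb (M - K) (K - K') s.2 i - sl ρ M i) (bigB x) s.1)
      (fun s => wt 1 (M - K) s.1 * rcp s.2.totient) (MT 1 ρ x M K (K - K') (Rfin ρ K' W K)) := by
    refine Bd.fiber (Q := fun r => r ∈ Rfin ρ K' W K)
      (Bd.of_finset (Rfin ρ K' W K) (fun _ h => h) (fun r _ => div_nonneg (pw_nonneg _ _)
        (mul_nonneg (Nat.cast_nonneg _) (gP_pos _).le)) le_rfl) Prod.snd (fun s hs => hs.1)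
      fun r _ => ?_
    have h1 := (vol_g_up (M - K) (fun i => tb (M - K) (K - K') r i - sl ρ M i)
      (bigB x)).const_mul (rcp_nonneg r.totient)
    have e : bigB x - ∑ i ∈ range (M - K + 1), gSeq i * (tb (M - K) (K - K') r i - sl ρ M i) +
        2 * ∑ i ∈ range (M - K + 1), gSeq i =
        bigB x - TT (M - K) (K - K') r + 1 * Sig ρ M (M - K) := by
      simp only [TT, Sig, mul_sub, mul_add, sum_sub_distrib, sum_add_distrib, ← sum_mul]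
      ring
    rw [e] at h1
    refine (h1.of_inj Prod.fst ?_ ?_).mono (fun _ h => h) (fun _ _ => le_rfl) (le_of_eq ?_)
    · rintro ⟨h, r'⟩ ⟨hs, rfl⟩
      exact ⟨hs.2, (mul_comm _ _).le⟩
    · rintro ⟨h, r'⟩ ⟨h', r''⟩ ⟨-, rfl⟩ ⟨-, rfl⟩ hh
      exact Prod.ext hh rfl
    · rw [rcp, div_mul_div_comm, one_mul]
  refine head_count (by positivity) hpc (M - K) N (fun n => tl^[M - K + 1] n) Nat.totient _ hP
    (fun n hn => ?_) fun n _ n' _ h h' => eq_of_pr_eq (fun i hi => h i (by omega)) h'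
  obtain ⟨a1, a2, a3, a4, a5⟩ := hN n hn
  have hch : Chain (M - K + 1) n := a2.chain.mono (by omega)
  exact ⟨hch, a1, (hW1 K' n (by omega) a1 a2.1 a2.2.1).2 a4, rfl,
    mem_Rfin.2 ⟨a5, a2.goodTail hK (by omega) a3⟩, hch.head,
    HC.cons (K - K') ((a2.hc le_rfl).mono (by omega) (by omega))⟩

/-- `exists_sel` with `l = M - K + 1`; four classes -/
theorem upper (hρ : IsRho ρ) {ε : ℝ} (hε : 0 < ε) : ∃ K₀ : ℕ, ∀ K', K₀ ≤ K' → ∃ W₀ : ℕ, ∀ W, W₀ ≤ W →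
    ∀ K, K' < K → ∀ᶠ z : ℝ × ℕ in FA ρ, (totientCount z.1 : ℝ) ≤ z.1 / Real.log z.1 *
      ((1 + ε) * MT 1 ρ z.1 z.2 K (K - K') (Rfin ρ K' W K) + ε * GG z.2 (bigB z.1)) := by
  classical
  have hε3 : 0 < ε / 3 := by positivity
  obtain ⟨K₀, hK₀⟩ := up_viol hρ hε3
  refine ⟨K₀, fun K' hK' => ?_⟩
  obtain ⟨W₀, hW₀⟩ := up_end hρ hε3 K'
  refine ⟨W₀, fun W hW K hK => ?_⟩
  filter_upwards [hK₀ K' hK', hW₀ W hW, up_gap hρ hε3 K' W, up_main hρ hε W hK]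
    with ⟨x, M⟩ h1 h2 h3 h4
  simp only at h1 h2 h3 h4 ⊢
  obtain ⟨N, hN, hinj, hs⟩ := exists_sel x (M - K + 1)
  have hi : ∀ (p : ℕ → Prop) [DecidablePred p], Set.InjOn Nat.totient (N.filter p) := fun p _ =>
    hinj.mono (coe_subset.2 (filter_subset _ _))
  have b1 := h1 (N.filter fun n => ¬ PG ρ x M K' (M - K' + 1) n) (hi _) fun n hn =>
    ⟨(hs n (mem_filter.1 hn).1).1, (hs n (mem_filter.1 hn).1).2.1, (mem_filter.1 hn).2⟩
  have b2 := h2 (N.filter fun n => PG ρ x M K' (M - K' + 1) n ∧ W < (tl^[M - K' + 1] n).totient)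
    (hi _) fun n hn => ⟨(hs n (mem_filter.1 hn).1).2.1, (mem_filter.1 hn).2⟩
  have b3 := h3 (N.filter fun n => PG ρ x M K' (M - K' + 1) n ∧ (tl^[M - K' + 1] n).totient ≤ W ∧
    u0 x < yy n 1) (hi _) fun n hn => ⟨(hs n (mem_filter.1 hn).1).2.1, (mem_filter.1 hn).2⟩
  have b4 := h4 (N.filter fun n => PG ρ x M K' (M - K' + 1) n ∧ (tl^[M - K' + 1] n).totient ≤ W ∧
    (yy n 1 : ℝ) ≤ u0 x) fun n hn => by
      obtain ⟨a1, a2, a3, a4⟩ := mem_filter.1 hn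
      exact ⟨(hs n a1).2.1, a2, a3, a4, (hs n a1).2.2 (a2.chain.mono (by omega))⟩
  have hsub : N ⊆ (N.filter fun n => ¬ PG ρ x M K' (M - K' + 1) n) ∪
      (N.filter fun n => PG ρ x M K' (M - K' + 1) n ∧ W < (tl^[M - K' + 1] n).totient) ∪
      (N.filter fun n => PG ρ x M K' (M - K' + 1) n ∧ (tl^[M - K' + 1] n).totient ≤ W ∧
        u0 x < yy n 1) ∪
      (N.filter fun n => PG ρ x M K' (M - K' + 1) n ∧ (tl^[M - K' + 1] n).totient ≤ W ∧
        (yy n 1 : ℝ) ≤ u0 x) := by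
    intro n hn
    simp only [mem_union, mem_filter, hn, true_and]
    by_cases a1 : PG ρ x M K' (M - K' + 1) n
    · rcases lt_or_ge W (tl^[M - K' + 1] n).totient with a2 | a2
      · exact Or.inl (Or.inl (Or.inr ⟨a1, a2⟩))
      · rcases lt_or_ge (u0 x) (yy n 1) with a3 | a3
        · exact Or.inl (Or.inr ⟨a1, a2, a3⟩)
        · exact Or.inr ⟨a1, a2, a3⟩
    · exact Or.inl (Or.inl (Or.inl a1))
  have hc := (card_le_card hsub).trans ((card_union_le _ _).trans (Nat.add_le_add_right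
    ((card_union_le _ _).trans (Nat.add_le_add_right (card_union_le _ _) _)) _))
  have hc' := (Nat.cast_le (α := ℝ)).2 hc
  push_cast at hc'
  rw [hN]
  linarith

end Crest.Agent.R20
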