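import Crest.Agent.R20.Theta
import Crest.Agent.R20.ACoef

/-!
# R20/Vol: discrete volume of a simplex
-/

set_option autoImplicit false

open Finset Filter Topology Crest.NumberTheoryR.TotientScale

namespace Crest.Agent.R20

theorem Vol_tele_le (m : ℕ) (X : ℝ) {c : ℝ} (hc : 0 ≤ c) (s T : ℕ) :
    c * ∑ t ∈ Icc s T, pw m (X - c * t) ≤ pw (m + 1) (X - c * s + c) := by
  have key : ∀ n : ℕ, c * ∑ t ∈ Ico s (s + n), pw m (X - c * t) ≤
      pw (m + 1) (X - c * s + c) - pw (m + 1) (X - c * (s + n : ℕ) + c) := by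
    intro n
    induction n with
    | zero => simp
    | succ n ih =>
      rw [← add_assoc, sum_Ico_succ_top (Nat.le_add_right _ _), mul_add]
      have h1 := pw_step_le m (X - c * (s + n : ℕ)) hc
      have h2 : X - c * ((s + n + 1 : ℕ) : ℝ) + c = X - c * (s + n : ℕ) := by push_cast; ring
      rw [h2]
      linarith
  by_cases h : s ≤ T + 1
  · obtain ⟨n, hn⟩ := Nat.exists_eq_add_of_le h
    have h1 := key n
    rw [← hn] at h1
    have h2 : Icc s T = Ico s (T + 1) := by ext t; simp [Nat.lt_succ_iff]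
    rw [h2]
    linarith [pw_nonneg (m + 1) (X - c * (T + 1 : ℕ) + c)]
  · rw [Icc_eq_empty (by omega), sum_empty, mul_zero]
    exact pw_nonneg _ _

theorem Vol_tele_ge (m : ℕ) (X : ℝ) {c : ℝ} (hc : 0 ≤ c) (s n : ℕ) :
    pw (m + 1) (X - c * s) - pw (m + 1) (X - c * (s + n : ℕ)) ≤
      c * ∑ t ∈ Ico s (s + n), pw m (X - c * t) := by
  induction n with
  | zero => simp
  | succ n ih =>
    rw [← add_assoc, sum_Ico_succ_top (Nat.le_add_right _ _), mul_add]
    have h1 := pw_step_ge m (X - c * (s + n : ℕ)) hc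
    have h2 : X - c * ((s + n + 1 : ℕ) : ℝ) = X - c * (s + n : ℕ) - c := by push_cast; ring
    rw [h2]
    linarith

theorem Vol_anti (m : ℕ) (X : ℝ) {c : ℝ} (hc : 0 ≤ c) (t : ℕ) :
    pw m (X - c * (t + 1 : ℕ)) ≤ pw m (X - c * t) := by
  apply pw_mono
  push_cast
  linarith

/-- `sum_th_anti_le` with `f t = pw m (X - c t)`, `t₀ = max 1 ⌈b⌉₊`; telescope with `pw_step_le`
(`c f t₀ ≤ c pw m (X - c (t₀ - 1))`). -/
theorem sum_pw_le (m : ℕ) (X b : ℝ) {c c' : ℝ} (hc : 0 < c) (hcc : c ≤ c') :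
    Bd (fun p : ℕ => p.Prime ∧ b ≤ th p) (fun p => 1 / ((p : ℝ) - 1) * pw m (X - c' * th p))
      (pw (m + 1) (X - c * b + 2 * c) / c) := by
  intro S hS
  set t₀ := max 1 ⌈b⌉₊ with ht₀
  have hb : b ≤ t₀ := (Nat.le_ceil b).trans (by exact_mod_cast le_max_right _ _)
  have h1 := sum_th_anti_le (f := fun t => pw m (X - c * t)) (t₀ := t₀) (le_max_left _ _)
    (fun t _ => Vol_anti m X hc.le t) (fun t _ => pw_nonneg _ _) (S.sup th)
  have hsub : S ⊆ (PP (S.sup th)).filter (fun q => t₀ ≤ th q) := by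
    intro p hp
    obtain ⟨hp1, hp2⟩ := hS p hp
    exact mem_filter.2 ⟨mem_PP.2 ⟨hp1, le_sup (f := th) hp⟩,
      max_le (th_pos hp1.two_le) (Nat.ceil_le.2 hp2)⟩
  have h2 : ∑ p ∈ S, 1 / ((p : ℝ) - 1) * pw m (X - c' * th p) ≤
      ∑ q ∈ (PP (S.sup th)).filter (fun q => t₀ ≤ th q), pw m (X - c * th q) / ((q : ℝ) - 1) := by
    refine le_trans (sum_le_sum fun p hp => ?_) (sum_le_sum_of_subset_of_nonneg hsub fun q hq _ => ?_)
    · rw [div_eq_mul_one_div (pw m _), mul_comm (pw m _)]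
      refine mul_le_mul_of_nonneg_left (pw_mono m ?_) (Theta_inv_nonneg (hS p hp).1)
      have : (0 : ℝ) ≤ th p := Nat.cast_nonneg _
      nlinarith
    · rw [div_eq_mul_one_div (pw m _)]
      exact mul_nonneg (pw_nonneg _ _) (Theta_inv_nonneg (mem_PP.1 (mem_filter.1 hq).1).1)
  have h3 := Vol_tele_le m X hc.le t₀ (S.sup th)
  have h4 := pw_step_le m (X - c * t₀ + c) hc.le
  have h5 : pw m (X - c * t₀) ≤ pw m (X - c * t₀ + c) := pw_mono m (by linarith)
  have h6 : pw (m + 1) (X - c * t₀ + c + c) ≤ pw (m + 1) (X - c * b + 2 * c) :=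
    pw_mono _ (by nlinarith)
  rw [le_div_iff₀ hc]
  nlinarith

/-- `sum_th_anti_ge`, `t₀ = max 1 ⌈b⌉₊ ≤ b + 1`, `T` so large that `X - c (T+1) < 0`; `pw_step_ge` -/
theorem sum_pw_ge (m : ℕ) (X : ℝ) {b c c' : ℝ} (hb : 0 ≤ b) (hc : 0 < c) (hcc : c' ≤ c) :
    ∃ T : Finset ℕ, (∀ p ∈ T, p.Prime ∧ b ≤ th p) ∧
      pw (m + 1) (X - c * b - 2 * c) / c ≤ ∑ p ∈ T, 1 / ((p : ℝ) - 1) * pw m (X - c' * th p) := by
  set t₀ := max 1 ⌈b⌉₊ with ht₀
  have hb1 : b ≤ t₀ := (Nat.le_ceil b).trans (by exact_mod_cast le_max_right _ _)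
  have hb2 : (t₀ : ℝ) ≤ b + 1 := by
    rw [ht₀, Nat.cast_max]
    exact max_le (by push_cast; linarith) (Nat.ceil_lt_add_one hb).le
  obtain ⟨n, hn⟩ := exists_nat_gt (X / c)
  have h1 := sum_th_anti_ge (f := fun t => pw m (X - c * t)) (t₀ := t₀) (le_max_left _ _)
    (fun t _ => Vol_anti m X hc.le t) (fun t _ => pw_nonneg _ _) (t₀ + n)
  refine ⟨(PP (t₀ + n)).filter (fun q => t₀ ≤ th q), fun p hp => ?_, ?_⟩
  · obtain ⟨hp1, hp2⟩ := mem_filter.1 hp
    exact ⟨(mem_PP.1 hp1).1, hb1.trans (by exact_mod_cast hp2)⟩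
  · have h2 := Vol_tele_ge m X hc.le (t₀ + 1) n
    have h3 : Icc (t₀ + 1) (t₀ + n) = Ico (t₀ + 1) (t₀ + 1 + n) := by
      ext t; simp only [mem_Icc, mem_Ico]; omega
    rw [h3] at h1
    have h4 : pw (m + 1) (X - c * (t₀ + 1 + n : ℕ)) = 0 := by
      rw [pw, if_neg]
      rw [div_lt_iff₀ hc] at hn
      push_cast
      have : (0 : ℝ) ≤ t₀ := Nat.cast_nonneg _
      nlinarith
    have h5 : pw (m + 1) (X - c * b - 2 * c) ≤ pw (m + 1) (X - c * (t₀ + 1 : ℕ)) :=
      pw_mono _ (by push_cast; nlinarith)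
    have h6 : ∑ q ∈ (PP (t₀ + n)).filter (fun q => t₀ ≤ th q), pw m (X - c * th q) / ((q : ℝ) - 1) ≤
        ∑ p ∈ (PP (t₀ + n)).filter (fun q => t₀ ≤ th q),
          1 / ((p : ℝ) - 1) * pw m (X - c' * th p) := by
      refine sum_le_sum fun p hp => ?_
      rw [div_eq_mul_one_div (pw m _), mul_comm (pw m _)]
      refine mul_le_mul_of_nonneg_left (pw_mono m ?_)
        (Theta_inv_nonneg (mem_PP.1 (mem_filter.1 hp).1).1)
      have : (0 : ℝ) ≤ th p := Nat.cast_nonneg _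
      nlinarith
    rw [div_le_iff₀ hc]
    nlinarith

theorem Vol_head_zero {h : ℕ → ℕ} (hh : Head 1 0 h) : h = 0 :=
  funext fun i => hh.2 i (by simp)

theorem Vol_wt_succ (l : ℕ) (h : ℕ → ℕ) :
    wt 1 (l + 1) h = 1 / ((h (l + 1) : ℝ) - 1) * wt 1 l h := by
  rw [wt, wt, prod_Icc_succ_top (by omega), mul_comm]

theorem Vol_wt_congr {l : ℕ} {h h' : ℕ → ℕ} (e : ∀ i ≤ l, h i = h' i) : wt 1 l h = wt 1 l h' :=
  prod_congr rfl fun i hi => by rw [e i (mem_Icc.1 hi).2]

theorem Vol_cons_congr {l : ℕ} {A : ℕ → ℕ → ℝ} {β : ℕ → ℝ} {B : ℝ} {h h' : ℕ → ℕ}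
    (e : ∀ i ≤ l, h i = h' i) (hc : Cons l A β B h) : Cons l A β B h' := by
  intro i hi
  have h1 := hc i hi
  have h2 : ∑ k ∈ Ioc i l, A i k * th (h k) = ∑ k ∈ Ioc i l, A i k * th (h' k) :=
    sum_congr rfl fun k hk => by rw [e k (mem_Ioc.1 hk).2]
  have h3 : lev B h i = lev B h' i := by rw [lev, lev, e i hi]
  rwa [h2, h3] at h1

theorem Vol_cons_succ {l : ℕ} {A : ℕ → ℕ → ℝ} {β : ℕ → ℝ} {B : ℝ} {h : ℕ → ℕ} :
    Cons (l + 1) A β B h ↔
      Cons l A (fun i => β i + A i (l + 1) * th (h (l + 1))) B h ∧ β (l + 1) ≤ th (h (l + 1)) := by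
  constructor
  · intro hc
    refine ⟨fun i hi => ?_, ?_⟩
    · have h1 := hc i (by omega)
      rw [sum_Ioc_succ_top hi] at h1
      linarith
    · simpa [lev] using hc (l + 1) le_rfl
  · rintro ⟨h1, h2⟩ i hi
    rcases Nat.lt_or_ge i (l + 1) with hi' | hi'
    · have h3 := h1 i (by omega)
      rw [sum_Ioc_succ_top (by omega)]
      linarith
    · obtain rfl : i = l + 1 := le_antisymm hi hi'
      simpa [lev] using h2

theorem Vol_sum_split (l : ℕ) (A : ℕ → ℕ → ℝ) (β γ : ℕ → ℝ) (t : ℝ) :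
    ∑ i ∈ range (l + 1), γ i * (β i + A i (l + 1) * t) =
      ∑ i ∈ range (l + 1), γ i * β i + (∑ i ∈ range (l + 1), γ i * A i (l + 1)) * t := by
  rw [sum_mul, ← sum_add_distrib]
  exact sum_congr rfl fun i _ => by ring

theorem Vol_prod_pos {l : ℕ} {γ : ℕ → ℝ} (h : ∀ k ∈ Icc 1 l, 0 < γ k) :
    0 < ∏ i ∈ range l, γ (i + 1) :=
  prod_pos fun i hi => h _ (mem_Icc.2 ⟨by omega, by have := mem_range.1 hi; omega⟩)

/-- Integrate out the levels `1, 2, …, l` in this order.  For `m ≤ l` let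
`X m h = B - ∑_{i ≤ m} γ i β i - ∑_{k ∈ Ioc m l} (∑_{i ≤ m} γ i A i k) th (h k) + 2 ∑_{i < m} γ (i+1)`.
Claim (descending from the goal, i.e. induction on `l - m`):
`Bd (Head (m+1) l h ∧ constraints at the levels m < i ≤ l) (wt (m+1) l h * pw m (X m h) / ∏_{i<m} γ (i+1)) goal`.
Step: `Bd.fiber` along `h ↦ Function.update h (m+1) 0`, the fibre is parametrised by `p = h (m+1)`; `sum_pw_le`.
For `m = 0`, `pw 0 (X 0 h) = 1` is the constraint at level `0`. -/
theorem vol_up (l : ℕ) (A : ℕ → ℕ → ℝ) (β γ : ℕ → ℝ) (B : ℝ) (h0 : γ 0 = 1)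
    (hγ : ∀ k ∈ Icc 1 l, 0 < γ k ∧ γ k ≤ ∑ i ∈ range k, γ i * A i k) :
    Bd (fun h => Head 1 l h ∧ Cons l A β B h) (wt 1 l)
      (pw l (B - ∑ i ∈ range (l + 1), γ i * β i + 2 * ∑ i ∈ range (l + 1), γ i) /
        ∏ i ∈ range l, γ (i + 1)) := by
  induction l generalizing β with
  | zero =>
    by_cases hB : β 0 ≤ B
    · refine Bd.of_finset {0} (fun h hh => mem_singleton.2 (Vol_head_zero hh.1))
        (fun h _ => by simp [wt]) ?_
      have : 0 ≤ B - β 0 + 2 := by linarith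
      simp [wt, pw, h0, this]
    · refine Bd.of_empty (fun h hh => hB ?_) (div_nonneg (pw_nonneg _ _) (by simp))
      simpa [lev] using hh.2 0 le_rfl
  | succ l ih =>
    have hγ' : ∀ k ∈ Icc 1 l, 0 < γ k ∧ γ k ≤ ∑ i ∈ range k, γ i * A i k := fun k hk =>
      hγ k (Icc_subset_Icc_right (Nat.le_succ l) hk)
    obtain ⟨hc, hcc⟩ := hγ (l + 1) (mem_Icc.2 ⟨by omega, le_rfl⟩)
    have hP : 0 < ∏ i ∈ range l, γ (i + 1) := Vol_prod_pos fun k hk => (hγ' k hk).1
    set X := B - ∑ i ∈ range (l + 1), γ i * β i + 2 * ∑ i ∈ range (l + 1), γ i with hX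
    have h1 := (sum_pw_le l X (β (l + 1)) hc hcc).const_mul (c := 1 / ∏ i ∈ range l, γ (i + 1))
      (by positivity)
    refine Bd.mono (Bd.fiber h1 (fun h => h (l + 1)) (fun h hh => ?_) fun p hp => ?_)
      (fun _ h => h) (fun _ _ => le_rfl) (le_of_eq ?_)
    · exact ⟨hh.1.1 _ (mem_Icc.2 ⟨by omega, le_rfl⟩), (Vol_cons_succ.1 hh.2).2⟩
    · have h2 := (ih (fun i => β i + A i (l + 1) * th p) hγ').const_mul (Theta_inv_nonneg hp.1)
      refine Bd.mono (Bd.of_inj h2 (fun h => Function.update h (l + 1) 0) ?_ ?_)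
        (fun _ h => h) (fun _ _ => le_rfl) (le_of_eq ?_)
      · rintro h ⟨⟨hh, hcs⟩, rfl⟩
        have e : ∀ i ≤ l, h i = Function.update h (l + 1) 0 i := fun i hi => by
          rw [Function.update_of_ne (by omega)]
        refine ⟨⟨⟨fun i hi => ?_, fun i hi => ?_⟩, Vol_cons_congr e (Vol_cons_succ.1 hcs).1⟩, ?_⟩
        · rw [← e i (mem_Icc.1 hi).2]
          exact hh.1 i (Icc_subset_Icc_right (Nat.le_succ l) hi)
        · by_cases hi' : i = l + 1
          · rw [hi', Function.update_self]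
          · rw [Function.update_of_ne hi']
            refine hh.2 i ?_
            simp only [mem_Icc] at hi ⊢
            omega
        · rw [Vol_wt_succ, Vol_wt_congr e]
      · rintro h h' ⟨-, e1⟩ ⟨-, e2⟩ e
        funext i
        by_cases hi : i = l + 1
        · rw [hi]; exact e1.trans e2.symm
        · have := congrFun e i
          simpa [Function.update_of_ne hi] using this
      · rw [Vol_sum_split, hX]
        have : B - (∑ i ∈ range (l + 1), γ i * β i +
            (∑ i ∈ range (l + 1), γ i * A i (l + 1)) * (th p : ℝ)) + 2 * ∑ i ∈ range (l + 1), γ i =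
            B - ∑ i ∈ range (l + 1), γ i * β i + 2 * ∑ i ∈ range (l + 1), γ i -
              (∑ i ∈ range (l + 1), γ i * A i (l + 1)) * (th p : ℝ) := by ring
        rw [this]
        ring
    · rw [prod_range_succ, sum_range_succ _ (l + 1), sum_range_succ _ (l + 1), hX]
      have : B - (∑ i ∈ range (l + 1), γ i * β i + γ (l + 1) * β (l + 1)) +
          2 * (∑ i ∈ range (l + 1), γ i + γ (l + 1)) =
          B - ∑ i ∈ range (l + 1), γ i * β i + 2 * ∑ i ∈ range (l + 1), γ i -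
            γ (l + 1) * β (l + 1) + 2 * γ (l + 1) := by ring
      rw [this]
      field_simp

/-- Induction on `m ≤ l`: for every outer head `h'` with `Head (m+1) l h'` there is a finite set of heads
`Head 1 l h`, equal to `h'` above `m`, satisfying the constraints at the levels `≤ m`, with
`∑ wt 1 m h ≥ pw m (X' m h') / ∏_{i<m} γ (i+1)` (`X'` as in `vol_up` with `- 2 ∑`).  Step: `sum_pw_ge`, and a disjoint
union (`Finset.biUnion`/`sigma`) over `p` of the sets for `Function.update h' (m+1) p`. -/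
theorem vol_lo (l : ℕ) (A : ℕ → ℕ → ℝ) (β γ : ℕ → ℝ) (B : ℝ) (h0 : γ 0 = 1)
    (hγ : ∀ k ∈ Icc 1 l, 0 < γ k ∧ ∑ i ∈ range k, γ i * A i k ≤ γ k)
    (hA : ∀ i k, i < k → k ≤ l → 0 ≤ A i k) (hβ : ∀ i ≤ l, 0 ≤ β i) :
    ∃ S : Finset (ℕ → ℕ), (∀ h ∈ S, Head 1 l h ∧ Cons l A β B h) ∧
      pw l (B - ∑ i ∈ range (l + 1), γ i * β i - 2 * ∑ i ∈ range (l + 1), γ i) /
        ∏ i ∈ range l, γ (i + 1) ≤ ∑ h ∈ S, wt 1 l h := by
  classical
  induction l generalizing β with
  | zero =>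
    by_cases hB : 0 ≤ B - β 0 - 2
    · refine ⟨{0}, fun h hh => ?_, ?_⟩
      · rw [mem_singleton.1 hh]
        refine ⟨⟨by simp, by simp⟩, fun i hi => ?_⟩
        obtain rfl : i = 0 := by omega
        simp only [lev, Ioc_self, sum_empty, if_true]
        linarith
      · have : 2 ≤ B - β 0 := by linarith
        simp [wt, pw, h0, this]
    · refine ⟨∅, by simp, ?_⟩
      have : ¬ (2 ≤ B - β 0) := fun h => hB (by linarith)
      simp [pw, h0, this]
  | succ l ih =>
    have hγ' : ∀ k ∈ Icc 1 l, 0 < γ k ∧ ∑ i ∈ range k, γ i * A i k ≤ γ k := fun k hk =>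
      hγ k (Icc_subset_Icc_right (Nat.le_succ l) hk)
    obtain ⟨hc, hcc⟩ := hγ (l + 1) (mem_Icc.2 ⟨by omega, le_rfl⟩)
    have hP : 0 < ∏ i ∈ range l, γ (i + 1) := Vol_prod_pos fun k hk => (hγ' k hk).1
    set X := B - ∑ i ∈ range (l + 1), γ i * β i - 2 * ∑ i ∈ range (l + 1), γ i with hX
    obtain ⟨T, hT, hT'⟩ := sum_pw_ge l X (hβ (l + 1) le_rfl) hc hcc
    have h1 := fun p : ℕ => ih (fun i => β i + A i (l + 1) * th p) hγ'
      (fun i k h1 h2 => hA i k h1 (by omega))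
      (fun i hi => add_nonneg (hβ i (by omega))
        (mul_nonneg (hA i (l + 1) (by omega) le_rfl) (Nat.cast_nonneg _)))
    choose S hS hS' using h1
    have e : ∀ (h : ℕ → ℕ) (p : ℕ), ∀ i ≤ l, h i = Function.update h (l + 1) p i := fun h p i hi => by
      rw [Function.update_of_ne (by omega)]
    refine ⟨(T.sigma S).image fun z => Function.update z.2 (l + 1) z.1, fun h hh => ?_, ?_⟩
    · obtain ⟨⟨p, g⟩, hz, rfl⟩ := mem_image.1 hh
      obtain ⟨hp, hg⟩ := mem_sigma.1 hz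
      obtain ⟨hg1, hg2⟩ := hS p g hg
      refine ⟨⟨fun i hi => ?_, fun i hi => ?_⟩, Vol_cons_succ.2 ⟨?_, ?_⟩⟩
      · by_cases hi' : i = l + 1
        · rw [hi', Function.update_self]
          exact (hT p hp).1
        · rw [Function.update_of_ne hi']
          refine hg1.1 i ?_
          simp only [mem_Icc] at hi ⊢
          omega
      · have hi' : i ≠ l + 1 := by
          rintro rfl
          exact hi (mem_Icc.2 ⟨by omega, le_rfl⟩)
        rw [Function.update_of_ne hi']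
        exact hg1.2 i fun h => hi (Icc_subset_Icc_right (Nat.le_succ l) h)
      · rw [Function.update_self]
        exact Vol_cons_congr (e g p) hg2
      · rw [Function.update_self]
        exact (hT p hp).2
    · rw [sum_image, sum_sigma]
      · have h2 : ∀ p ∈ T, 1 / (∏ i ∈ range l, γ (i + 1)) * (1 / ((p : ℝ) - 1) *
            pw l (X - (∑ i ∈ range (l + 1), γ i * A i (l + 1)) * th p)) ≤
            ∑ g ∈ S p, wt 1 (l + 1) (Function.update g (l + 1) p) := by
          intro p hp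
          have h3 : ∑ g ∈ S p, wt 1 (l + 1) (Function.update g (l + 1) p) =
              1 / ((p : ℝ) - 1) * ∑ g ∈ S p, wt 1 l g := by
            rw [mul_sum]
            refine sum_congr rfl fun g _ => ?_
            rw [Vol_wt_succ, Function.update_self, ← Vol_wt_congr (e g p)]
          have h4 := mul_le_mul_of_nonneg_left (hS' p) (Theta_inv_nonneg (hT p hp).1)
          rw [h3]
          refine le_trans (le_of_eq ?_) h4
          rw [Vol_sum_split, hX]
          have : B - (∑ i ∈ range (l + 1), γ i * β i +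
              (∑ i ∈ range (l + 1), γ i * A i (l + 1)) * (th p : ℝ)) - 2 * ∑ i ∈ range (l + 1), γ i =
              B - ∑ i ∈ range (l + 1), γ i * β i - 2 * ∑ i ∈ range (l + 1), γ i -
                (∑ i ∈ range (l + 1), γ i * A i (l + 1)) * (th p : ℝ) := by ring
          rw [this]
          ring
        refine le_trans ?_ (sum_le_sum h2)
        rw [← mul_sum]
        refine le_trans (le_of_eq ?_) (mul_le_mul_of_nonneg_left hT' (by positivity))
        rw [prod_range_succ, sum_range_succ _ (l + 1), sum_range_succ _ (l + 1), hX]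
        have : B - (∑ i ∈ range (l + 1), γ i * β i + γ (l + 1) * β (l + 1)) -
            2 * (∑ i ∈ range (l + 1), γ i + γ (l + 1)) =
            B - ∑ i ∈ range (l + 1), γ i * β i - 2 * ∑ i ∈ range (l + 1), γ i -
              γ (l + 1) * β (l + 1) - 2 * γ (l + 1) := by ring
        rw [this]
        field_simp
      · rintro ⟨p, g⟩ hz ⟨p', g'⟩ hz' ee
        obtain ⟨hp, hg⟩ := mem_sigma.1 (mem_coe.1 hz)
        obtain ⟨hp', hg'⟩ := mem_sigma.1 (mem_coe.1 hz')
        have e1 : p = p' := by simpa using congrFun ee (l + 1)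
        subst e1
        have e2 : g = g' := by
          funext i
          by_cases hi : i = l + 1
          · rw [hi, (hS p g hg).1.2 _ (by simp), (hS p g' hg').1.2 _ (by simp)]
          · simpa [Function.update_of_ne hi] using congrFun ee i
        rw [e2]

end Crest.Agent.R20
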